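import Mathlib

namespace Vale.Agent.Lib.P318

/-- A capacity function on the vertex set `Fin n`: symmetric, nonnegative, zero on the diagonal. -/
def IsCapacity {n : ℕ} (c : Fin n → Fin n → ℝ) : Prop :=
  (∀ i j, c i j = c j i) ∧ (∀ i j, 0 ≤ c i j) ∧ ∀ i, c i i = 0

/-- The total capacity crossing the cut between `S` and its complement. -/
def cutCap {n : ℕ} (c : Fin n → Fin n → ℝ) (S : Finset (Fin n)) : ℝ :=
  ∑ i ∈ S, ∑ j ∈ Finset.univ \ S, c i j

/-- The ratio of the cut given by `S`: crossing capacity divided by `|S| * (n - |S|)`. -/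
noncomputable def cutRatio {n : ℕ} (c : Fin n → Fin n → ℝ) (S : Finset (Fin n)) : ℝ :=
  cutCap c S / ((S.card : ℝ) * ((n : ℝ) - (S.card : ℝ)))

/-- The uniform sparsest cut value: the least ratio of a cut given by a nonempty proper `S`. -/
noncomputable def sparsity {n : ℕ} (c : Fin n → Fin n → ℝ) : ℝ :=
  sInf {r : ℝ | ∃ S : Finset (Fin n), S.Nonempty ∧ S ≠ Finset.univ ∧ r = cutRatio c S}

/-- Negative-type semimetrics on `Fin n`: squared Euclidean distances between points of `ℝ^n`
that satisfy all triangle inequalities. -/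
def IsNegTypeSemimetric {n : ℕ} (d : Fin n → Fin n → ℝ) : Prop :=
  (∃ x : Fin n → EuclideanSpace ℝ (Fin n), ∀ i j, d i j = ‖x i - x j‖ ^ 2) ∧
    ∀ i j k, d i k ≤ d i j + d j k

/-- The sum of `f i j` over all pairs `i < j`. -/
def pairSum {n : ℕ} (f : Fin n → Fin n → ℝ) : ℝ :=
  ∑ i, ∑ j, if i < j then f i j else 0

/-- The value `GL(c)` of the Goemans-Linial relaxation: the infimum of `∑_{i<j} c i j * d i j`
over negative-type semimetrics `d` with `∑_{i<j} d i j = 1`. -/
noncomputable def glValue {n : ℕ} (c : Fin n → Fin n → ℝ) : ℝ :=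
  sInf {v : ℝ | ∃ d : Fin n → Fin n → ℝ, IsNegTypeSemimetric d ∧ pairSum d = 1 ∧
    v = pairSum (fun i j => c i j * d i j)}

end Vale.Agent.Lib.P318
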