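import Mathlib
import Vale.Agent.Lib.P318.Defs

namespace Vale.Agent.Lib.P318

open Finset

theorem negType_ineq {n : ℕ} (x : Fin n → EuclideanSpace ℝ (Fin n)) (b : Fin n → ℝ)
    (hb : ∑ i, b i = 0) : ∑ i, ∑ j, b i * b j * ‖x i - x j‖ ^ 2 ≤ 0 := by
  have h := inner_sum_smul_sum_smul_of_sum_eq_zero (s₁ := Finset.univ) (w₁ := b) x hb
    (s₂ := Finset.univ) (w₂ := b) x hb
  have h2 : 0 ≤ inner ℝ (∑ i, b i • x i) (∑ i, b i • x i) := real_inner_self_nonneg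
  rw [h] at h2
  have h3 : ∑ i, ∑ j, b i * b j * ‖x i - x j‖ ^ 2
      = ∑ i, ∑ j, b i * b j * (‖x i - x j‖ * ‖x i - x j‖) := by
    refine Finset.sum_congr rfl fun i _ => Finset.sum_congr rfl fun j _ => ?_
    rw [sq]
  rw [h3]
  linarith

theorem IsNegTypeSemimetric.symm {n : ℕ} {d : Fin n → Fin n → ℝ} (hd : IsNegTypeSemimetric d)
    (i j : Fin n) : d i j = d j i := by
  obtain ⟨⟨x, hx⟩, -⟩ := hd
  rw [hx, hx, norm_sub_rev]

theorem IsNegTypeSemimetric.self {n : ℕ} {d : Fin n → Fin n → ℝ} (hd : IsNegTypeSemimetric d)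
    (i : Fin n) : d i i = 0 := by
  obtain ⟨⟨x, hx⟩, -⟩ := hd
  rw [hx]; simp

theorem IsNegTypeSemimetric.nonneg {n : ℕ} {d : Fin n → Fin n → ℝ} (hd : IsNegTypeSemimetric d)
    (i j : Fin n) : 0 ≤ d i j := by
  obtain ⟨⟨x, hx⟩, -⟩ := hd
  rw [hx]; positivity

theorem IsNegTypeSemimetric.neg_ineq {n : ℕ} {d : Fin n → Fin n → ℝ} (hd : IsNegTypeSemimetric d)
    (b : Fin n → ℝ) (hb : ∑ i, b i = 0) : ∑ i, ∑ j, b i * b j * d i j ≤ 0 := by
  obtain ⟨⟨x, hx⟩, -⟩ := hd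
  simp only [hx]
  exact negType_ineq x b hb

theorem pairSum_five (f : Fin 5 → Fin 5 → ℝ) :
    pairSum f = f 0 1 + f 0 2 + f 0 3 + f 0 4 + f 1 2 + f 1 3 + f 1 4 + f 2 3 + f 2 4 + f 3 4 := by
  simp [pairSum, Fin.sum_univ_five]
  ring

theorem cutCap_eq_ite {n : ℕ} (c : Fin n → Fin n → ℝ) (S : Finset (Fin n)) :
    cutCap c S = ∑ i, ∑ j, if i ∈ S ∧ j ∉ S then c i j else 0 := by
  unfold cutCap
  rw [← Finset.compl_eq_univ_sdiff]
  rw [← Finset.sum_filter_add_sum_filter_not Finset.univ (· ∈ S)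
    (fun i => ∑ j, if i ∈ S ∧ j ∉ S then c i j else 0)]
  have h1 : ∑ i ∈ Finset.univ.filter (· ∈ S), ∑ j, (if i ∈ S ∧ j ∉ S then c i j else 0)
      = ∑ i ∈ S, ∑ j ∈ Sᶜ, c i j := by
    rw [Finset.filter_mem_eq_inter, Finset.univ_inter]
    refine Finset.sum_congr rfl fun i hi => ?_
    rw [← Finset.sum_filter_add_sum_filter_not Finset.univ (· ∈ S)]
    have a1 : ∑ j ∈ Finset.univ.filter (· ∈ S), (if i ∈ S ∧ j ∉ S then c i j else 0) = 0 := by
      refine Finset.sum_eq_zero fun j hj => ?_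
      simp only [Finset.mem_filter, Finset.mem_univ, true_and] at hj
      simp [hj]
    have a2 : ∑ j ∈ Finset.univ.filter (fun j => ¬ (j ∈ S)), (if i ∈ S ∧ j ∉ S then c i j else 0)
        = ∑ j ∈ Sᶜ, c i j := by
      have : Finset.univ.filter (fun j => ¬ (j ∈ S)) = Sᶜ := by
        ext j; simp
      rw [this]
      refine Finset.sum_congr rfl fun j hj => ?_
      simp only [Finset.mem_compl] at hj
      simp [hi, hj]
    rw [a1, a2, zero_add]
  have h2 : ∑ i ∈ Finset.univ.filter (fun i => ¬ (i ∈ S)), ∑ j, (if i ∈ S ∧ j ∉ S then c i j else 0)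
      = 0 := by
    refine Finset.sum_eq_zero fun i hi => ?_
    simp only [Finset.mem_filter, Finset.mem_univ, true_and] at hi
    simp [hi]
  rw [h1, h2, add_zero]

theorem cutCap_nonneg {n : ℕ} {c : Fin n → Fin n → ℝ} (hc : IsCapacity c) (S : Finset (Fin n)) :
    0 ≤ cutCap c S :=
  Finset.sum_nonneg fun i _ => Finset.sum_nonneg fun j _ => hc.2.1 i j

theorem card_factor_pos {n : ℕ} (S : Finset (Fin n)) (h1 : S.Nonempty) (h2 : S ≠ Finset.univ) :
    0 < (S.card : ℝ) * ((n : ℝ) - (S.card : ℝ)) := by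
  have a : 0 < S.card := Finset.card_pos.mpr h1
  have b : S.card < n := by
    have := Finset.card_lt_card (Finset.ssubset_univ_iff.mpr h2)
    simpa using this
  have a' : (0 : ℝ) < (S.card : ℝ) := by exact_mod_cast a
  have b' : (S.card : ℝ) < (n : ℝ) := by exact_mod_cast b
  exact mul_pos a' (by linarith)

theorem cutRatio_nonneg {n : ℕ} {c : Fin n → Fin n → ℝ} (hc : IsCapacity c) (S : Finset (Fin n))
    (h1 : S.Nonempty) (h2 : S ≠ Finset.univ) : 0 ≤ cutRatio c S :=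
  div_nonneg (cutCap_nonneg hc S) (card_factor_pos S h1 h2).le

theorem sparsity_nonneg {n : ℕ} {c : Fin n → Fin n → ℝ} (hc : IsCapacity c) : 0 ≤ sparsity c := by
  apply Real.sInf_nonneg
  rintro r ⟨S, h1, h2, rfl⟩
  exact cutRatio_nonneg hc S h1 h2

theorem sparsity_le_cutRatio {n : ℕ} {c : Fin n → Fin n → ℝ} (hc : IsCapacity c)
    (S : Finset (Fin n)) (h1 : S.Nonempty) (h2 : S ≠ Finset.univ) : sparsity c ≤ cutRatio c S := by
  apply csInf_le
  · refine ⟨0, ?_⟩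
    rintro r ⟨T, t1, t2, rfl⟩
    exact cutRatio_nonneg hc T t1 t2
  · exact ⟨S, h1, h2, rfl⟩

theorem sparsity_mul_le {n : ℕ} {c : Fin n → Fin n → ℝ} (hc : IsCapacity c)
    (S : Finset (Fin n)) (h1 : S.Nonempty) (h2 : S ≠ Finset.univ) :
    sparsity c * ((S.card : ℝ) * ((n : ℝ) - (S.card : ℝ))) ≤ cutCap c S := by
  have h := sparsity_le_cutRatio hc S h1 h2
  unfold cutRatio at h
  rwa [le_div_iff₀ (card_factor_pos S h1 h2)] at h

end Vale.Agent.Lib.P318
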