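import Mathlib

namespace Vale.Agent.Lib.P318

theorem exists_mid : ∀ (L U : List ℝ), L ≠ [] → (∀ l ∈ L, ∀ u ∈ U, l ≤ u) →
    ∃ x, (∀ l ∈ L, l ≤ x) ∧ ∀ u ∈ U, x ≤ u
  | [], _, h, _ => absurd rfl h
  | [a], U, _, h => ⟨a, by simp, fun u hu => h a (by simp) u hu⟩
  | a :: b :: L, U, _, h => by
      obtain ⟨x, hx1, hx2⟩ := exists_mid (b :: L) U (by simp)
        (fun l hl u hu => h l (List.mem_cons_of_mem _ hl) u hu)
      refine ⟨max a x, ?_, ?_⟩
      · intro l hl
        rcases List.mem_cons.mp hl with rfl | hl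
        · exact le_max_left _ _
        · exact le_trans (hx1 l hl) (le_max_right _ _)
      · intro u hu
        exact max_le (h a List.mem_cons_self u hu) (hx2 u hu)

theorem hyp5_cut (d01 d02 d03 d04 d12 d13 d14 d23 d24 d34 : ℝ)
    (h5_0 : 0 ≤ -d01 + d02 + d12)
    (h5_1 : 0 ≤ -d01 + d03 + d13)
    (h5_2 : 0 ≤ -d01 + d04 + d14)
    (h5_3 : 0 ≤ d01 - d02 + d12)
    (h5_4 : 0 ≤ -d02 + d03 + d23)
    (h5_5 : 0 ≤ -d02 + d04 + d24)
    (h5_6 : 0 ≤ d01 - d03 + d13)
    (h5_7 : 0 ≤ d02 - d03 + d23)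
    (h5_8 : 0 ≤ -d03 + d04 + d34)
    (h5_9 : 0 ≤ d01 - d04 + d14)
    (h5_10 : 0 ≤ d02 - d04 + d24)
    (h5_11 : 0 ≤ d03 - d04 + d34)
    (h5_12 : 0 ≤ d01 + d02 - d12)
    (h5_13 : 0 ≤ -d12 + d13 + d23)
    (h5_14 : 0 ≤ -d12 + d14 + d24)
    (h5_15 : 0 ≤ d01 + d03 - d13)
    (h5_16 : 0 ≤ d12 - d13 + d23)
    (h5_17 : 0 ≤ -d13 + d14 + d34)
    (h5_18 : 0 ≤ d01 + d04 - d14)
    (h5_19 : 0 ≤ d12 - d14 + d24)
    (h5_20 : 0 ≤ d13 - d14 + d34)
    (h5_21 : 0 ≤ d02 + d03 - d23)
    (h5_22 : 0 ≤ d12 + d13 - d23)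
    (h5_23 : 0 ≤ -d23 + d24 + d34)
    (h5_24 : 0 ≤ d02 + d04 - d24)
    (h5_25 : 0 ≤ d12 + d14 - d24)
    (h5_26 : 0 ≤ d23 - d24 + d34)
    (h5_27 : 0 ≤ d03 + d04 - d34)
    (h5_28 : 0 ≤ d13 + d14 - d34)
    (h5_29 : 0 ≤ d23 + d24 - d34)
    (h5_30 : 0 ≤ -d01 + d02 + d03 + d04 + d12 + d13 + d14 - d23 - d24 - d34)
    (h5_31 : 0 ≤ d01 - d02 + d03 + d04 + d12 - d13 - d14 + d23 + d24 - d34)
    (h5_32 : 0 ≤ d01 + d02 - d03 + d04 - d12 + d13 - d14 + d23 - d24 + d34)
    (h5_33 : 0 ≤ d01 + d02 + d03 - d04 - d12 - d13 + d14 - d23 + d24 + d34)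
    (h5_34 : 0 ≤ d01 + d02 - d03 - d04 - d12 + d13 + d14 + d23 + d24 - d34)
    (h5_35 : 0 ≤ d01 - d02 + d03 - d04 + d12 - d13 + d14 + d23 - d24 + d34)
    (h5_36 : 0 ≤ d01 - d02 - d03 + d04 + d12 + d13 - d14 - d23 + d24 + d34)
    (h5_37 : 0 ≤ -d01 + d02 + d03 - d04 + d12 + d13 - d14 - d23 + d24 + d34)
    (h5_38 : 0 ≤ -d01 + d02 - d03 + d04 + d12 - d13 + d14 + d23 - d24 + d34)
    (h5_39 : 0 ≤ -d01 - d02 + d03 + d04 - d12 + d13 + d14 + d23 + d24 - d34)
    : ∃ l0 l1 l2 l3 l01 l02 l03 l12 l13 l23 l012 l013 l023 l123 l0123 : ℝ,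
      0 ≤ l0 ∧
      0 ≤ l1 ∧
      0 ≤ l2 ∧
      0 ≤ l3 ∧
      0 ≤ l01 ∧
      0 ≤ l02 ∧
      0 ≤ l03 ∧
      0 ≤ l12 ∧
      0 ≤ l13 ∧
      0 ≤ l23 ∧
      0 ≤ l012 ∧
      0 ≤ l013 ∧
      0 ≤ l023 ∧
      0 ≤ l123 ∧
      0 ≤ l0123 ∧
      d01 = l0 + l1 + l02 + l03 + l12 + l13 + l023 + l123 ∧
      d02 = l0 + l2 + l01 + l03 + l12 + l23 + l013 + l123 ∧
      d03 = l0 + l3 + l01 + l02 + l13 + l23 + l012 + l123 ∧
      d04 = l0 + l01 + l02 + l03 + l012 + l013 + l023 + l0123 ∧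
      d12 = l1 + l2 + l01 + l02 + l13 + l23 + l013 + l023 ∧
      d13 = l1 + l3 + l01 + l03 + l12 + l23 + l012 + l023 ∧
      d14 = l1 + l01 + l12 + l13 + l012 + l013 + l123 + l0123 ∧
      d23 = l2 + l3 + l02 + l03 + l12 + l13 + l012 + l013 ∧
      d24 = l2 + l02 + l12 + l23 + l012 + l023 + l123 + l0123 ∧
      d34 = l3 + l03 + l13 + l23 + l013 + l023 + l123 + l0123 := by
  have h4_7 : 0 ≤ -d01 + d03 + d13 := h5_1
  have h4_8 : 0 ≤ -d01 + d02 + d12 := h5_0
  have h4_9 : 0 ≤ -d01 + d04 + d14 := h5_2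
  have h4_10 : 0 ≤ d01 + d04 - d14 := h5_18
  have h4_11 : 0 ≤ d01 + d03 - d13 := h5_15
  have h4_12 : 0 ≤ d01 + d02 - d12 := h5_12
  have h4_13 : 0 ≤ d01 - d02 + d12 := h5_3
  have h4_14 : 0 ≤ d01 - d03 + d13 := h5_6
  have h4_15 : 0 ≤ d01 - d04 + d14 := h5_9
  have h4_16 : 0 ≤ d03 - d04 + d34 := h5_11
  have h4_17 : 0 ≤ -d02 + d03 + d23 := h5_4
  have h4_19 : 0 ≤ -d03 + d04 + d34 := h5_8
  have h4_20 : 0 ≤ -d02 + d04 + d24 := h5_5
  have h4_22 : 0 ≤ d02 + d04 - d24 := h5_24
  have h4_23 : 0 ≤ d02 + d03 - d23 := h5_21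
  have h4_24 : 0 ≤ d03 + d04 - d34 := h5_27
  have h4_27 : 0 ≤ d02 - d03 + d23 := h5_7
  have h4_28 : 0 ≤ d02 - d04 + d24 := h5_10
  obtain ⟨x12, hl_x12, hu_x12⟩ := exists_mid [-(1/2) * d13 + (1/2) * d14 - (1/2) * d23 + (1/2) * d24, 0, -(1/2) * d12 - (1/2) * d13 + (1/2) * d24 + (1/2) * d34, -(1/2) * d12 + (1/2) * d14 - (1/2) * d23 + (1/2) * d34, -(1/2) * d01 + (1/2) * d02 - (1/2) * d03 + (1/2) * d04 - (1/2) * d12 - (1/2) * d23 + (1/2) * d24, -(1/2) * d01 + (1/2) * d02 + (1/2) * d03 - (1/2) * d04 - (1/2) * d12 - (1/2) * d13 + (1/2) * d14, -(1/2) * d01 - (1/2) * d02 - (1/2) * d03 - (1/2) * d04 + (1/2) * d14 + (1/2) * d24 + (1/2) * d34, -(1/2) * d01 - (1/2) * d02 + (1/2) * d03 + (1/2) * d04 - (1/2) * d13 - (1/2) * d23 + (1/2) * d34, (1/2) * d01 - (1/2) * d02 - (1/2) * d03 + (1/2) * d04 - (1/2) * d12 - (1/2) * d13 + (1/2) * d14, (1/2) * d01 + (1/2) * d02 - (1/2) * d03 - (1/2) * d04 - (1/2) * d13 - (1/2) * d23 + (1/2) * d34, (1/2) * d01 - (1/2) * d02 + (1/2) *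 d03 - (1/2) * d04 - (1/2) * d12 - (1/2) * d23 + (1/2) * d24] [-(1/2) * d13 + (1/2) * d14 + (1/2) * d34, -(1/2) * d23 + (1/2) * d24 + (1/2) * d34, -(1/2) * d12 + (1/2) * d14 + (1/2) * d24, -(1/2) * d01 + (1/2) * d02 + (1/2) * d03 + (1/2) * d04 + (1/2) * d14 - (1/2) * d23, (1/2) * d01 - (1/2) * d02 + (1/2) * d03 + (1/2) * d04 - (1/2) * d13 + (1/2) * d24, (1/2) * d01 + (1/2) * d02 - (1/2) * d03 + (1/2) * d04 - (1/2) * d12 + (1/2) * d34, (1/2) * d01 + (1/2) * d02 + (1/2) * d03 - (1/2) * d04 - (1/2) * d12 - (1/2) * d13 + (1/2) * d14 - (1/2) * d23 + (1/2) * d24 + (1/2) * d34] (by simp) (by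
    intro l hl u hu
    simp only [List.mem_cons, List.not_mem_nil, or_false] at hl hu
    rcases hl with rfl | rfl | rfl | rfl | rfl | rfl | rfl | rfl | rfl | rfl | rfl
    · rcases hu with rfl | rfl | rfl | rfl | rfl | rfl | rfl
      · linear_combination (1/2) * h5_26
      · linear_combination (1/2) * h5_20
      · linear_combination (1/2) * h5_13
      · linear_combination (1/2) * h5_1 + (1/2) * h5_24
      · linear_combination (1/2) * h5_18 + (1/2) * h5_4
      · linear_combination (1/2) * h5_32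
      · linear_combination (1/2) * h5_12 + (1/2) * h5_11
    · rcases hu with rfl | rfl | rfl | rfl | rfl | rfl | rfl
      · linear_combination (1/2) * h5_17
      · linear_combination (1/2) * h5_23
      · linear_combination (1/2) * h5_14
      · linear_combination (1/2) * h5_2 + (1/2) * h5_21
      · linear_combination (1/2) * h5_5 + (1/2) * h5_15
      · linear_combination (1/2) * h5_12 + (1/2) * h5_8
      · linear_combination (1/2) * h5_33
    · rcases hu with rfl | rfl | rfl | rfl | rfl | rfl | rfl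
      · linear_combination (1/2) * h5_25
      · linear_combination (1/2) * h5_22
      · linear_combination (1/2) * h5_28
      · linear_combination (1/2) * h5_30
      · linear_combination (1/2) * h5_3 + (1/2) * h5_27
      · linear_combination (1/2) * h5_6 + (1/2) * h5_24
      · linear_combination (1/2) * h5_9 + (1/2) * h5_21
    · rcases hu with rfl | rfl | rfl | rfl | rfl | rfl | rfl
      · linear_combination (1/2) * h5_16
      · linear_combination (1/2) * h5_19
      · linear_combination (1/2) * h5_29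
      · linear_combination (1/2) * h5_0 + (1/2) * h5_27
      · linear_combination (1/2) * h5_31
      · linear_combination (1/2) * h5_18 + (1/2) * h5_7
      · linear_combination (1/2) * h5_15 + (1/2) * h5_10
    · rcases hu with rfl | rfl | rfl | rfl | rfl | rfl | rfl
      · linear_combination (1/2) * h5_35
      · linear_combination (1/2) * h5_3 + (1/2) * h5_11
      · linear_combination (1/2) * h5_9 + (1/2) * h5_4
      · linear_combination (1/2) * h5_25 + (1/2) * h5_15 + (1/2) * h5_1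
      · linear_combination (1/2) * h5_15 + (1/2) * h5_4 + (1/2) * h5_3
      · linear_combination (1/2) * h5_12 + (1/2) * h5_26 + (1/2) * h5_3
      · linear_combination (1/2) * h5_15 + (1/2) * h5_11 + (1/2) * h5_9
    · rcases hu with rfl | rfl | rfl | rfl | rfl | rfl | rfl
      · linear_combination (1/2) * h5_3 + (1/2) * h5_8
      · linear_combination (1/2) * h5_36
      · linear_combination (1/2) * h5_6 + (1/2) * h5_5
      · linear_combination (1/2) * h5_22 + (1/2) * h5_18 + (1/2) * h5_2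
      · linear_combination (1/2) * h5_18 + (1/2) * h5_5 + (1/2) * h5_3
      · linear_combination (1/2) * h5_18 + (1/2) * h5_8 + (1/2) * h5_6
      · linear_combination (1/2) * h5_12 + (1/2) * h5_23 + (1/2) * h5_3
    · rcases hu with rfl | rfl | rfl | rfl | rfl | rfl | rfl
      · linear_combination (1/2) * h5_15 + (1/2) * h5_24
      · linear_combination (1/2) * h5_18 + (1/2) * h5_21
      · linear_combination (1/2) * h5_12 + (1/2) * h5_27
      · linear_combination (1/2) * h5_24 + (1/2) * h5_27 + (1/2) * h5_21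
      · linear_combination (1/2) * h5_18 + (1/2) * h5_27 + (1/2) * h5_15
      · linear_combination (1/2) * h5_18 + (1/2) * h5_24 + (1/2) * h5_12
      · linear_combination (1/2) * h5_15 + (1/2) * h5_21 + (1/2) * h5_12
    · rcases hu with rfl | rfl | rfl | rfl | rfl | rfl | rfl
      · linear_combination (1/2) * h5_9 + (1/2) * h5_7
      · linear_combination (1/2) * h5_6 + (1/2) * h5_10
      · linear_combination (1/2) * h5_34
      · linear_combination (1/2) * h5_12 + (1/2) * h5_28 + (1/2) * h5_0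
      · linear_combination (1/2) * h5_12 + (1/2) * h5_29 + (1/2) * h5_3
      · linear_combination (1/2) * h5_12 + (1/2) * h5_7 + (1/2) * h5_6
      · linear_combination (1/2) * h5_12 + (1/2) * h5_10 + (1/2) * h5_9
    · rcases hu with rfl | rfl | rfl | rfl | rfl | rfl | rfl
      · linear_combination (1/2) * h5_0 + (1/2) * h5_11
      · linear_combination (1/2) * h5_37
      · linear_combination (1/2) * h5_1 + (1/2) * h5_10
      · linear_combination (1/2) * h5_1 + (1/2) * h5_21 + (1/2) * h5_0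
      · linear_combination (1/2) * h5_19 + (1/2) * h5_15 + (1/2) * h5_1
      · linear_combination (1/2) * h5_12 + (1/2) * h5_20 + (1/2) * h5_0
      · linear_combination (1/2) * h5_21 + (1/2) * h5_11 + (1/2) * h5_10
    · rcases hu with rfl | rfl | rfl | rfl | rfl | rfl | rfl
      · linear_combination (1/2) * h5_2 + (1/2) * h5_4
      · linear_combination (1/2) * h5_1 + (1/2) * h5_5
      · linear_combination (1/2) * h5_39
      · linear_combination (1/2) * h5_2 + (1/2) * h5_27 + (1/2) * h5_1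
      · linear_combination (1/2) * h5_5 + (1/2) * h5_27 + (1/2) * h5_4
      · linear_combination (1/2) * h5_13 + (1/2) * h5_18 + (1/2) * h5_2
      · linear_combination (1/2) * h5_15 + (1/2) * h5_14 + (1/2) * h5_1
    · rcases hu with rfl | rfl | rfl | rfl | rfl | rfl | rfl
      · linear_combination (1/2) * h5_38
      · linear_combination (1/2) * h5_0 + (1/2) * h5_8
      · linear_combination (1/2) * h5_2 + (1/2) * h5_7
      · linear_combination (1/2) * h5_2 + (1/2) * h5_24 + (1/2) * h5_0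
      · linear_combination (1/2) * h5_16 + (1/2) * h5_18 + (1/2) * h5_2
      · linear_combination (1/2) * h5_24 + (1/2) * h5_8 + (1/2) * h5_7
      · linear_combination (1/2) * h5_12 + (1/2) * h5_17 + (1/2) * h5_0
    )
  have h4_0 : 0 ≤ d13 - d14 + d23 - d24 + 2 * x12 := by linear_combination 2 * (hl_x12 _ (List.mem_cons_self))
  have h4_3 : 0 ≤ x12 := by linear_combination 1 * (hl_x12 _ (List.mem_cons_of_mem _ (List.mem_cons_self)))
  have h4_4 : 0 ≤ d12 + d13 - d24 - d34 + 2 * x12 := by linear_combination 2 * (hl_x12 _ (List.mem_cons_of_mem _ (List.mem_cons_of_mem _ (List.mem_cons_self))))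
  have h4_5 : 0 ≤ d12 - d14 + d23 - d34 + 2 * x12 := by linear_combination 2 * (hl_x12 _ (List.mem_cons_of_mem _ (List.mem_cons_of_mem _ (List.mem_cons_of_mem _ (List.mem_cons_self)))))
  have h4_18 : 0 ≤ d01 - d02 + d03 - d04 + d12 + d23 - d24 + 2 * x12 := by linear_combination 2 * (hl_x12 _ (List.mem_cons_of_mem _ (List.mem_cons_of_mem _ (List.mem_cons_of_mem _ (List.mem_cons_of_mem _ (List.mem_cons_self))))))
  have h4_21 : 0 ≤ d01 - d02 - d03 + d04 + d12 + d13 - d14 + 2 * x12 := by linear_combination 2 * (hl_x12 _ (List.mem_cons_of_mem _ (List.mem_cons_of_mem _ (List.mem_cons_of_mem _ (List.mem_cons_of_mem _ (List.mem_cons_of_mem _ (List.mem_cons_self)))))))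
  have h4_26 : 0 ≤ d01 + d02 + d03 + d04 - d14 - d24 - d34 + 2 * x12 := by linear_combination 2 * (hl_x12 _ (List.mem_cons_of_mem _ (List.mem_cons_of_mem _ (List.mem_cons_of_mem _ (List.mem_cons_of_mem _ (List.mem_cons_of_mem _ (List.mem_cons_of_mem _ (List.mem_cons_self))))))))
  have h4_29 : 0 ≤ d01 + d02 - d03 - d04 + d13 + d23 - d34 + 2 * x12 := by linear_combination 2 * (hl_x12 _ (List.mem_cons_of_mem _ (List.mem_cons_of_mem _ (List.mem_cons_of_mem _ (List.mem_cons_of_mem _ (List.mem_cons_of_mem _ (List.mem_cons_of_mem _ (List.mem_cons_of_mem _ (List.mem_cons_self)))))))))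
  have h4_30 : 0 ≤ -d01 + d02 + d03 - d04 + d12 + d13 - d14 + 2 * x12 := by linear_combination 2 * (hl_x12 _ (List.mem_cons_of_mem _ (List.mem_cons_of_mem _ (List.mem_cons_of_mem _ (List.mem_cons_of_mem _ (List.mem_cons_of_mem _ (List.mem_cons_of_mem _ (List.mem_cons_of_mem _ (List.mem_cons_of_mem _ (List.mem_cons_self))))))))))
  have h4_31 : 0 ≤ -d01 - d02 + d03 + d04 + d13 + d23 - d34 + 2 * x12 := by linear_combination 2 * (hl_x12 _ (List.mem_cons_of_mem _ (List.mem_cons_of_mem _ (List.mem_cons_of_mem _ (List.mem_cons_of_mem _ (List.mem_cons_of_mem _ (List.mem_cons_of_mem _ (List.mem_cons_of_mem _ (List.mem_cons_of_mem _ (List.mem_cons_of_mem _ (List.mem_cons_self)))))))))))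
  have h4_32 : 0 ≤ -d01 + d02 - d03 + d04 + d12 + d23 - d24 + 2 * x12 := by linear_combination 2 * (hl_x12 _ (List.mem_cons_of_mem _ (List.mem_cons_of_mem _ (List.mem_cons_of_mem _ (List.mem_cons_of_mem _ (List.mem_cons_of_mem _ (List.mem_cons_of_mem _ (List.mem_cons_of_mem _ (List.mem_cons_of_mem _ (List.mem_cons_of_mem _ (List.mem_cons_of_mem _ (List.mem_cons_self))))))))))))
  have h4_1 : 0 ≤ -d13 + d14 + d34 - 2 * x12 := by linear_combination 2 * (hu_x12 _ (List.mem_cons_self))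
  have h4_2 : 0 ≤ -d23 + d24 + d34 - 2 * x12 := by linear_combination 2 * (hu_x12 _ (List.mem_cons_of_mem _ (List.mem_cons_self)))
  have h4_6 : 0 ≤ -d12 + d14 + d24 - 2 * x12 := by linear_combination 2 * (hu_x12 _ (List.mem_cons_of_mem _ (List.mem_cons_of_mem _ (List.mem_cons_self))))
  have h4_25 : 0 ≤ -d01 + d02 + d03 + d04 + d14 - d23 - 2 * x12 := by linear_combination 2 * (hu_x12 _ (List.mem_cons_of_mem _ (List.mem_cons_of_mem _ (List.mem_cons_of_mem _ (List.mem_cons_self)))))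
  have h4_33 : 0 ≤ d01 - d02 + d03 + d04 - d13 + d24 - 2 * x12 := by linear_combination 2 * (hu_x12 _ (List.mem_cons_of_mem _ (List.mem_cons_of_mem _ (List.mem_cons_of_mem _ (List.mem_cons_of_mem _ (List.mem_cons_self))))))
  have h4_34 : 0 ≤ d01 + d02 - d03 + d04 - d12 + d34 - 2 * x12 := by linear_combination 2 * (hu_x12 _ (List.mem_cons_of_mem _ (List.mem_cons_of_mem _ (List.mem_cons_of_mem _ (List.mem_cons_of_mem _ (List.mem_cons_of_mem _ (List.mem_cons_self)))))))
  have h4_35 : 0 ≤ d01 + d02 + d03 - d04 - d12 - d13 + d14 - d23 + d24 + d34 - 2 * x12 := by linear_combination 2 * (hu_x12 _ (List.mem_cons_of_mem _ (List.mem_cons_of_mem _ (List.mem_cons_of_mem _ (List.mem_cons_of_mem _ (List.mem_cons_of_mem _ (List.mem_cons_of_mem _ (List.mem_cons_self))))))))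
  have h3_0 : 0 ≤ d13 - d14 + d23 - d24 + 2 * x12 := h4_0
  have h3_3 : 0 ≤ -d13 + d14 + d34 - 2 * x12 := h4_1
  have h3_4 : 0 ≤ -d23 + d24 + d34 - 2 * x12 := h4_2
  have h3_7 : 0 ≤ x12 := h4_3
  have h3_9 : 0 ≤ d12 + d13 - d24 - d34 + 2 * x12 := h4_4
  have h3_10 : 0 ≤ d12 - d14 + d23 - d34 + 2 * x12 := h4_5
  have h3_13 : 0 ≤ -d12 + d14 + d24 - 2 * x12 := h4_6
  have h3_15 : 0 ≤ -d01 + d03 + d13 := h4_7
  have h3_16 : 0 ≤ -d01 + d02 + d12 := h4_8
  have h3_21 : 0 ≤ -d01 + d04 + d14 := h4_9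
  have h3_22 : 0 ≤ d01 + d04 - d14 := h4_10
  have h3_25 : 0 ≤ d01 + d03 - d13 := h4_11
  have h3_27 : 0 ≤ d01 + d02 - d12 := h4_12
  have h3_32 : 0 ≤ d01 - d02 + d12 := h4_13
  have h3_34 : 0 ≤ d01 - d03 + d13 := h4_14
  have h3_37 : 0 ≤ d01 - d04 + d14 := h4_15
  obtain ⟨x02, hl_x02, hu_x02⟩ := exists_mid [-(1/2) * d03 + (1/2) * d04 - (1/2) * d23 + (1/2) * d24, 0, -(1/2) * d02 - (1/2) * d03 + (1/2) * d24 + (1/2) * d34, -(1/2) * d02 + (1/2) * d04 - (1/2) * d23 + (1/2) * d34, (1/2) * d01 - (1/2) * d02 - (1/2) * d03 + (1/2) * d04 - (1/2) * d12 - (1/2) * d13 + (1/2) * d14 - (1/2) * d23 + (1/2) * d24 + (1/2) * d34 - x12, (1/4) * d01 - (1/4) * d02 - (1/4) * d03 + (1/4) * d04 - (1/4) * d12 - (1/4) * d13 + (1/4) * d14 - (1/2) * d23 + (1/2) * d24 + (1/2) * d34 - x12, (1/2) * d01 - (1/2) * d03 - (1/2) * d13 - (1/2) * d23 + (1/2) * d24 + (1/2) * d34 - x12, (1/2) * d01 - (1/2) * d02 - (1/2) * d12 - (1/2) * d23 + (1/2) * d24 + (1/2) * d34 - x12, -(1/2) * d01 - (1/2)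 * d03 + (1/2) * d13 + x12, -(1/2) * d01 - (1/2) * d02 + (1/2) * d12 + x12, -(1/4) * d01 - (1/4) * d02 - (1/4) * d03 + (1/4) * d04 + (1/4) * d12 + (1/4) * d13 - (1/4) * d14 + x12, -(1/2) * d01 - (1/2) * d02 - (1/2) * d03 + (1/2) * d04 + (1/2) * d12 + (1/2) * d13 - (1/2) * d14 + x12, -(1/2) * d01 + (1/2) * d04 - (1/2) * d14 + x12] [-(1/2) * d03 + (1/2) * d04 + (1/2) * d34, -(1/2) * d23 + (1/2) * d24 + (1/2) * d34, -(1/2) * d02 + (1/2) * d04 + (1/2) * d24, -(1/2) * d01 + (1/2) * d04 + (1/2) * d14 - (1/2) * d23 + (1/2) * d24 + (1/2) * d34 - x12, (1/2) * d01 + (1/2) * d04 - (1/2) * d14 + x12, (1/2) * d01 - (1/2) * d02 - (1/2) * d03 + (1/2) * d04 + (1/2) * d12 + (1/2) * d13 - (1/2) * d14 + x12, (1/4) * d01 - (1/4) * d02 - (1/4) * d03 + (1/4) * d04 + (1/4) * d12 + (1/4) * d13 - (1/4) * d14 + x12, (1/2) * d01 - (1/2) * d02 + (1/2) * d12 + x12, (1/2) * d01 - (1/2) * d03 + (1/2) * d13 + x12] (by simp) (by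
    intro l hl u hu
    simp only [List.mem_cons, List.not_mem_nil, or_false] at hl hu
    rcases hl with rfl | rfl | rfl | rfl | rfl | rfl | rfl | rfl | rfl | rfl | rfl | rfl | rfl
    · rcases hu with rfl | rfl | rfl | rfl | rfl | rfl | rfl | rfl | rfl
      · linear_combination (1/2) * h4_0 + (1/2) * h4_1
      · linear_combination (1/2) * h4_16
      · linear_combination (1/2) * h4_17
      · linear_combination (1/2) * h4_7 + (1/2) * h4_1
      · linear_combination (1/2) * h4_0 + (1/2) * h4_11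
      · linear_combination (1/2) * h4_0 + (1/2) * h4_13
      · linear_combination (1/4) * h4_0 + (1/4) * h4_18
      · linear_combination (1/2) * h4_18
      · linear_combination (1/2) * h4_0 + (1/2) * h4_15
    · rcases hu with rfl | rfl | rfl | rfl | rfl | rfl | rfl | rfl | rfl
      · linear_combination (1/2) * h4_19
      · linear_combination (1/2) * h4_2 + h4_3
      · linear_combination (1/2) * h4_20
      · linear_combination (1/2) * h4_9 + (1/2) * h4_2
      · linear_combination (1/2) * h4_10 + h4_3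
      · linear_combination (1/2) * h4_21
      · linear_combination (1/4) * h4_21 + (1/2) * h4_3
      · linear_combination (1/2) * h4_13 + h4_3
      · linear_combination (1/2) * h4_14 + h4_3
    · rcases hu with rfl | rfl | rfl | rfl | rfl | rfl | rfl | rfl | rfl
      · linear_combination (1/2) * h4_22
      · linear_combination (1/2) * h4_23
      · linear_combination (1/2) * h4_24
      · linear_combination (1/2) * h4_25
      · linear_combination (1/2) * h4_26
      · linear_combination (1/2) * h4_10 + (1/2) * h4_4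
      · linear_combination (1/4) * h4_26 + (1/4) * h4_4
      · linear_combination (1/2) * h4_4 + (1/2) * h4_11
      · linear_combination (1/2) * h4_4 + (1/2) * h4_12
    · rcases hu with rfl | rfl | rfl | rfl | rfl | rfl | rfl | rfl | rfl
      · linear_combination (1/2) * h4_27
      · linear_combination (1/2) * h4_28
      · linear_combination (1/2) * h4_5 + (1/2) * h4_6
      · linear_combination (1/2) * h4_6 + (1/2) * h4_8
      · linear_combination (1/2) * h4_5 + (1/2) * h4_12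
      · linear_combination (1/2) * h4_14 + (1/2) * h4_5
      · linear_combination (1/4) * h4_5 + (1/4) * h4_29
      · linear_combination (1/2) * h4_5 + (1/2) * h4_15
      · linear_combination (1/2) * h4_29
    · rcases hu with rfl | rfl | rfl | rfl | rfl | rfl | rfl | rfl | rfl
      · linear_combination (1/2) * h4_0 + (1/2) * h4_8
      · linear_combination (1/2) * h4_30
      · linear_combination (1/2) * h4_7 + (1/2) * h4_5
      · linear_combination (1/2) * h4_8 + (1/2) * h4_7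
      · linear_combination (1/2) * h4_5 + (1/2) * h4_0 + (1/2) * h4_23
      · linear_combination (1/2) * h4_2 + (1/2) * h4_0 + (1/2) * h4_4 + (1/2) * h4_5
      · linear_combination (1/4) * h4_5 + (1/4) * h4_30 + (1/4) * h4_0 + (1/4) * h4_4
      · linear_combination (1/2) * h4_16 + (1/2) * h4_4 + (1/2) * h4_5
      · linear_combination (1/2) * h4_28 + (1/2) * h4_0 + (1/2) * h4_4
    · rcases hu with rfl | rfl | rfl | rfl | rfl | rfl | rfl | rfl | rfl
      · linear_combination (1/4) * h4_0 + (1/4) * h4_32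
      · linear_combination (1/4) * h4_30 + (1/2) * h4_3
      · linear_combination (1/4) * h4_31 + (1/4) * h4_5
      · linear_combination (1/4) * h4_9 + (1/4) * h4_7 + (1/4) * h4_8
      · linear_combination (1/4) * h4_26 + (1/4) * h4_0 + (1/4) * h4_5 + (1/2) * h4_3
      · linear_combination (1/4) * h4_5 + (1/4) * h4_21 + (1/4) * h4_0 + (1/4) * h4_4
      · linear_combination (1/4) * h4_5 + (1/4) * h4_0 + (1/4) * h4_4 + (1/2) * h4_3
      · linear_combination (1/4) * h4_5 + (1/4) * h4_18 + (1/4) * h4_4 + (1/2) * h4_3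
      · linear_combination (1/4) * h4_29 + (1/4) * h4_0 + (1/4) * h4_4 + (1/2) * h4_3
    · rcases hu with rfl | rfl | rfl | rfl | rfl | rfl | rfl | rfl | rfl
      · linear_combination (1/2) * h4_0 + (1/2) * h4_9
      · linear_combination (1/2) * h4_7 + h4_3
      · linear_combination (1/2) * h4_31
      · linear_combination (1/2) * h4_9 + (1/2) * h4_7
      · linear_combination (1/2) * h4_24 + (1/2) * h4_0 + h4_3
      · linear_combination (1/2) * h4_20 + (1/2) * h4_0 + (1/2) * h4_4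
      · linear_combination (1/4) * h4_31 + (1/4) * h4_0 + (1/4) * h4_4 + (1/2) * h4_3
      · linear_combination (1/2) * h4_17 + (1/2) * h4_4 + h4_3
      · linear_combination (1/2) * h4_4 + (1/2) * h4_6 + (1/2) * h4_0 + h4_3
    · rcases hu with rfl | rfl | rfl | rfl | rfl | rfl | rfl | rfl | rfl
      · linear_combination (1/2) * h4_32
      · linear_combination (1/2) * h4_8 + h4_3
      · linear_combination (1/2) * h4_5 + (1/2) * h4_9
      · linear_combination (1/2) * h4_9 + (1/2) * h4_8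
      · linear_combination (1/2) * h4_5 + (1/2) * h4_22 + h4_3
      · linear_combination (1/2) * h4_19 + (1/2) * h4_4 + (1/2) * h4_5
      · linear_combination (1/4) * h4_5 + (1/4) * h4_32 + (1/4) * h4_4 + (1/2) * h4_3
      · linear_combination (1/2) * h4_5 + (1/2) * h4_4 + (1/2) * h4_1 + h4_3
      · linear_combination (1/2) * h4_27 + (1/2) * h4_4 + h4_3
    · rcases hu with rfl | rfl | rfl | rfl | rfl | rfl | rfl | rfl | rfl
      · linear_combination (1/2) * h4_1 + (1/2) * h4_10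
      · linear_combination (1/2) * h4_11 + (1/2) * h4_2
      · linear_combination (1/2) * h4_33
      · linear_combination (1/2) * h4_24 + (1/2) * h4_1 + (1/2) * h4_2
      · linear_combination (1/2) * h4_11 + (1/2) * h4_10
      · linear_combination (1/2) * h4_10 + (1/2) * h4_13
      · linear_combination (1/4) * h4_11 + (1/4) * h4_10 + (1/4) * h4_13
      · linear_combination (1/2) * h4_11 + (1/2) * h4_13
      · linear_combination (1/2) * h4_13 + (1/2) * h4_12
    · rcases hu with rfl | rfl | rfl | rfl | rfl | rfl | rfl | rfl | rfl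
      · linear_combination (1/2) * h4_34
      · linear_combination (1/2) * h4_12 + (1/2) * h4_2
      · linear_combination (1/2) * h4_6 + (1/2) * h4_10
      · linear_combination (1/2) * h4_22 + (1/2) * h4_6 + (1/2) * h4_2
      · linear_combination (1/2) * h4_12 + (1/2) * h4_10
      · linear_combination (1/2) * h4_10 + (1/2) * h4_14
      · linear_combination (1/4) * h4_12 + (1/4) * h4_10 + (1/4) * h4_14
      · linear_combination (1/2) * h4_13 + (1/2) * h4_12
      · linear_combination (1/2) * h4_12 + (1/2) * h4_14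
    · rcases hu with rfl | rfl | rfl | rfl | rfl | rfl | rfl | rfl | rfl
      · linear_combination (1/4) * h4_1 + (1/4) * h4_34
      · linear_combination (1/4) * h4_35 + (1/4) * h4_2
      · linear_combination (1/4) * h4_6 + (1/4) * h4_33
      · linear_combination (1/4) * h4_2 + (1/4) * h4_6 + (1/4) * h4_1 + (1/4) * h4_25
      · linear_combination (1/4) * h4_12 + (1/4) * h4_11 + (1/4) * h4_10
      · linear_combination (1/4) * h4_10 + (1/4) * h4_13 + (1/4) * h4_14
      · linear_combination (1/4) * h4_13 + (1/4) * h4_12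
      · linear_combination (1/4) * h4_11 + (1/4) * h4_13 + (1/4) * h4_15
      · linear_combination (1/4) * h4_12 + (1/4) * h4_15 + (1/4) * h4_14
    · rcases hu with rfl | rfl | rfl | rfl | rfl | rfl | rfl | rfl | rfl
      · linear_combination (1/2) * h4_12 + (1/2) * h4_1
      · linear_combination (1/2) * h4_35
      · linear_combination (1/2) * h4_11 + (1/2) * h4_6
      · linear_combination (1/2) * h4_6 + (1/2) * h4_1 + (1/2) * h4_23
      · linear_combination (1/2) * h4_12 + (1/2) * h4_11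
      · linear_combination (1/2) * h4_13 + (1/2) * h4_12
      · linear_combination (1/4) * h4_12 + (1/4) * h4_11 + (1/4) * h4_15
      · linear_combination (1/2) * h4_11 + (1/2) * h4_15
      · linear_combination (1/2) * h4_12 + (1/2) * h4_15
    · rcases hu with rfl | rfl | rfl | rfl | rfl | rfl | rfl | rfl | rfl
      · linear_combination (1/2) * h4_14 + (1/2) * h4_1
      · linear_combination (1/2) * h4_15 + (1/2) * h4_2
      · linear_combination (1/2) * h4_6 + (1/2) * h4_13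
      · linear_combination (1/2) * h4_4 + (1/2) * h4_6 + (1/2) * h4_1 + (1/2) * h4_2
      · linear_combination (1/2) * h4_13 + (1/2) * h4_12
      · linear_combination (1/2) * h4_13 + (1/2) * h4_14
      · linear_combination (1/4) * h4_15 + (1/4) * h4_14 + (1/4) * h4_13
      · linear_combination (1/2) * h4_15 + (1/2) * h4_13
      · linear_combination (1/2) * h4_15 + (1/2) * h4_14
    )
  have h3_2 : 0 ≤ d03 - d04 + d23 - d24 + 2 * x02 := by linear_combination 2 * (hl_x02 _ (List.mem_cons_self))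
  have h3_6 : 0 ≤ x02 := by linear_combination 1 * (hl_x02 _ (List.mem_cons_of_mem _ (List.mem_cons_self)))
  have h3_8 : 0 ≤ d02 + d03 - d24 - d34 + 2 * x02 := by linear_combination 2 * (hl_x02 _ (List.mem_cons_of_mem _ (List.mem_cons_of_mem _ (List.mem_cons_self))))
  have h3_11 : 0 ≤ d02 - d04 + d23 - d34 + 2 * x02 := by linear_combination 2 * (hl_x02 _ (List.mem_cons_of_mem _ (List.mem_cons_of_mem _ (List.mem_cons_of_mem _ (List.mem_cons_self)))))
  have h3_14 : 0 ≤ -d01 + d02 + d03 - d04 + d12 + d13 - d14 + d23 - d24 - d34 + 2 * x02 + 2 * x12 := by linear_combination 2 * (hl_x02 _ (List.mem_cons_of_mem _ (List.mem_cons_of_mem _ (List.mem_cons_of_mem _ (List.mem_cons_of_mem _ (List.mem_cons_self))))))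
  have h3_18 : 0 ≤ -d01 + d02 + d03 - d04 + d12 + d13 - d14 + 2 * d23 - 2 * d24 - 2 * d34 + 4 * x02 + 4 * x12 := by linear_combination 4 * (hl_x02 _ (List.mem_cons_of_mem _ (List.mem_cons_of_mem _ (List.mem_cons_of_mem _ (List.mem_cons_of_mem _ (List.mem_cons_of_mem _ (List.mem_cons_self)))))))
  have h3_19 : 0 ≤ -d01 + d03 + d13 + d23 - d24 - d34 + 2 * x02 + 2 * x12 := by linear_combination 2 * (hl_x02 _ (List.mem_cons_of_mem _ (List.mem_cons_of_mem _ (List.mem_cons_of_mem _ (List.mem_cons_of_mem _ (List.mem_cons_of_mem _ (List.mem_cons_of_mem _ (List.mem_cons_self))))))))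
  have h3_20 : 0 ≤ -d01 + d02 + d12 + d23 - d24 - d34 + 2 * x02 + 2 * x12 := by linear_combination 2 * (hl_x02 _ (List.mem_cons_of_mem _ (List.mem_cons_of_mem _ (List.mem_cons_of_mem _ (List.mem_cons_of_mem _ (List.mem_cons_of_mem _ (List.mem_cons_of_mem _ (List.mem_cons_of_mem _ (List.mem_cons_self)))))))))
  have h3_24 : 0 ≤ d01 + d03 - d13 + 2 * x02 - 2 * x12 := by linear_combination 2 * (hl_x02 _ (List.mem_cons_of_mem _ (List.mem_cons_of_mem _ (List.mem_cons_of_mem _ (List.mem_cons_of_mem _ (List.mem_cons_of_mem _ (List.mem_cons_of_mem _ (List.mem_cons_of_mem _ (List.mem_cons_of_mem _ (List.mem_cons_self))))))))))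
  have h3_26 : 0 ≤ d01 + d02 - d12 + 2 * x02 - 2 * x12 := by linear_combination 2 * (hl_x02 _ (List.mem_cons_of_mem _ (List.mem_cons_of_mem _ (List.mem_cons_of_mem _ (List.mem_cons_of_mem _ (List.mem_cons_of_mem _ (List.mem_cons_of_mem _ (List.mem_cons_of_mem _ (List.mem_cons_of_mem _ (List.mem_cons_of_mem _ (List.mem_cons_self)))))))))))
  have h3_28 : 0 ≤ d01 + d02 + d03 - d04 - d12 - d13 + d14 + 4 * x02 - 4 * x12 := by linear_combination 4 * (hl_x02 _ (List.mem_cons_of_mem _ (List.mem_cons_of_mem _ (List.mem_cons_of_mem _ (List.mem_cons_of_mem _ (List.mem_cons_of_mem _ (List.mem_cons_of_mem _ (List.mem_cons_of_mem _ (List.mem_cons_of_mem _ (List.mem_cons_of_mem _ (List.mem_cons_of_mem _ (List.mem_cons_self))))))))))))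
  have h3_29 : 0 ≤ d01 + d02 + d03 - d04 - d12 - d13 + d14 + 2 * x02 - 2 * x12 := by linear_combination 2 * (hl_x02 _ (List.mem_cons_of_mem _ (List.mem_cons_of_mem _ (List.mem_cons_of_mem _ (List.mem_cons_of_mem _ (List.mem_cons_of_mem _ (List.mem_cons_of_mem _ (List.mem_cons_of_mem _ (List.mem_cons_of_mem _ (List.mem_cons_of_mem _ (List.mem_cons_of_mem _ (List.mem_cons_of_mem _ (List.mem_cons_self)))))))))))))
  have h3_36 : 0 ≤ d01 - d04 + d14 + 2 * x02 - 2 * x12 := by linear_combination 2 * (hl_x02 _ (List.mem_cons_of_mem _ (List.mem_cons_of_mem _ (List.mem_cons_of_mem _ (List.mem_cons_of_mem _ (List.mem_cons_of_mem _ (List.mem_cons_of_mem _ (List.mem_cons_of_mem _ (List.mem_cons_of_mem _ (List.mem_cons_of_mem _ (List.mem_cons_of_mem _ (List.mem_cons_of_mem _ (List.mem_cons_of_mem _ (List.mem_cons_self))))))))))))))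
  have h3_1 : 0 ≤ -d03 + d04 + d34 - 2 * x02 := by linear_combination 2 * (hu_x02 _ (List.mem_cons_self))
  have h3_5 : 0 ≤ -d23 + d24 + d34 - 2 * x02 := by linear_combination 2 * (hu_x02 _ (List.mem_cons_of_mem _ (List.mem_cons_self)))
  have h3_12 : 0 ≤ -d02 + d04 + d24 - 2 * x02 := by linear_combination 2 * (hu_x02 _ (List.mem_cons_of_mem _ (List.mem_cons_of_mem _ (List.mem_cons_self))))
  have h3_17 : 0 ≤ -d01 + d04 + d14 - d23 + d24 + d34 - 2 * x02 - 2 * x12 := by linear_combination 2 * (hu_x02 _ (List.mem_cons_of_mem _ (List.mem_cons_of_mem _ (List.mem_cons_of_mem _ (List.mem_cons_self)))))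
  have h3_23 : 0 ≤ d01 + d04 - d14 - 2 * x02 + 2 * x12 := by linear_combination 2 * (hu_x02 _ (List.mem_cons_of_mem _ (List.mem_cons_of_mem _ (List.mem_cons_of_mem _ (List.mem_cons_of_mem _ (List.mem_cons_self))))))
  have h3_30 : 0 ≤ d01 - d02 - d03 + d04 + d12 + d13 - d14 - 2 * x02 + 2 * x12 := by linear_combination 2 * (hu_x02 _ (List.mem_cons_of_mem _ (List.mem_cons_of_mem _ (List.mem_cons_of_mem _ (List.mem_cons_of_mem _ (List.mem_cons_of_mem _ (List.mem_cons_self)))))))
  have h3_31 : 0 ≤ d01 - d02 - d03 + d04 + d12 + d13 - d14 - 4 * x02 + 4 * x12 := by linear_combination 4 * (hu_x02 _ (List.mem_cons_of_mem _ (List.mem_cons_of_mem _ (List.mem_cons_of_mem _ (List.mem_cons_of_mem _ (List.mem_cons_of_mem _ (List.mem_cons_of_mem _ (List.mem_cons_self))))))))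
  have h3_33 : 0 ≤ d01 - d02 + d12 - 2 * x02 + 2 * x12 := by linear_combination 2 * (hu_x02 _ (List.mem_cons_of_mem _ (List.mem_cons_of_mem _ (List.mem_cons_of_mem _ (List.mem_cons_of_mem _ (List.mem_cons_of_mem _ (List.mem_cons_of_mem _ (List.mem_cons_of_mem _ (List.mem_cons_self)))))))))
  have h3_35 : 0 ≤ d01 - d03 + d13 - 2 * x02 + 2 * x12 := by linear_combination 2 * (hu_x02 _ (List.mem_cons_of_mem _ (List.mem_cons_of_mem _ (List.mem_cons_of_mem _ (List.mem_cons_of_mem _ (List.mem_cons_of_mem _ (List.mem_cons_of_mem _ (List.mem_cons_of_mem _ (List.mem_cons_of_mem _ (List.mem_cons_self))))))))))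
  have h2_0 : 0 ≤ d13 - d14 + d23 - d24 + 2 * x12 := h3_0
  have h2_1 : 0 ≤ -d03 + d04 + d34 - 2 * x02 := h3_1
  have h2_4 : 0 ≤ d03 - d04 + d23 - d24 + 2 * x02 := h3_2
  have h2_5 : 0 ≤ -d13 + d14 + d34 - 2 * x12 := h3_3
  have h2_10 : 0 ≤ -d23 + d24 + d34 - 2 * x12 := h3_4
  have h2_11 : 0 ≤ -d23 + d24 + d34 - 2 * x02 := h3_5
  have h2_14 : 0 ≤ x02 := h3_6
  have h2_15 : 0 ≤ x12 := h3_7
  have h2_16 : 0 ≤ d02 + d03 - d24 - d34 + 2 * x02 := h3_8
  have h2_19 : 0 ≤ d12 + d13 - d24 - d34 + 2 * x12 := h3_9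
  have h2_23 : 0 ≤ d12 - d14 + d23 - d34 + 2 * x12 := h3_10
  have h2_24 : 0 ≤ d02 - d04 + d23 - d34 + 2 * x02 := h3_11
  have h2_26 : 0 ≤ -d02 + d04 + d24 - 2 * x02 := h3_12
  have h2_27 : 0 ≤ -d12 + d14 + d24 - 2 * x12 := h3_13
  obtain ⟨x01, hl_x01, hu_x01⟩ := exists_mid [-(1/2) * d03 + (1/2) * d04 - (1/2) * d13 + (1/2) * d14, (1/2) * d23 - (1/2) * d24 - (1/2) * d34 + x02 + x12, -(1/2) * d03 + (1/2) * d04 - (1/2) * d13 + (1/2) * d14 - (1/2) * d23 + (1/2) * d24 + (1/2) * d34 - x02 - x12, 0, -(1/2) * d01 - (1/2) * d03 + (1/2) * d14 + (1/2) * d34, -(1/2) * d01 - (1/2) * d02 - (1/2) * d03 + (1/2) * d04 + (1/2) * d12 + (1/2) * d34 - x02 + x12, -(1/2) * d01 + (1/2) * d02 - (1/2) * d12 - (1/2) * d13 + (1/2) * d14 + (1/2) * d34 + x02 - x12, -(1/2) * d01 + (1/2) * d04 - (1/2) * d13 + (1/2) * d34] [-(1/2) * d03 + (1/2) * d04 + (1/2) * d34, -(1/2) * d03 + (1/2) * d04 + (1/2) * d34 - x02 + x12, -(1/2) * d13 + (1/2) * d14 + (1/2) * d34 + x02 - x12, -(1/2) * d13 + (1/2)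 * d14 + (1/2) * d34, -(1/2) * d01 + (1/2) * d02 + (1/2) * d12 + (1/2) * d23 - (1/2) * d24 - (1/2) * d34 + x02 + x12, -(1/2) * d01 + (1/2) * d04 + (1/2) * d14] (by simp) (by
    intro l hl u hu
    simp only [List.mem_cons, List.not_mem_nil, or_false] at hl hu
    rcases hl with rfl | rfl | rfl | rfl | rfl | rfl | rfl | rfl
    · rcases hu with rfl | rfl | rfl | rfl | rfl | rfl
      · linear_combination (1/2) * h3_4 + (1/2) * h3_0
      · linear_combination (1/2) * h3_5 + (1/2) * h3_0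
      · linear_combination (1/2) * h3_4 + (1/2) * h3_2
      · linear_combination (1/2) * h3_5 + (1/2) * h3_2
      · linear_combination (1/2) * h3_14
      · linear_combination (1/2) * h3_15
    · rcases hu with rfl | rfl | rfl | rfl | rfl | rfl
      · linear_combination (1/2) * h3_1 + (1/2) * h3_4
      · linear_combination (1/2) * h3_1 + (1/2) * h3_5
      · linear_combination (1/2) * h3_3 + (1/2) * h3_4
      · linear_combination (1/2) * h3_3 + (1/2) * h3_5
      · linear_combination (1/2) * h3_16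
      · linear_combination (1/2) * h3_17
    · rcases hu with rfl | rfl | rfl | rfl | rfl | rfl
      · linear_combination (1/2) * h3_0 + h3_6
      · linear_combination (1/2) * h3_0 + h3_7
      · linear_combination (1/2) * h3_2 + h3_6
      · linear_combination (1/2) * h3_2 + h3_7
      · linear_combination (1/2) * h3_18
      · linear_combination (1/2) * h3_19
    · rcases hu with rfl | rfl | rfl | rfl | rfl | rfl
      · linear_combination (1/2) * h3_1 + h3_6
      · linear_combination (1/2) * h3_1 + h3_7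
      · linear_combination (1/2) * h3_3 + h3_6
      · linear_combination (1/2) * h3_3 + h3_7
      · linear_combination (1/2) * h3_20
      · linear_combination (1/2) * h3_21
    · rcases hu with rfl | rfl | rfl | rfl | rfl | rfl
      · linear_combination (1/2) * h3_22
      · linear_combination (1/2) * h3_23
      · linear_combination (1/2) * h3_24
      · linear_combination (1/2) * h3_25
      · linear_combination (1/2) * h3_10 + (1/2) * h3_8
      · linear_combination (1/2) * h3_12 + (1/2) * h3_8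
    · rcases hu with rfl | rfl | rfl | rfl | rfl | rfl
      · linear_combination (1/2) * h3_26
      · linear_combination (1/2) * h3_27
      · linear_combination (1/2) * h3_28
      · linear_combination (1/2) * h3_29
      · linear_combination (1/2) * h3_11 + (1/2) * h3_8
      · linear_combination (1/2) * h3_13 + (1/2) * h3_8
    · rcases hu with rfl | rfl | rfl | rfl | rfl | rfl
      · linear_combination (1/2) * h3_30
      · linear_combination (1/2) * h3_31
      · linear_combination (1/2) * h3_32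
      · linear_combination (1/2) * h3_33
      · linear_combination (1/2) * h3_10 + (1/2) * h3_9
      · linear_combination (1/2) * h3_12 + (1/2) * h3_9
    · rcases hu with rfl | rfl | rfl | rfl | rfl | rfl
      · linear_combination (1/2) * h3_34
      · linear_combination (1/2) * h3_35
      · linear_combination (1/2) * h3_36
      · linear_combination (1/2) * h3_37
      · linear_combination (1/2) * h3_11 + (1/2) * h3_9
      · linear_combination (1/2) * h3_13 + (1/2) * h3_9
    )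
  have h2_8 : 0 ≤ d03 - d04 + d13 - d14 + 2 * x01 := by linear_combination 2 * (hl_x01 _ (List.mem_cons_self))
  have h2_9 : 0 ≤ -d23 + d24 + d34 + 2 * x01 - 2 * x02 - 2 * x12 := by linear_combination 2 * (hl_x01 _ (List.mem_cons_of_mem _ (List.mem_cons_self)))
  have h2_12 : 0 ≤ d03 - d04 + d13 - d14 + d23 - d24 - d34 + 2 * x01 + 2 * x02 + 2 * x12 := by linear_combination 2 * (hl_x01 _ (List.mem_cons_of_mem _ (List.mem_cons_of_mem _ (List.mem_cons_self))))
  have h2_13 : 0 ≤ x01 := by linear_combination 1 * (hl_x01 _ (List.mem_cons_of_mem _ (List.mem_cons_of_mem _ (List.mem_cons_of_mem _ (List.mem_cons_self)))))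
  have h2_17 : 0 ≤ d01 + d03 - d14 - d34 + 2 * x01 := by linear_combination 2 * (hl_x01 _ (List.mem_cons_of_mem _ (List.mem_cons_of_mem _ (List.mem_cons_of_mem _ (List.mem_cons_of_mem _ (List.mem_cons_self))))))
  have h2_18 : 0 ≤ d01 + d02 + d03 - d04 - d12 - d34 + 2 * x01 + 2 * x02 - 2 * x12 := by linear_combination 2 * (hl_x01 _ (List.mem_cons_of_mem _ (List.mem_cons_of_mem _ (List.mem_cons_of_mem _ (List.mem_cons_of_mem _ (List.mem_cons_of_mem _ (List.mem_cons_self)))))))
  have h2_20 : 0 ≤ d01 - d02 + d12 + d13 - d14 - d34 + 2 * x01 - 2 * x02 + 2 * x12 := by linear_combination 2 * (hl_x01 _ (List.mem_cons_of_mem _ (List.mem_cons_of_mem _ (List.mem_cons_of_mem _ (List.mem_cons_of_mem _ (List.mem_cons_of_mem _ (List.mem_cons_of_mem _ (List.mem_cons_self))))))))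
  have h2_21 : 0 ≤ d01 - d04 + d13 - d34 + 2 * x01 := by linear_combination 2 * (hl_x01 _ (List.mem_cons_of_mem _ (List.mem_cons_of_mem _ (List.mem_cons_of_mem _ (List.mem_cons_of_mem _ (List.mem_cons_of_mem _ (List.mem_cons_of_mem _ (List.mem_cons_of_mem _ (List.mem_cons_self)))))))))
  have h2_2 : 0 ≤ -d03 + d04 + d34 - 2 * x01 := by linear_combination 2 * (hu_x01 _ (List.mem_cons_self))
  have h2_3 : 0 ≤ -d03 + d04 + d34 - 2 * x01 - 2 * x02 + 2 * x12 := by linear_combination 2 * (hu_x01 _ (List.mem_cons_of_mem _ (List.mem_cons_self)))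
  have h2_6 : 0 ≤ -d13 + d14 + d34 - 2 * x01 + 2 * x02 - 2 * x12 := by linear_combination 2 * (hu_x01 _ (List.mem_cons_of_mem _ (List.mem_cons_of_mem _ (List.mem_cons_self))))
  have h2_7 : 0 ≤ -d13 + d14 + d34 - 2 * x01 := by linear_combination 2 * (hu_x01 _ (List.mem_cons_of_mem _ (List.mem_cons_of_mem _ (List.mem_cons_of_mem _ (List.mem_cons_self)))))
  have h2_22 : 0 ≤ -d01 + d02 + d12 + d23 - d24 - d34 - 2 * x01 + 2 * x02 + 2 * x12 := by linear_combination 2 * (hu_x01 _ (List.mem_cons_of_mem _ (List.mem_cons_of_mem _ (List.mem_cons_of_mem _ (List.mem_cons_of_mem _ (List.mem_cons_self))))))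
  have h2_25 : 0 ≤ -d01 + d04 + d14 - 2 * x01 := by linear_combination 2 * (hu_x01 _ (List.mem_cons_of_mem _ (List.mem_cons_of_mem _ (List.mem_cons_of_mem _ (List.mem_cons_of_mem _ (List.mem_cons_of_mem _ (List.mem_cons_self)))))))
  have h1_7 : 0 ≤ d13 - d14 + d23 - d24 + 2 * x12 := h2_0
  have h1_8 : 0 ≤ -d03 + d04 + d34 - 2 * x02 := h2_1
  have h1_9 : 0 ≤ -d03 + d04 + d34 - 2 * x01 := h2_2
  have h1_10 : 0 ≤ -d03 + d04 + d34 - 2 * x01 - 2 * x02 + 2 * x12 := h2_3
  have h1_11 : 0 ≤ d03 - d04 + d23 - d24 + 2 * x02 := h2_4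
  have h1_12 : 0 ≤ -d13 + d14 + d34 - 2 * x12 := h2_5
  have h1_13 : 0 ≤ -d13 + d14 + d34 - 2 * x01 + 2 * x02 - 2 * x12 := h2_6
  have h1_14 : 0 ≤ -d13 + d14 + d34 - 2 * x01 := h2_7
  have h1_15 : 0 ≤ d03 - d04 + d13 - d14 + 2 * x01 := h2_8
  have h1_16 : 0 ≤ -d23 + d24 + d34 + 2 * x01 - 2 * x02 - 2 * x12 := h2_9
  have h1_17 : 0 ≤ -d23 + d24 + d34 - 2 * x12 := h2_10
  have h1_18 : 0 ≤ -d23 + d24 + d34 - 2 * x02 := h2_11
  have h1_19 : 0 ≤ d03 - d04 + d13 - d14 + d23 - d24 - d34 + 2 * x01 + 2 * x02 + 2 * x12 := h2_12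
  have h1_20 : 0 ≤ x01 := h2_13
  have h1_21 : 0 ≤ x02 := h2_14
  have h1_22 : 0 ≤ x12 := h2_15
  obtain ⟨t, hl_t, hu_t⟩ := exists_mid [-(1/2) * d01 - (1/2) * d02 - (1/2) * d03 + (1/2) * d04 + (1/2) * d14 + (1/2) * d24 + (1/2) * d34 - x01 - x02, -(1/2) * d01 + (1/2) * d04 - (1/2) * d12 - (1/2) * d13 + (1/2) * d14 + (1/2) * d24 + (1/2) * d34 - x01 - x12, -(1/2) * d02 + (1/2) * d04 - (1/2) * d12 + (1/2) * d14 - (1/2) * d23 + (1/2) * d24 + (1/2) * d34 - x02 - x12, 0] [-(1/2) * d01 + (1/2) * d04 + (1/2) * d14 - x01, -(1/2) * d02 + (1/2) * d04 + (1/2) * d24 - x02, -(1/2) * d12 + (1/2) * d14 + (1/2) * d24 - x12] (by simp) (by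
    intro l hl u hu
    simp only [List.mem_cons, List.not_mem_nil, or_false] at hl hu
    rcases hl with rfl | rfl | rfl | rfl
    · rcases hu with rfl | rfl | rfl
      · linear_combination (1/2) * h2_16
      · linear_combination (1/2) * h2_17
      · linear_combination (1/2) * h2_18
    · rcases hu with rfl | rfl | rfl
      · linear_combination (1/2) * h2_19
      · linear_combination (1/2) * h2_20
      · linear_combination (1/2) * h2_21
    · rcases hu with rfl | rfl | rfl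
      · linear_combination (1/2) * h2_22
      · linear_combination (1/2) * h2_23
      · linear_combination (1/2) * h2_24
    · rcases hu with rfl | rfl | rfl
      · linear_combination (1/2) * h2_25
      · linear_combination (1/2) * h2_26
      · linear_combination (1/2) * h2_27
    )
  have h1_0 : 0 ≤ d01 + d02 + d03 - d04 - d14 - d24 - d34 + 2 * x01 + 2 * x02 + 2 * t := by linear_combination 2 * (hl_t _ (List.mem_cons_self))
  have h1_1 : 0 ≤ d01 - d04 + d12 + d13 - d14 - d24 - d34 + 2 * x01 + 2 * x12 + 2 * t := by linear_combination 2 * (hl_t _ (List.mem_cons_of_mem _ (List.mem_cons_self)))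
  have h1_2 : 0 ≤ d02 - d04 + d12 - d14 + d23 - d24 - d34 + 2 * x02 + 2 * x12 + 2 * t := by linear_combination 2 * (hl_t _ (List.mem_cons_of_mem _ (List.mem_cons_of_mem _ (List.mem_cons_self))))
  have h1_6 : 0 ≤ t := by linear_combination 1 * (hl_t _ (List.mem_cons_of_mem _ (List.mem_cons_of_mem _ (List.mem_cons_of_mem _ (List.mem_cons_self)))))
  have h1_3 : 0 ≤ -d01 + d04 + d14 - 2 * x01 - 2 * t := by linear_combination 2 * (hu_t _ (List.mem_cons_self))
  have h1_4 : 0 ≤ -d02 + d04 + d24 - 2 * x02 - 2 * t := by linear_combination 2 * (hu_t _ (List.mem_cons_of_mem _ (List.mem_cons_self)))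
  have h1_5 : 0 ≤ -d12 + d14 + d24 - 2 * x12 - 2 * t := by linear_combination 2 * (hu_t _ (List.mem_cons_of_mem _ (List.mem_cons_of_mem _ (List.mem_cons_self))))
  have h0_0 : 0 ≤ d01 + d02 + d03 - d04 - d14 - d24 - d34 + 2 * x01 + 2 * x02 + 2 * t := h1_0
  have h0_1 : 0 ≤ d01 - d04 + d12 + d13 - d14 - d24 - d34 + 2 * x01 + 2 * x12 + 2 * t := h1_1
  have h0_2 : 0 ≤ d02 - d04 + d12 - d14 + d23 - d24 - d34 + 2 * x02 + 2 * x12 + 2 * t := h1_2
  have h0_4 : 0 ≤ -d01 + d04 + d14 - 2 * x01 - 2 * t := h1_3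
  have h0_5 : 0 ≤ -d02 + d04 + d24 - 2 * x02 - 2 * t := h1_4
  have h0_7 : 0 ≤ -d12 + d14 + d24 - 2 * x12 - 2 * t := h1_5
  have h0_10 : 0 ≤ t := h1_6
  obtain ⟨q, hl_q, hu_q⟩ := exists_mid [(1/2) * d03 - (1/2) * d04 - (1/2) * d34 + x01 + x02, (1/2) * d13 - (1/2) * d14 - (1/2) * d34 + x01 + x12, (1/2) * d23 - (1/2) * d24 - (1/2) * d34 + x02 + x12, 0] [(1/2) * d03 - (1/2) * d04 + (1/2) * d13 - (1/2) * d14 + (1/2) * d23 - (1/2) * d24 - (1/2) * d34 + x01 + x02 + x12, x01, x02, x12] (by simp) (by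
    intro l hl u hu
    simp only [List.mem_cons, List.not_mem_nil, or_false] at hl hu
    rcases hl with rfl | rfl | rfl | rfl
    · rcases hu with rfl | rfl | rfl | rfl
      · linear_combination (1/2) * h1_7
      · linear_combination (1/2) * h1_8
      · linear_combination (1/2) * h1_9
      · linear_combination (1/2) * h1_10
    · rcases hu with rfl | rfl | rfl | rfl
      · linear_combination (1/2) * h1_11
      · linear_combination (1/2) * h1_12
      · linear_combination (1/2) * h1_13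
      · linear_combination (1/2) * h1_14
    · rcases hu with rfl | rfl | rfl | rfl
      · linear_combination (1/2) * h1_15
      · linear_combination (1/2) * h1_16
      · linear_combination (1/2) * h1_17
      · linear_combination (1/2) * h1_18
    · rcases hu with rfl | rfl | rfl | rfl
      · linear_combination (1/2) * h1_19
      · linear_combination h1_20
      · linear_combination h1_21
      · linear_combination h1_22
    )
  have h0_6 : 0 ≤ -d03 + d04 + d34 - 2 * x01 - 2 * x02 + 2 * q := by linear_combination 2 * (hl_q _ (List.mem_cons_self))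
  have h0_8 : 0 ≤ -d13 + d14 + d34 - 2 * x01 - 2 * x12 + 2 * q := by linear_combination 2 * (hl_q _ (List.mem_cons_of_mem _ (List.mem_cons_self)))
  have h0_9 : 0 ≤ -d23 + d24 + d34 - 2 * x02 - 2 * x12 + 2 * q := by linear_combination 2 * (hl_q _ (List.mem_cons_of_mem _ (List.mem_cons_of_mem _ (List.mem_cons_self))))
  have h0_14 : 0 ≤ q := by linear_combination 1 * (hl_q _ (List.mem_cons_of_mem _ (List.mem_cons_of_mem _ (List.mem_cons_of_mem _ (List.mem_cons_self)))))
  have h0_3 : 0 ≤ d03 - d04 + d13 - d14 + d23 - d24 - d34 + 2 * x01 + 2 * x02 + 2 * x12 - 2 * q := by linear_combination 2 * (hu_q _ (List.mem_cons_self))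
  have h0_11 : 0 ≤ x01 - q := by linear_combination 1 * (hu_q _ (List.mem_cons_of_mem _ (List.mem_cons_self)))
  have h0_12 : 0 ≤ x02 - q := by linear_combination 1 * (hu_q _ (List.mem_cons_of_mem _ (List.mem_cons_of_mem _ (List.mem_cons_self))))
  have h0_13 : 0 ≤ x12 - q := by linear_combination 1 * (hu_q _ (List.mem_cons_of_mem _ (List.mem_cons_of_mem _ (List.mem_cons_of_mem _ (List.mem_cons_self)))))
  refine ⟨((1/2) * d01 + (1/2) * d02 + (1/2) * d03 - (1/2) * d04 - (1/2) * d14 - (1/2) * d24 - (1/2) * d34 + x01 + x02 + t), ((1/2) * d01 - (1/2) * d04 + (1/2) * d12 + (1/2) * d13 - (1/2) * d14 - (1/2) * d24 - (1/2) * d34 + x01 + x12 + t), ((1/2) * d02 - (1/2) * d04 + (1/2) * d12 - (1/2) * d14 + (1/2) * d23 - (1/2) * d24 - (1/2) * d34 + x02 + x12 + t), ((1/2) * d03 - (1/2) * d04 + (1/2) * d13 - (1/2) * d14 + (1/2) * d23 - (1/2) * d24 - (1/2) * d34 + x01 + x02 + x12 - q), (-(1/2) * d01 + (1/2) * d04 + (1/2) * d14 - x01 - t), (-(1/2) * d02 + (1/2) * d04 + (1/2)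 * d24 - x02 - t), (-(1/2) * d03 + (1/2) * d04 + (1/2) * d34 - x01 - x02 + q), (-(1/2) * d12 + (1/2) * d14 + (1/2) * d24 - x12 - t), (-(1/2) * d13 + (1/2) * d14 + (1/2) * d34 - x01 - x12 + q), (-(1/2) * d23 + (1/2) * d24 + (1/2) * d34 - x02 - x12 + q), (t), (x01 - q), (x02 - q), (x12 - q), (q), ?_, ?_, ?_, ?_, ?_, ?_, ?_, ?_, ?_, ?_, ?_, ?_, ?_, ?_, ?_, ?_, ?_, ?_, ?_, ?_, ?_, ?_, ?_, ?_, ?_⟩
  · linear_combination (1/2) * h0_0
  · linear_combination (1/2) * h0_1
  · linear_combination (1/2) * h0_2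
  · linear_combination (1/2) * h0_3
  · linear_combination (1/2) * h0_4
  · linear_combination (1/2) * h0_5
  · linear_combination (1/2) * h0_6
  · linear_combination (1/2) * h0_7
  · linear_combination (1/2) * h0_8
  · linear_combination (1/2) * h0_9
  · linear_combination 1 * h0_10
  · linear_combination 1 * h0_11
  · linear_combination 1 * h0_12
  · linear_combination 1 * h0_13
  · linear_combination 1 * h0_14
  · ring
  · ring
  · ring
  · ring
  · ring
  · ring
  · ring
  · ring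
  · ring
  · ring
end Vale.Agent.Lib.P318
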