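import Mathlib
import Vale.Agent.Lib.P318.Cut5

namespace Vale.Agent.Lib.P318

theorem key5 (d01 d02 d03 d04 d12 d13 d14 d23 d24 d34 : ℝ)
    (c01 c02 c03 c04 c12 c13 c14 c23 c24 c34 φ : ℝ)
    (f0 : 0 ≤ -d01 + d02 + d12)
    (f1 : 0 ≤ -d01 + d03 + d13)
    (f2 : 0 ≤ -d01 + d04 + d14)
    (f3 : 0 ≤ d01 - d02 + d12)
    (f4 : 0 ≤ -d02 + d03 + d23)
    (f5 : 0 ≤ -d02 + d04 + d24)
    (f6 : 0 ≤ d01 - d03 + d13)
    (f7 : 0 ≤ d02 - d03 + d23)
    (f8 : 0 ≤ -d03 + d04 + d34)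
    (f9 : 0 ≤ d01 - d04 + d14)
    (f10 : 0 ≤ d02 - d04 + d24)
    (f11 : 0 ≤ d03 - d04 + d34)
    (f12 : 0 ≤ d01 + d02 - d12)
    (f13 : 0 ≤ -d12 + d13 + d23)
    (f14 : 0 ≤ -d12 + d14 + d24)
    (f15 : 0 ≤ d01 + d03 - d13)
    (f16 : 0 ≤ d12 - d13 + d23)
    (f17 : 0 ≤ -d13 + d14 + d34)
    (f18 : 0 ≤ d01 + d04 - d14)
    (f19 : 0 ≤ d12 - d14 + d24)
    (f20 : 0 ≤ d13 - d14 + d34)
    (f21 : 0 ≤ d02 + d03 - d23)
    (f22 : 0 ≤ d12 + d13 - d23)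
    (f23 : 0 ≤ -d23 + d24 + d34)
    (f24 : 0 ≤ d02 + d04 - d24)
    (f25 : 0 ≤ d12 + d14 - d24)
    (f26 : 0 ≤ d23 - d24 + d34)
    (f27 : 0 ≤ d03 + d04 - d34)
    (f28 : 0 ≤ d13 + d14 - d34)
    (f29 : 0 ≤ d23 + d24 - d34)
    (f30 : 0 ≤ -d01 + d02 + d03 + d04 + d12 + d13 + d14 - d23 - d24 - d34)
    (f31 : 0 ≤ d01 - d02 + d03 + d04 + d12 - d13 - d14 + d23 + d24 - d34)
    (f32 : 0 ≤ d01 + d02 - d03 + d04 - d12 + d13 - d14 + d23 - d24 + d34)
    (f33 : 0 ≤ d01 + d02 + d03 - d04 - d12 - d13 + d14 - d23 + d24 + d34)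
    (f34 : 0 ≤ d01 + d02 - d03 - d04 - d12 + d13 + d14 + d23 + d24 - d34)
    (f35 : 0 ≤ d01 - d02 + d03 - d04 + d12 - d13 + d14 + d23 - d24 + d34)
    (f36 : 0 ≤ d01 - d02 - d03 + d04 + d12 + d13 - d14 - d23 + d24 + d34)
    (f37 : 0 ≤ -d01 + d02 + d03 - d04 + d12 + d13 - d14 - d23 + d24 + d34)
    (f38 : 0 ≤ -d01 + d02 - d03 + d04 + d12 - d13 + d14 + d23 - d24 + d34)
    (f39 : 0 ≤ -d01 - d02 + d03 + d04 - d12 + d13 + d14 + d23 + d24 - d34)
    (k0 : φ * 4 ≤ c01 + c02 + c03 + c04)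
    (k1 : φ * 4 ≤ c01 + c12 + c13 + c14)
    (k2 : φ * 4 ≤ c02 + c12 + c23 + c24)
    (k3 : φ * 4 ≤ c03 + c13 + c23 + c34)
    (k4 : φ * 6 ≤ c02 + c03 + c04 + c12 + c13 + c14)
    (k5 : φ * 6 ≤ c01 + c03 + c04 + c12 + c23 + c24)
    (k6 : φ * 6 ≤ c01 + c02 + c04 + c13 + c23 + c34)
    (k7 : φ * 6 ≤ c01 + c02 + c13 + c14 + c23 + c24)
    (k8 : φ * 6 ≤ c01 + c03 + c12 + c14 + c23 + c34)
    (k9 : φ * 6 ≤ c02 + c03 + c12 + c13 + c24 + c34)
    (k10 : φ * 6 ≤ c03 + c04 + c13 + c14 + c23 + c24)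
    (k11 : φ * 6 ≤ c02 + c04 + c12 + c14 + c23 + c34)
    (k12 : φ * 6 ≤ c01 + c04 + c12 + c13 + c24 + c34)
    (k13 : φ * 6 ≤ c01 + c02 + c03 + c14 + c24 + c34)
    (k14 : φ * 4 ≤ c04 + c14 + c24 + c34)
    : φ * (d01 + d02 + d03 + d04 + d12 + d13 + d14 + d23 + d24 + d34) ≤ c01 * d01 + c02 * d02 + c03 * d03 + c04 * d04 + c12 * d12 + c13 * d13 + c14 * d14 + c23 * d23 + c24 * d24 + c34 * d34 := by
  obtain ⟨l0, l1, l2, l3, l01, l02, l03, l12, l13, l23, l012, l013, l023, l123, l0123, p0, p1, p2, p3, p4, p5, p6, p7, p8, p9, p10, p11, p12, p13, p14, e0, e1, e2, e3, e4, e5, e6, e7, e8, e9⟩ :=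
    hyp5_cut d01 d02 d03 d04 d12 d13 d14 d23 d24 d34 f0 f1 f2 f3 f4 f5 f6 f7 f8 f9 f10 f11 f12 f13 f14 f15 f16 f17 f18 f19 f20 f21 f22 f23 f24 f25 f26 f27 f28 f29 f30 f31 f32 f33 f34 f35 f36 f37 f38 f39
  subst e0 e1 e2 e3 e4 e5 e6 e7 e8 e9
  linear_combination mul_nonneg p0 (sub_nonneg.mpr k0) + mul_nonneg p1 (sub_nonneg.mpr k1) + mul_nonneg p2 (sub_nonneg.mpr k2) + mul_nonneg p3 (sub_nonneg.mpr k3) + mul_nonneg p4 (sub_nonneg.mpr k4) + mul_nonneg p5 (sub_nonneg.mpr k5) + mul_nonneg p6 (sub_nonneg.mpr k6) + mul_nonneg p7 (sub_nonneg.mpr k7) + mul_nonneg p8 (sub_nonneg.mpr k8) + mul_nonneg p9 (sub_nonneg.mpr k9) + mul_nonneg p10 (sub_nonneg.mpr k10) + mul_nonneg p11 (sub_nonneg.mpr k11) + mul_nonneg p12 (sub_nonneg.mpr k12) + mul_nonneg p13 (sub_nonneg.mpr k13) + mul_nonneg p14 (sub_nonneg.mpr k14)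

theorem pent_case0 (d01 d02 d03 d04 d12 d13 d14 d23 d24 d34 : ℝ)
    (c01 c02 c03 c04 c12 c13 c14 c23 c24 c34 φ : ℝ) (hφ : 0 ≤ φ) (hcA : 0 ≤ c01)
    (t0 : 0 ≤ -d01 + d02 + d12)
    (t1 : 0 ≤ -d01 + d03 + d13)
    (t2 : 0 ≤ -d01 + d04 + d14)
    (t3 : 0 ≤ d01 - d02 + d12)
    (t4 : 0 ≤ -d02 + d03 + d23)
    (t5 : 0 ≤ -d02 + d04 + d24)
    (t6 : 0 ≤ d01 - d03 + d13)
    (t7 : 0 ≤ d02 - d03 + d23)
    (t8 : 0 ≤ -d03 + d04 + d34)
    (t9 : 0 ≤ d01 - d04 + d14)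
    (t10 : 0 ≤ d02 - d04 + d24)
    (t11 : 0 ≤ d03 - d04 + d34)
    (t12 : 0 ≤ d01 + d02 - d12)
    (t13 : 0 ≤ -d12 + d13 + d23)
    (t14 : 0 ≤ -d12 + d14 + d24)
    (t15 : 0 ≤ d01 + d03 - d13)
    (t16 : 0 ≤ d12 - d13 + d23)
    (t17 : 0 ≤ -d13 + d14 + d34)
    (t18 : 0 ≤ d01 + d04 - d14)
    (t19 : 0 ≤ d12 - d14 + d24)
    (t20 : 0 ≤ d13 - d14 + d34)
    (t21 : 0 ≤ d02 + d03 - d23)
    (t22 : 0 ≤ d12 + d13 - d23)
    (t23 : 0 ≤ -d23 + d24 + d34)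
    (t24 : 0 ≤ d02 + d04 - d24)
    (t25 : 0 ≤ d12 + d14 - d24)
    (t26 : 0 ≤ d23 - d24 + d34)
    (t27 : 0 ≤ d03 + d04 - d34)
    (t28 : 0 ≤ d13 + d14 - d34)
    (t29 : 0 ≤ d23 + d24 - d34)
    (k0 : φ * 4 ≤ c01 + c02 + c03 + c04)
    (k1 : φ * 4 ≤ c01 + c12 + c13 + c14)
    (k2 : φ * 4 ≤ c02 + c12 + c23 + c24)
    (k3 : φ * 4 ≤ c03 + c13 + c23 + c34)
    (k4 : φ * 6 ≤ c02 + c03 + c04 + c12 + c13 + c14)
    (k5 : φ * 6 ≤ c01 + c03 + c04 + c12 + c23 + c24)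
    (k6 : φ * 6 ≤ c01 + c02 + c04 + c13 + c23 + c34)
    (k7 : φ * 6 ≤ c01 + c02 + c13 + c14 + c23 + c24)
    (k8 : φ * 6 ≤ c01 + c03 + c12 + c14 + c23 + c34)
    (k9 : φ * 6 ≤ c02 + c03 + c12 + c13 + c24 + c34)
    (k10 : φ * 6 ≤ c03 + c04 + c13 + c14 + c23 + c24)
    (k11 : φ * 6 ≤ c02 + c04 + c12 + c14 + c23 + c34)
    (k12 : φ * 6 ≤ c01 + c04 + c12 + c13 + c24 + c34)
    (k13 : φ * 6 ≤ c01 + c02 + c03 + c14 + c24 + c34)
    (k14 : φ * 4 ≤ c04 + c14 + c24 + c34)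
    (hneg : 0 ≤ -9 * d01 + 6 * d02 + 6 * d03 + 6 * d04 + 6 * d12 + 6 * d13 + 6 * d14 - 4 * d23 - 4 * d24 - 4 * d34)
    (hv : 0 < d01 - d02 - d03 - d04 - d12 - d13 - d14 + d23 + d24 + d34)
    : (9/10) * φ * (d01 + d02 + d03 + d04 + d12 + d13 + d14 + d23 + d24 + d34) ≤ c01 * d01 + c02 * d02 + c03 * d03 + c04 * d04 + c12 * d12 + c13 * d13 + c14 * d14 + c23 * d23 + c24 * d24 + c34 * d34 := by
  have H := key5 (d02 + d03 + d04 + d12 + d13 + d14 - d23 - d24 - d34) (d02) (d03) (d04) (d12) (d13) (d14) (d23) (d24) (d34)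
    c01 c02 c03 c04 c12 c13 c14 c23 c24 c34 φ
    (by linear_combination hv.le + t0)
    (by linear_combination hv.le + t1)
    (by linear_combination hv.le + t2)
    (by linear_combination t25 + t27 + t22)
    (by linear_combination t4)
    (by linear_combination t5)
    (by linear_combination t24 + t28 + t22)
    (by linear_combination t7)
    (by linear_combination t8)
    (by linear_combination t21 + t25 + t28)
    (by linear_combination t10)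
    (by linear_combination t11)
    (by linear_combination t28 + t24 + t21)
    (by linear_combination t13)
    (by linear_combination t14)
    (by linear_combination t25 + t27 + t21)
    (by linear_combination t16)
    (by linear_combination t17)
    (by linear_combination t24 + t27 + t22)
    (by linear_combination t19)
    (by linear_combination t20)
    (by linear_combination t21)
    (by linear_combination t22)
    (by linear_combination t23)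
    (by linear_combination t24)
    (by linear_combination t25)
    (by linear_combination t26)
    (by linear_combination t27)
    (by linear_combination t28)
    (by linear_combination t29)
    (by linarith)
    (by linear_combination t0 + t3 + 2 * t27)
    (by linear_combination 2 * t24 + t1 + t6)
    (by linear_combination t2 + 2 * t21 + t9)
    (by linear_combination t12 + 2 * t28 + t0)
    (by linear_combination 2 * t25 + t15 + t1)
    (by linear_combination 2 * t22 + t18 + t2)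
    (by linear_combination t21 + t1 + 2 * hv.le + t0 + t22)
    (by linear_combination 2 * hv.le + t0 + t24 + t2 + t25)
    (by linear_combination 2 * hv.le + t2 + t27 + t28 + t1)
    k0 k1 k2 k3 k4 k5 k6 k7 k8 k9 k10 k11 k12 k13 k14
  have hv2 : 0 ≤ (1/10) * (d01 + d02 + d03 + d04 + d12 + d13 + d14 + d23 + d24 + d34) - (d01 - d02 - d03 - d04 - d12 - d13 - d14 + d23 + d24 + d34) := by linear_combination (1/10) * hneg + (1/4) * t24 + (1/4) * t27 + (1/4) * t22 + (1/4) * t28 + (1/4) * t21 + (1/4) * t25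
  linear_combination H + mul_nonneg hφ hv2 + mul_nonneg hcA hv.le

theorem pent_case1 (d01 d02 d03 d04 d12 d13 d14 d23 d24 d34 : ℝ)
    (c01 c02 c03 c04 c12 c13 c14 c23 c24 c34 φ : ℝ) (hφ : 0 ≤ φ) (hcA : 0 ≤ c02)
    (t0 : 0 ≤ -d01 + d02 + d12)
    (t1 : 0 ≤ -d01 + d03 + d13)
    (t2 : 0 ≤ -d01 + d04 + d14)
    (t3 : 0 ≤ d01 - d02 + d12)
    (t4 : 0 ≤ -d02 + d03 + d23)
    (t5 : 0 ≤ -d02 + d04 + d24)
    (t6 : 0 ≤ d01 - d03 + d13)
    (t7 : 0 ≤ d02 - d03 + d23)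
    (t8 : 0 ≤ -d03 + d04 + d34)
    (t9 : 0 ≤ d01 - d04 + d14)
    (t10 : 0 ≤ d02 - d04 + d24)
    (t11 : 0 ≤ d03 - d04 + d34)
    (t12 : 0 ≤ d01 + d02 - d12)
    (t13 : 0 ≤ -d12 + d13 + d23)
    (t14 : 0 ≤ -d12 + d14 + d24)
    (t15 : 0 ≤ d01 + d03 - d13)
    (t16 : 0 ≤ d12 - d13 + d23)
    (t17 : 0 ≤ -d13 + d14 + d34)
    (t18 : 0 ≤ d01 + d04 - d14)
    (t19 : 0 ≤ d12 - d14 + d24)
    (t20 : 0 ≤ d13 - d14 + d34)
    (t21 : 0 ≤ d02 + d03 - d23)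
    (t22 : 0 ≤ d12 + d13 - d23)
    (t23 : 0 ≤ -d23 + d24 + d34)
    (t24 : 0 ≤ d02 + d04 - d24)
    (t25 : 0 ≤ d12 + d14 - d24)
    (t26 : 0 ≤ d23 - d24 + d34)
    (t27 : 0 ≤ d03 + d04 - d34)
    (t28 : 0 ≤ d13 + d14 - d34)
    (t29 : 0 ≤ d23 + d24 - d34)
    (k0 : φ * 4 ≤ c01 + c02 + c03 + c04)
    (k1 : φ * 4 ≤ c01 + c12 + c13 + c14)
    (k2 : φ * 4 ≤ c02 + c12 + c23 + c24)
    (k3 : φ * 4 ≤ c03 + c13 + c23 + c34)
    (k4 : φ * 6 ≤ c02 + c03 + c04 + c12 + c13 + c14)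
    (k5 : φ * 6 ≤ c01 + c03 + c04 + c12 + c23 + c24)
    (k6 : φ * 6 ≤ c01 + c02 + c04 + c13 + c23 + c34)
    (k7 : φ * 6 ≤ c01 + c02 + c13 + c14 + c23 + c24)
    (k8 : φ * 6 ≤ c01 + c03 + c12 + c14 + c23 + c34)
    (k9 : φ * 6 ≤ c02 + c03 + c12 + c13 + c24 + c34)
    (k10 : φ * 6 ≤ c03 + c04 + c13 + c14 + c23 + c24)
    (k11 : φ * 6 ≤ c02 + c04 + c12 + c14 + c23 + c34)
    (k12 : φ * 6 ≤ c01 + c04 + c12 + c13 + c24 + c34)
    (k13 : φ * 6 ≤ c01 + c02 + c03 + c14 + c24 + c34)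
    (k14 : φ * 4 ≤ c04 + c14 + c24 + c34)
    (hneg : 0 ≤ 6 * d01 - 9 * d02 + 6 * d03 + 6 * d04 + 6 * d12 - 4 * d13 - 4 * d14 + 6 * d23 + 6 * d24 - 4 * d34)
    (hv : 0 < -d01 + d02 - d03 - d04 - d12 + d13 + d14 - d23 - d24 + d34)
    : (9/10) * φ * (d01 + d02 + d03 + d04 + d12 + d13 + d14 + d23 + d24 + d34) ≤ c01 * d01 + c02 * d02 + c03 * d03 + c04 * d04 + c12 * d12 + c13 * d13 + c14 * d14 + c23 * d23 + c24 * d24 + c34 * d34 := by
  have H := key5 (d01) (d01 + d03 + d04 + d12 - d13 - d14 + d23 + d24 - d34) (d03) (d04) (d12) (d13) (d14) (d23) (d24) (d34)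
    c01 c02 c03 c04 c12 c13 c14 c23 c24 c34 φ
    (by linear_combination t19 + t27 + t16)
    (by linear_combination t1)
    (by linear_combination t2)
    (by linear_combination t3 + hv.le)
    (by linear_combination hv.le + t4)
    (by linear_combination t5 + hv.le)
    (by linear_combination t6)
    (by linear_combination t29 + t18 + t16)
    (by linear_combination t8)
    (by linear_combination t9)
    (by linear_combination t19 + t15 + t29)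
    (by linear_combination t11)
    (by linear_combination t15 + t18 + t29)
    (by linear_combination t13)
    (by linear_combination t14)
    (by linear_combination t15)
    (by linear_combination t16)
    (by linear_combination t17)
    (by linear_combination t18)
    (by linear_combination t19)
    (by linear_combination t20)
    (by linear_combination t19 + t27 + t15)
    (by linear_combination t22)
    (by linear_combination t23)
    (by linear_combination t16 + t27 + t18)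
    (by linear_combination t25)
    (by linear_combination t26)
    (by linear_combination t27)
    (by linear_combination t28)
    (by linear_combination t29)
    (by linear_combination t0 + t3 + 2 * t27)
    (by linarith)
    (by linear_combination 2 * t18 + t7 + t4)
    (by linear_combination 2 * t15 + t5 + t10)
    (by linear_combination t12 + 2 * t29 + t3)
    (by linear_combination t15 + t16 + t4 + t3 + 2 * hv.le)
    (by linear_combination t3 + t5 + t18 + 2 * hv.le + t19)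
    (by linear_combination 2 * t19 + t15 + t1)
    (by linear_combination 2 * t16 + t18 + t2)
    (by linear_combination 2 * hv.le + t5 + t4 + t29 + t27)
    k0 k1 k2 k3 k4 k5 k6 k7 k8 k9 k10 k11 k12 k13 k14
  have hv2 : 0 ≤ (1/10) * (d01 + d02 + d03 + d04 + d12 + d13 + d14 + d23 + d24 + d34) - (-d01 + d02 - d03 - d04 - d12 + d13 + d14 - d23 - d24 + d34) := by linear_combination (1/10) * hneg + (1/4) * t18 + (1/4) * t27 + (1/4) * t15 + (1/4) * t19 + (1/4) * t16 + (1/4) * t29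
  linear_combination H + mul_nonneg hφ hv2 + mul_nonneg hcA hv.le

theorem pent_case2 (d01 d02 d03 d04 d12 d13 d14 d23 d24 d34 : ℝ)
    (c01 c02 c03 c04 c12 c13 c14 c23 c24 c34 φ : ℝ) (hφ : 0 ≤ φ) (hcA : 0 ≤ c03)
    (t0 : 0 ≤ -d01 + d02 + d12)
    (t1 : 0 ≤ -d01 + d03 + d13)
    (t2 : 0 ≤ -d01 + d04 + d14)
    (t3 : 0 ≤ d01 - d02 + d12)
    (t4 : 0 ≤ -d02 + d03 + d23)
    (t5 : 0 ≤ -d02 + d04 + d24)
    (t6 : 0 ≤ d01 - d03 + d13)
    (t7 : 0 ≤ d02 - d03 + d23)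
    (t8 : 0 ≤ -d03 + d04 + d34)
    (t9 : 0 ≤ d01 - d04 + d14)
    (t10 : 0 ≤ d02 - d04 + d24)
    (t11 : 0 ≤ d03 - d04 + d34)
    (t12 : 0 ≤ d01 + d02 - d12)
    (t13 : 0 ≤ -d12 + d13 + d23)
    (t14 : 0 ≤ -d12 + d14 + d24)
    (t15 : 0 ≤ d01 + d03 - d13)
    (t16 : 0 ≤ d12 - d13 + d23)
    (t17 : 0 ≤ -d13 + d14 + d34)
    (t18 : 0 ≤ d01 + d04 - d14)
    (t19 : 0 ≤ d12 - d14 + d24)
    (t20 : 0 ≤ d13 - d14 + d34)
    (t21 : 0 ≤ d02 + d03 - d23)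
    (t22 : 0 ≤ d12 + d13 - d23)
    (t23 : 0 ≤ -d23 + d24 + d34)
    (t24 : 0 ≤ d02 + d04 - d24)
    (t25 : 0 ≤ d12 + d14 - d24)
    (t26 : 0 ≤ d23 - d24 + d34)
    (t27 : 0 ≤ d03 + d04 - d34)
    (t28 : 0 ≤ d13 + d14 - d34)
    (t29 : 0 ≤ d23 + d24 - d34)
    (k0 : φ * 4 ≤ c01 + c02 + c03 + c04)
    (k1 : φ * 4 ≤ c01 + c12 + c13 + c14)
    (k2 : φ * 4 ≤ c02 + c12 + c23 + c24)
    (k3 : φ * 4 ≤ c03 + c13 + c23 + c34)
    (k4 : φ * 6 ≤ c02 + c03 + c04 + c12 + c13 + c14)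
    (k5 : φ * 6 ≤ c01 + c03 + c04 + c12 + c23 + c24)
    (k6 : φ * 6 ≤ c01 + c02 + c04 + c13 + c23 + c34)
    (k7 : φ * 6 ≤ c01 + c02 + c13 + c14 + c23 + c24)
    (k8 : φ * 6 ≤ c01 + c03 + c12 + c14 + c23 + c34)
    (k9 : φ * 6 ≤ c02 + c03 + c12 + c13 + c24 + c34)
    (k10 : φ * 6 ≤ c03 + c04 + c13 + c14 + c23 + c24)
    (k11 : φ * 6 ≤ c02 + c04 + c12 + c14 + c23 + c34)
    (k12 : φ * 6 ≤ c01 + c04 + c12 + c13 + c24 + c34)
    (k13 : φ * 6 ≤ c01 + c02 + c03 + c14 + c24 + c34)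
    (k14 : φ * 4 ≤ c04 + c14 + c24 + c34)
    (hneg : 0 ≤ 6 * d01 + 6 * d02 - 9 * d03 + 6 * d04 - 4 * d12 + 6 * d13 - 4 * d14 + 6 * d23 - 4 * d24 + 6 * d34)
    (hv : 0 < -d01 - d02 + d03 - d04 + d12 - d13 + d14 - d23 + d24 - d34)
    : (9/10) * φ * (d01 + d02 + d03 + d04 + d12 + d13 + d14 + d23 + d24 + d34) ≤ c01 * d01 + c02 * d02 + c03 * d03 + c04 * d04 + c12 * d12 + c13 * d13 + c14 * d14 + c23 * d23 + c24 * d24 + c34 * d34 := by
  have H := key5 (d01) (d02) (d01 + d02 + d04 - d12 + d13 - d14 + d23 - d24 + d34) (d04) (d12) (d13) (d14) (d23) (d24) (d34)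
    c01 c02 c03 c04 c12 c13 c14 c23 c24 c34 φ
    (by linear_combination t0)
    (by linear_combination t24 + t13 + t20)
    (by linear_combination t2)
    (by linear_combination t3)
    (by linear_combination t26 + t18 + t13)
    (by linear_combination t5)
    (by linear_combination t6 + hv.le)
    (by linear_combination hv.le + t7)
    (by linear_combination t8 + hv.le)
    (by linear_combination t9)
    (by linear_combination t10)
    (by linear_combination t12 + t26 + t20)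
    (by linear_combination t12)
    (by linear_combination t13)
    (by linear_combination t14)
    (by linear_combination t26 + t18 + t12)
    (by linear_combination t16)
    (by linear_combination t17)
    (by linear_combination t18)
    (by linear_combination t19)
    (by linear_combination t20)
    (by linear_combination t20 + t24 + t12)
    (by linear_combination t22)
    (by linear_combination t23)
    (by linear_combination t24)
    (by linear_combination t25)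
    (by linear_combination t26)
    (by linear_combination t13 + t18 + t24)
    (by linear_combination t28)
    (by linear_combination t29)
    (by linear_combination 2 * t24 + t1 + t6)
    (by linear_combination 2 * t18 + t7 + t4)
    (by linarith)
    (by linear_combination 2 * t12 + t8 + t11)
    (by linear_combination 2 * hv.le + t13 + t6 + t12 + t7)
    (by linear_combination t12 + 2 * t26 + t3)
    (by linear_combination t6 + t20 + t18 + t8 + 2 * hv.le)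
    (by linear_combination t12 + 2 * t20 + t0)
    (by linear_combination t8 + t26 + t7 + 2 * hv.le + t24)
    (by linear_combination 2 * t13 + t18 + t2)
    k0 k1 k2 k3 k4 k5 k6 k7 k8 k9 k10 k11 k12 k13 k14
  have hv2 : 0 ≤ (1/10) * (d01 + d02 + d03 + d04 + d12 + d13 + d14 + d23 + d24 + d34) - (-d01 - d02 + d03 - d04 + d12 - d13 + d14 - d23 + d24 - d34) := by linear_combination (1/4) * t12 + (1/4) * t18 + (1/10) * hneg + (1/4) * t24 + (1/4) * t13 + (1/4) * t20 + (1/4) * t26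
  linear_combination H + mul_nonneg hφ hv2 + mul_nonneg hcA hv.le

theorem pent_case3 (d01 d02 d03 d04 d12 d13 d14 d23 d24 d34 : ℝ)
    (c01 c02 c03 c04 c12 c13 c14 c23 c24 c34 φ : ℝ) (hφ : 0 ≤ φ) (hcA : 0 ≤ c04)
    (t0 : 0 ≤ -d01 + d02 + d12)
    (t1 : 0 ≤ -d01 + d03 + d13)
    (t2 : 0 ≤ -d01 + d04 + d14)
    (t3 : 0 ≤ d01 - d02 + d12)
    (t4 : 0 ≤ -d02 + d03 + d23)
    (t5 : 0 ≤ -d02 + d04 + d24)
    (t6 : 0 ≤ d01 - d03 + d13)
    (t7 : 0 ≤ d02 - d03 + d23)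
    (t8 : 0 ≤ -d03 + d04 + d34)
    (t9 : 0 ≤ d01 - d04 + d14)
    (t10 : 0 ≤ d02 - d04 + d24)
    (t11 : 0 ≤ d03 - d04 + d34)
    (t12 : 0 ≤ d01 + d02 - d12)
    (t13 : 0 ≤ -d12 + d13 + d23)
    (t14 : 0 ≤ -d12 + d14 + d24)
    (t15 : 0 ≤ d01 + d03 - d13)
    (t16 : 0 ≤ d12 - d13 + d23)
    (t17 : 0 ≤ -d13 + d14 + d34)
    (t18 : 0 ≤ d01 + d04 - d14)
    (t19 : 0 ≤ d12 - d14 + d24)
    (t20 : 0 ≤ d13 - d14 + d34)
    (t21 : 0 ≤ d02 + d03 - d23)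
    (t22 : 0 ≤ d12 + d13 - d23)
    (t23 : 0 ≤ -d23 + d24 + d34)
    (t24 : 0 ≤ d02 + d04 - d24)
    (t25 : 0 ≤ d12 + d14 - d24)
    (t26 : 0 ≤ d23 - d24 + d34)
    (t27 : 0 ≤ d03 + d04 - d34)
    (t28 : 0 ≤ d13 + d14 - d34)
    (t29 : 0 ≤ d23 + d24 - d34)
    (k0 : φ * 4 ≤ c01 + c02 + c03 + c04)
    (k1 : φ * 4 ≤ c01 + c12 + c13 + c14)
    (k2 : φ * 4 ≤ c02 + c12 + c23 + c24)
    (k3 : φ * 4 ≤ c03 + c13 + c23 + c34)
    (k4 : φ * 6 ≤ c02 + c03 + c04 + c12 + c13 + c14)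
    (k5 : φ * 6 ≤ c01 + c03 + c04 + c12 + c23 + c24)
    (k6 : φ * 6 ≤ c01 + c02 + c04 + c13 + c23 + c34)
    (k7 : φ * 6 ≤ c01 + c02 + c13 + c14 + c23 + c24)
    (k8 : φ * 6 ≤ c01 + c03 + c12 + c14 + c23 + c34)
    (k9 : φ * 6 ≤ c02 + c03 + c12 + c13 + c24 + c34)
    (k10 : φ * 6 ≤ c03 + c04 + c13 + c14 + c23 + c24)
    (k11 : φ * 6 ≤ c02 + c04 + c12 + c14 + c23 + c34)
    (k12 : φ * 6 ≤ c01 + c04 + c12 + c13 + c24 + c34)
    (k13 : φ * 6 ≤ c01 + c02 + c03 + c14 + c24 + c34)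
    (k14 : φ * 4 ≤ c04 + c14 + c24 + c34)
    (hneg : 0 ≤ 6 * d01 + 6 * d02 + 6 * d03 - 9 * d04 - 4 * d12 - 4 * d13 + 6 * d14 - 4 * d23 + 6 * d24 + 6 * d34)
    (hv : 0 < -d01 - d02 - d03 + d04 + d12 + d13 - d14 + d23 - d24 - d34)
    : (9/10) * φ * (d01 + d02 + d03 + d04 + d12 + d13 + d14 + d23 + d24 + d34) ≤ c01 * d01 + c02 * d02 + c03 * d03 + c04 * d04 + c12 * d12 + c13 * d13 + c14 * d14 + c23 * d23 + c24 * d24 + c34 * d34 := by
  have H := key5 (d01) (d02) (d03) (d01 + d02 + d03 - d12 - d13 + d14 - d23 + d24 + d34) (d12) (d13) (d14) (d23) (d24) (d34)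
    c01 c02 c03 c04 c12 c13 c14 c23 c24 c34 φ
    (by linear_combination t0)
    (by linear_combination t1)
    (by linear_combination t17 + t21 + t14)
    (by linear_combination t3)
    (by linear_combination t4)
    (by linear_combination t15 + t23 + t14)
    (by linear_combination t6)
    (by linear_combination t7)
    (by linear_combination t12 + t17 + t23)
    (by linear_combination t9 + hv.le)
    (by linear_combination hv.le + t10)
    (by linear_combination hv.le + t11)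
    (by linear_combination t12)
    (by linear_combination t13)
    (by linear_combination t14)
    (by linear_combination t15)
    (by linear_combination t16)
    (by linear_combination t17)
    (by linear_combination t12 + t15 + t23)
    (by linear_combination t19)
    (by linear_combination t20)
    (by linear_combination t21)
    (by linear_combination t22)
    (by linear_combination t23)
    (by linear_combination t12 + t21 + t17)
    (by linear_combination t25)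
    (by linear_combination t26)
    (by linear_combination t15 + t14 + t21)
    (by linear_combination t28)
    (by linear_combination t29)
    (by linear_combination t2 + 2 * t21 + t9)
    (by linear_combination 2 * t15 + t5 + t10)
    (by linear_combination 2 * t12 + t8 + t11)
    (by linarith)
    (by linear_combination t14 + 2 * hv.le + t12 + t9 + t10)
    (by linear_combination t17 + t15 + 2 * hv.le + t9 + t11)
    (by linear_combination t12 + 2 * t23 + t3)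
    (by linear_combination t21 + t23 + 2 * hv.le + t10 + t11)
    (by linear_combination t12 + 2 * t17 + t0)
    (by linear_combination t15 + 2 * t14 + t1)
    k0 k1 k2 k3 k4 k5 k6 k7 k8 k9 k10 k11 k12 k13 k14
  have hv2 : 0 ≤ (1/10) * (d01 + d02 + d03 + d04 + d12 + d13 + d14 + d23 + d24 + d34) - (-d01 - d02 - d03 + d04 + d12 + d13 - d14 + d23 - d24 - d34) := by linear_combination (1/4) * t12 + (1/4) * t21 + (1/4) * t15 + (1/10) * hneg + (1/4) * t17 + (1/4) * t14 + (1/4) * t23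
  linear_combination H + mul_nonneg hφ hv2 + mul_nonneg hcA hv.le

theorem pent_case4 (d01 d02 d03 d04 d12 d13 d14 d23 d24 d34 : ℝ)
    (c01 c02 c03 c04 c12 c13 c14 c23 c24 c34 φ : ℝ) (hφ : 0 ≤ φ) (hcA : 0 ≤ c12)
    (t0 : 0 ≤ -d01 + d02 + d12)
    (t1 : 0 ≤ -d01 + d03 + d13)
    (t2 : 0 ≤ -d01 + d04 + d14)
    (t3 : 0 ≤ d01 - d02 + d12)
    (t4 : 0 ≤ -d02 + d03 + d23)
    (t5 : 0 ≤ -d02 + d04 + d24)
    (t6 : 0 ≤ d01 - d03 + d13)
    (t7 : 0 ≤ d02 - d03 + d23)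
    (t8 : 0 ≤ -d03 + d04 + d34)
    (t9 : 0 ≤ d01 - d04 + d14)
    (t10 : 0 ≤ d02 - d04 + d24)
    (t11 : 0 ≤ d03 - d04 + d34)
    (t12 : 0 ≤ d01 + d02 - d12)
    (t13 : 0 ≤ -d12 + d13 + d23)
    (t14 : 0 ≤ -d12 + d14 + d24)
    (t15 : 0 ≤ d01 + d03 - d13)
    (t16 : 0 ≤ d12 - d13 + d23)
    (t17 : 0 ≤ -d13 + d14 + d34)
    (t18 : 0 ≤ d01 + d04 - d14)
    (t19 : 0 ≤ d12 - d14 + d24)
    (t20 : 0 ≤ d13 - d14 + d34)
    (t21 : 0 ≤ d02 + d03 - d23)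
    (t22 : 0 ≤ d12 + d13 - d23)
    (t23 : 0 ≤ -d23 + d24 + d34)
    (t24 : 0 ≤ d02 + d04 - d24)
    (t25 : 0 ≤ d12 + d14 - d24)
    (t26 : 0 ≤ d23 - d24 + d34)
    (t27 : 0 ≤ d03 + d04 - d34)
    (t28 : 0 ≤ d13 + d14 - d34)
    (t29 : 0 ≤ d23 + d24 - d34)
    (k0 : φ * 4 ≤ c01 + c02 + c03 + c04)
    (k1 : φ * 4 ≤ c01 + c12 + c13 + c14)
    (k2 : φ * 4 ≤ c02 + c12 + c23 + c24)
    (k3 : φ * 4 ≤ c03 + c13 + c23 + c34)
    (k4 : φ * 6 ≤ c02 + c03 + c04 + c12 + c13 + c14)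
    (k5 : φ * 6 ≤ c01 + c03 + c04 + c12 + c23 + c24)
    (k6 : φ * 6 ≤ c01 + c02 + c04 + c13 + c23 + c34)
    (k7 : φ * 6 ≤ c01 + c02 + c13 + c14 + c23 + c24)
    (k8 : φ * 6 ≤ c01 + c03 + c12 + c14 + c23 + c34)
    (k9 : φ * 6 ≤ c02 + c03 + c12 + c13 + c24 + c34)
    (k10 : φ * 6 ≤ c03 + c04 + c13 + c14 + c23 + c24)
    (k11 : φ * 6 ≤ c02 + c04 + c12 + c14 + c23 + c34)
    (k12 : φ * 6 ≤ c01 + c04 + c12 + c13 + c24 + c34)
    (k13 : φ * 6 ≤ c01 + c02 + c03 + c14 + c24 + c34)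
    (k14 : φ * 4 ≤ c04 + c14 + c24 + c34)
    (hneg : 0 ≤ 6 * d01 + 6 * d02 - 4 * d03 - 4 * d04 - 9 * d12 + 6 * d13 + 6 * d14 + 6 * d23 + 6 * d24 - 4 * d34)
    (hv : 0 < -d01 - d02 + d03 + d04 + d12 - d13 - d14 - d23 - d24 + d34)
    : (9/10) * φ * (d01 + d02 + d03 + d04 + d12 + d13 + d14 + d23 + d24 + d34) ≤ c01 * d01 + c02 * d02 + c03 * d03 + c04 * d04 + c12 * d12 + c13 * d13 + c14 * d14 + c23 * d23 + c24 * d24 + c34 * d34 := by
  have H := key5 (d01) (d02) (d03) (d04) (d01 + d02 - d03 - d04 + d13 + d14 + d23 + d24 - d34) (d13) (d14) (d23) (d24) (d34)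
    c01 c02 c03 c04 c12 c13 c14 c23 c24 c34 φ
    (by linear_combination t10 + t7 + t28)
    (by linear_combination t1)
    (by linear_combination t2)
    (by linear_combination t9 + t6 + t29)
    (by linear_combination t4)
    (by linear_combination t5)
    (by linear_combination t6)
    (by linear_combination t7)
    (by linear_combination t8)
    (by linear_combination t9)
    (by linear_combination t10)
    (by linear_combination t11)
    (by linear_combination t12 + hv.le)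
    (by linear_combination t13 + hv.le)
    (by linear_combination hv.le + t14)
    (by linear_combination t15)
    (by linear_combination t9 + t7 + t29)
    (by linear_combination t17)
    (by linear_combination t18)
    (by linear_combination t6 + t10 + t29)
    (by linear_combination t20)
    (by linear_combination t21)
    (by linear_combination t6 + t10 + t28)
    (by linear_combination t23)
    (by linear_combination t24)
    (by linear_combination t7 + t28 + t9)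
    (by linear_combination t26)
    (by linear_combination t27)
    (by linear_combination t28)
    (by linear_combination t29)
    (by linear_combination t12 + 2 * t28 + t0)
    (by linear_combination t12 + 2 * t29 + t3)
    (by linear_combination t7 + 2 * hv.le + t13 + t12 + t6)
    (by linear_combination t12 + t10 + 2 * hv.le + t9 + t14)
    (by linarith)
    (by linear_combination 2 * t9 + t4 + t7)
    (by linear_combination 2 * t6 + t5 + t10)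
    (by linear_combination 2 * t10 + t1 + t6)
    (by linear_combination 2 * t7 + t2 + t9)
    (by linear_combination t13 + 2 * hv.le + t28 + t29 + t14)
    k0 k1 k2 k3 k4 k5 k6 k7 k8 k9 k10 k11 k12 k13 k14
  have hv2 : 0 ≤ (1/10) * (d01 + d02 + d03 + d04 + d12 + d13 + d14 + d23 + d24 + d34) - (-d01 - d02 + d03 + d04 + d12 - d13 - d14 - d23 - d24 + d34) := by linear_combination (1/4) * t9 + (1/4) * t28 + (1/4) * t6 + (1/10) * hneg + (1/4) * t29 + (1/4) * t7 + (1/4) * t10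
  linear_combination H + mul_nonneg hφ hv2 + mul_nonneg hcA hv.le

theorem pent_case5 (d01 d02 d03 d04 d12 d13 d14 d23 d24 d34 : ℝ)
    (c01 c02 c03 c04 c12 c13 c14 c23 c24 c34 φ : ℝ) (hφ : 0 ≤ φ) (hcA : 0 ≤ c13)
    (t0 : 0 ≤ -d01 + d02 + d12)
    (t1 : 0 ≤ -d01 + d03 + d13)
    (t2 : 0 ≤ -d01 + d04 + d14)
    (t3 : 0 ≤ d01 - d02 + d12)
    (t4 : 0 ≤ -d02 + d03 + d23)
    (t5 : 0 ≤ -d02 + d04 + d24)
    (t6 : 0 ≤ d01 - d03 + d13)
    (t7 : 0 ≤ d02 - d03 + d23)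
    (t8 : 0 ≤ -d03 + d04 + d34)
    (t9 : 0 ≤ d01 - d04 + d14)
    (t10 : 0 ≤ d02 - d04 + d24)
    (t11 : 0 ≤ d03 - d04 + d34)
    (t12 : 0 ≤ d01 + d02 - d12)
    (t13 : 0 ≤ -d12 + d13 + d23)
    (t14 : 0 ≤ -d12 + d14 + d24)
    (t15 : 0 ≤ d01 + d03 - d13)
    (t16 : 0 ≤ d12 - d13 + d23)
    (t17 : 0 ≤ -d13 + d14 + d34)
    (t18 : 0 ≤ d01 + d04 - d14)
    (t19 : 0 ≤ d12 - d14 + d24)
    (t20 : 0 ≤ d13 - d14 + d34)
    (t21 : 0 ≤ d02 + d03 - d23)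
    (t22 : 0 ≤ d12 + d13 - d23)
    (t23 : 0 ≤ -d23 + d24 + d34)
    (t24 : 0 ≤ d02 + d04 - d24)
    (t25 : 0 ≤ d12 + d14 - d24)
    (t26 : 0 ≤ d23 - d24 + d34)
    (t27 : 0 ≤ d03 + d04 - d34)
    (t28 : 0 ≤ d13 + d14 - d34)
    (t29 : 0 ≤ d23 + d24 - d34)
    (k0 : φ * 4 ≤ c01 + c02 + c03 + c04)
    (k1 : φ * 4 ≤ c01 + c12 + c13 + c14)
    (k2 : φ * 4 ≤ c02 + c12 + c23 + c24)
    (k3 : φ * 4 ≤ c03 + c13 + c23 + c34)
    (k4 : φ * 6 ≤ c02 + c03 + c04 + c12 + c13 + c14)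
    (k5 : φ * 6 ≤ c01 + c03 + c04 + c12 + c23 + c24)
    (k6 : φ * 6 ≤ c01 + c02 + c04 + c13 + c23 + c34)
    (k7 : φ * 6 ≤ c01 + c02 + c13 + c14 + c23 + c24)
    (k8 : φ * 6 ≤ c01 + c03 + c12 + c14 + c23 + c34)
    (k9 : φ * 6 ≤ c02 + c03 + c12 + c13 + c24 + c34)
    (k10 : φ * 6 ≤ c03 + c04 + c13 + c14 + c23 + c24)
    (k11 : φ * 6 ≤ c02 + c04 + c12 + c14 + c23 + c34)
    (k12 : φ * 6 ≤ c01 + c04 + c12 + c13 + c24 + c34)
    (k13 : φ * 6 ≤ c01 + c02 + c03 + c14 + c24 + c34)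
    (k14 : φ * 4 ≤ c04 + c14 + c24 + c34)
    (hneg : 0 ≤ 6 * d01 - 4 * d02 + 6 * d03 - 4 * d04 + 6 * d12 - 9 * d13 + 6 * d14 + 6 * d23 - 4 * d24 + 6 * d34)
    (hv : 0 < -d01 + d02 - d03 + d04 - d12 + d13 - d14 - d23 + d24 - d34)
    : (9/10) * φ * (d01 + d02 + d03 + d04 + d12 + d13 + d14 + d23 + d24 + d34) ≤ c01 * d01 + c02 * d02 + c03 * d03 + c04 * d04 + c12 * d12 + c13 * d13 + c14 * d14 + c23 * d23 + c24 * d24 + c34 * d34 := by
  have H := key5 (d01) (d02) (d03) (d04) (d12) (d01 - d02 + d03 - d04 + d12 + d14 + d23 - d24 + d34) (d14) (d23) (d24) (d34)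
    c01 c02 c03 c04 c12 c13 c14 c23 c24 c34 φ
    (by linear_combination t0)
    (by linear_combination t4 + t11 + t25)
    (by linear_combination t2)
    (by linear_combination t3)
    (by linear_combination t4)
    (by linear_combination t5)
    (by linear_combination t9 + t3 + t26)
    (by linear_combination t7)
    (by linear_combination t8)
    (by linear_combination t9)
    (by linear_combination t10)
    (by linear_combination t11)
    (by linear_combination t12)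
    (by linear_combination t9 + t4 + t26)
    (by linear_combination t14)
    (by linear_combination t15 + hv.le)
    (by linear_combination t16 + hv.le)
    (by linear_combination hv.le + t17)
    (by linear_combination t18)
    (by linear_combination t19)
    (by linear_combination t3 + t26 + t11)
    (by linear_combination t21)
    (by linear_combination t3 + t11 + t25)
    (by linear_combination t23)
    (by linear_combination t24)
    (by linear_combination t25)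
    (by linear_combination t26)
    (by linear_combination t27)
    (by linear_combination t4 + t25 + t9)
    (by linear_combination t29)
    (by linear_combination 2 * t25 + t15 + t1)
    (by linear_combination t3 + t16 + 2 * hv.le + t4 + t15)
    (by linear_combination t12 + 2 * t26 + t3)
    (by linear_combination t9 + t15 + 2 * hv.le + t11 + t17)
    (by linear_combination 2 * t9 + t4 + t7)
    (by linarith)
    (by linear_combination 2 * t3 + t8 + t11)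
    (by linear_combination t0 + 2 * t11 + t3)
    (by linear_combination t16 + t25 + 2 * hv.le + t26 + t17)
    (by linear_combination 2 * t4 + t2 + t9)
    k0 k1 k2 k3 k4 k5 k6 k7 k8 k9 k10 k11 k12 k13 k14
  have hv2 : 0 ≤ (1/10) * (d01 + d02 + d03 + d04 + d12 + d13 + d14 + d23 + d24 + d34) - (-d01 + d02 - d03 + d04 - d12 + d13 - d14 - d23 + d24 - d34) := by linear_combination (1/4) * t3 + (1/4) * t4 + (1/4) * t9 + (1/4) * t25 + (1/10) * hneg + (1/4) * t26 + (1/4) * t11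
  linear_combination H + mul_nonneg hφ hv2 + mul_nonneg hcA hv.le

theorem pent_case6 (d01 d02 d03 d04 d12 d13 d14 d23 d24 d34 : ℝ)
    (c01 c02 c03 c04 c12 c13 c14 c23 c24 c34 φ : ℝ) (hφ : 0 ≤ φ) (hcA : 0 ≤ c14)
    (t0 : 0 ≤ -d01 + d02 + d12)
    (t1 : 0 ≤ -d01 + d03 + d13)
    (t2 : 0 ≤ -d01 + d04 + d14)
    (t3 : 0 ≤ d01 - d02 + d12)
    (t4 : 0 ≤ -d02 + d03 + d23)
    (t5 : 0 ≤ -d02 + d04 + d24)
    (t6 : 0 ≤ d01 - d03 + d13)
    (t7 : 0 ≤ d02 - d03 + d23)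
    (t8 : 0 ≤ -d03 + d04 + d34)
    (t9 : 0 ≤ d01 - d04 + d14)
    (t10 : 0 ≤ d02 - d04 + d24)
    (t11 : 0 ≤ d03 - d04 + d34)
    (t12 : 0 ≤ d01 + d02 - d12)
    (t13 : 0 ≤ -d12 + d13 + d23)
    (t14 : 0 ≤ -d12 + d14 + d24)
    (t15 : 0 ≤ d01 + d03 - d13)
    (t16 : 0 ≤ d12 - d13 + d23)
    (t17 : 0 ≤ -d13 + d14 + d34)
    (t18 : 0 ≤ d01 + d04 - d14)
    (t19 : 0 ≤ d12 - d14 + d24)
    (t20 : 0 ≤ d13 - d14 + d34)
    (t21 : 0 ≤ d02 + d03 - d23)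
    (t22 : 0 ≤ d12 + d13 - d23)
    (t23 : 0 ≤ -d23 + d24 + d34)
    (t24 : 0 ≤ d02 + d04 - d24)
    (t25 : 0 ≤ d12 + d14 - d24)
    (t26 : 0 ≤ d23 - d24 + d34)
    (t27 : 0 ≤ d03 + d04 - d34)
    (t28 : 0 ≤ d13 + d14 - d34)
    (t29 : 0 ≤ d23 + d24 - d34)
    (k0 : φ * 4 ≤ c01 + c02 + c03 + c04)
    (k1 : φ * 4 ≤ c01 + c12 + c13 + c14)
    (k2 : φ * 4 ≤ c02 + c12 + c23 + c24)
    (k3 : φ * 4 ≤ c03 + c13 + c23 + c34)
    (k4 : φ * 6 ≤ c02 + c03 + c04 + c12 + c13 + c14)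
    (k5 : φ * 6 ≤ c01 + c03 + c04 + c12 + c23 + c24)
    (k6 : φ * 6 ≤ c01 + c02 + c04 + c13 + c23 + c34)
    (k7 : φ * 6 ≤ c01 + c02 + c13 + c14 + c23 + c24)
    (k8 : φ * 6 ≤ c01 + c03 + c12 + c14 + c23 + c34)
    (k9 : φ * 6 ≤ c02 + c03 + c12 + c13 + c24 + c34)
    (k10 : φ * 6 ≤ c03 + c04 + c13 + c14 + c23 + c24)
    (k11 : φ * 6 ≤ c02 + c04 + c12 + c14 + c23 + c34)
    (k12 : φ * 6 ≤ c01 + c04 + c12 + c13 + c24 + c34)
    (k13 : φ * 6 ≤ c01 + c02 + c03 + c14 + c24 + c34)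
    (k14 : φ * 4 ≤ c04 + c14 + c24 + c34)
    (hneg : 0 ≤ 6 * d01 - 4 * d02 - 4 * d03 + 6 * d04 + 6 * d12 + 6 * d13 - 9 * d14 - 4 * d23 + 6 * d24 + 6 * d34)
    (hv : 0 < -d01 + d02 + d03 - d04 - d12 - d13 + d14 + d23 - d24 - d34)
    : (9/10) * φ * (d01 + d02 + d03 + d04 + d12 + d13 + d14 + d23 + d24 + d34) ≤ c01 * d01 + c02 * d02 + c03 * d03 + c04 * d04 + c12 * d12 + c13 * d13 + c14 * d14 + c23 * d23 + c24 * d24 + c34 * d34 := by
  have H := key5 (d01) (d02) (d03) (d04) (d12) (d13) (d01 - d02 - d03 + d04 + d12 + d13 - d23 + d24 + d34) (d23) (d24) (d34)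
    c01 c02 c03 c04 c12 c13 c14 c23 c24 c34 φ
    (by linear_combination t0)
    (by linear_combination t1)
    (by linear_combination t5 + t8 + t22)
    (by linear_combination t3)
    (by linear_combination t4)
    (by linear_combination t5)
    (by linear_combination t6)
    (by linear_combination t7)
    (by linear_combination t8)
    (by linear_combination t6 + t3 + t23)
    (by linear_combination t10)
    (by linear_combination t11)
    (by linear_combination t12)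
    (by linear_combination t13)
    (by linear_combination t6 + t5 + t23)
    (by linear_combination t15)
    (by linear_combination t16)
    (by linear_combination t3 + t8 + t23)
    (by linear_combination t18 + hv.le)
    (by linear_combination t19 + hv.le)
    (by linear_combination t20 + hv.le)
    (by linear_combination t21)
    (by linear_combination t22)
    (by linear_combination t23)
    (by linear_combination t24)
    (by linear_combination t3 + t8 + t22)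
    (by linear_combination t26)
    (by linear_combination t27)
    (by linear_combination t5 + t6 + t22)
    (by linear_combination t29)
    (by linear_combination 2 * t22 + t18 + t2)
    (by linear_combination t19 + t5 + t3 + 2 * hv.le + t18)
    (by linear_combination t18 + t6 + t8 + t20 + 2 * hv.le)
    (by linear_combination t12 + 2 * t23 + t3)
    (by linear_combination 2 * t6 + t5 + t10)
    (by linear_combination 2 * t3 + t8 + t11)
    (by linarith)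
    (by linear_combination t19 + t22 + 2 * hv.le + t20 + t23)
    (by linear_combination t0 + 2 * t8 + t3)
    (by linear_combination 2 * t5 + t1 + t6)
    k0 k1 k2 k3 k4 k5 k6 k7 k8 k9 k10 k11 k12 k13 k14
  have hv2 : 0 ≤ (1/10) * (d01 + d02 + d03 + d04 + d12 + d13 + d14 + d23 + d24 + d34) - (-d01 + d02 + d03 - d04 - d12 - d13 + d14 + d23 - d24 - d34) := by linear_combination (1/4) * t23 + (1/4) * t3 + (1/4) * t6 + (1/4) * t5 + (1/10) * hneg + (1/4) * t22 + (1/4) * t8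
  linear_combination H + mul_nonneg hφ hv2 + mul_nonneg hcA hv.le

theorem pent_case7 (d01 d02 d03 d04 d12 d13 d14 d23 d24 d34 : ℝ)
    (c01 c02 c03 c04 c12 c13 c14 c23 c24 c34 φ : ℝ) (hφ : 0 ≤ φ) (hcA : 0 ≤ c23)
    (t0 : 0 ≤ -d01 + d02 + d12)
    (t1 : 0 ≤ -d01 + d03 + d13)
    (t2 : 0 ≤ -d01 + d04 + d14)
    (t3 : 0 ≤ d01 - d02 + d12)
    (t4 : 0 ≤ -d02 + d03 + d23)
    (t5 : 0 ≤ -d02 + d04 + d24)
    (t6 : 0 ≤ d01 - d03 + d13)
    (t7 : 0 ≤ d02 - d03 + d23)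
    (t8 : 0 ≤ -d03 + d04 + d34)
    (t9 : 0 ≤ d01 - d04 + d14)
    (t10 : 0 ≤ d02 - d04 + d24)
    (t11 : 0 ≤ d03 - d04 + d34)
    (t12 : 0 ≤ d01 + d02 - d12)
    (t13 : 0 ≤ -d12 + d13 + d23)
    (t14 : 0 ≤ -d12 + d14 + d24)
    (t15 : 0 ≤ d01 + d03 - d13)
    (t16 : 0 ≤ d12 - d13 + d23)
    (t17 : 0 ≤ -d13 + d14 + d34)
    (t18 : 0 ≤ d01 + d04 - d14)
    (t19 : 0 ≤ d12 - d14 + d24)
    (t20 : 0 ≤ d13 - d14 + d34)
    (t21 : 0 ≤ d02 + d03 - d23)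
    (t22 : 0 ≤ d12 + d13 - d23)
    (t23 : 0 ≤ -d23 + d24 + d34)
    (t24 : 0 ≤ d02 + d04 - d24)
    (t25 : 0 ≤ d12 + d14 - d24)
    (t26 : 0 ≤ d23 - d24 + d34)
    (t27 : 0 ≤ d03 + d04 - d34)
    (t28 : 0 ≤ d13 + d14 - d34)
    (t29 : 0 ≤ d23 + d24 - d34)
    (k0 : φ * 4 ≤ c01 + c02 + c03 + c04)
    (k1 : φ * 4 ≤ c01 + c12 + c13 + c14)
    (k2 : φ * 4 ≤ c02 + c12 + c23 + c24)
    (k3 : φ * 4 ≤ c03 + c13 + c23 + c34)
    (k4 : φ * 6 ≤ c02 + c03 + c04 + c12 + c13 + c14)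
    (k5 : φ * 6 ≤ c01 + c03 + c04 + c12 + c23 + c24)
    (k6 : φ * 6 ≤ c01 + c02 + c04 + c13 + c23 + c34)
    (k7 : φ * 6 ≤ c01 + c02 + c13 + c14 + c23 + c24)
    (k8 : φ * 6 ≤ c01 + c03 + c12 + c14 + c23 + c34)
    (k9 : φ * 6 ≤ c02 + c03 + c12 + c13 + c24 + c34)
    (k10 : φ * 6 ≤ c03 + c04 + c13 + c14 + c23 + c24)
    (k11 : φ * 6 ≤ c02 + c04 + c12 + c14 + c23 + c34)
    (k12 : φ * 6 ≤ c01 + c04 + c12 + c13 + c24 + c34)
    (k13 : φ * 6 ≤ c01 + c02 + c03 + c14 + c24 + c34)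
    (k14 : φ * 4 ≤ c04 + c14 + c24 + c34)
    (hneg : 0 ≤ -4 * d01 + 6 * d02 + 6 * d03 - 4 * d04 + 6 * d12 + 6 * d13 - 4 * d14 - 9 * d23 + 6 * d24 + 6 * d34)
    (hv : 0 < d01 - d02 - d03 + d04 - d12 - d13 + d14 + d23 - d24 - d34)
    : (9/10) * φ * (d01 + d02 + d03 + d04 + d12 + d13 + d14 + d23 + d24 + d34) ≤ c01 * d01 + c02 * d02 + c03 * d03 + c04 * d04 + c12 * d12 + c13 * d13 + c14 * d14 + c23 * d23 + c24 * d24 + c34 * d34 := by
  have H := key5 (d01) (d02) (d03) (d04) (d12) (d13) (d14) (-d01 + d02 + d03 - d04 + d12 + d13 - d14 + d24 + d34) (d24) (d34)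
    c01 c02 c03 c04 c12 c13 c14 c23 c24 c34 φ
    (by linear_combination t0)
    (by linear_combination t1)
    (by linear_combination t2)
    (by linear_combination t3)
    (by linear_combination t1 + t19 + t11)
    (by linear_combination t5)
    (by linear_combination t6)
    (by linear_combination t0 + t10 + t20)
    (by linear_combination t8)
    (by linear_combination t9)
    (by linear_combination t10)
    (by linear_combination t11)
    (by linear_combination t12)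
    (by linear_combination t1 + t10 + t20)
    (by linear_combination t14)
    (by linear_combination t15)
    (by linear_combination t0 + t11 + t19)
    (by linear_combination t17)
    (by linear_combination t18)
    (by linear_combination t19)
    (by linear_combination t20)
    (by linear_combination t21 + hv.le)
    (by linear_combination t22 + hv.le)
    (by linear_combination hv.le + t23)
    (by linear_combination t24)
    (by linear_combination t25)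
    (by linear_combination t0 + t20 + t11)
    (by linear_combination t27)
    (by linear_combination t28)
    (by linear_combination t19 + t10 + t1)
    (by linear_combination t21 + t1 + t22 + t0 + 2 * hv.le)
    (by linear_combination 2 * t19 + t15 + t1)
    (by linear_combination t12 + 2 * t20 + t0)
    (by linear_combination t21 + t10 + 2 * hv.le + t11 + t23)
    (by linear_combination 2 * t10 + t1 + t6)
    (by linear_combination t0 + 2 * t11 + t3)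
    (by linear_combination t23 + t19 + t20 + t22 + 2 * hv.le)
    (by linarith)
    (by linear_combination 2 * t0 + t8 + t11)
    (by linear_combination 2 * t1 + t5 + t10)
    k0 k1 k2 k3 k4 k5 k6 k7 k8 k9 k10 k11 k12 k13 k14
  have hv2 : 0 ≤ (1/10) * (d01 + d02 + d03 + d04 + d12 + d13 + d14 + d23 + d24 + d34) - (d01 - d02 - d03 + d04 - d12 - d13 + d14 + d23 - d24 - d34) := by linear_combination (1/4) * t0 + (1/4) * t1 + (1/4) * t10 + (1/4) * t19 + (1/4) * t20 + (1/10) * hneg + (1/4) * t11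
  linear_combination H + mul_nonneg hφ hv2 + mul_nonneg hcA hv.le

theorem pent_case8 (d01 d02 d03 d04 d12 d13 d14 d23 d24 d34 : ℝ)
    (c01 c02 c03 c04 c12 c13 c14 c23 c24 c34 φ : ℝ) (hφ : 0 ≤ φ) (hcA : 0 ≤ c24)
    (t0 : 0 ≤ -d01 + d02 + d12)
    (t1 : 0 ≤ -d01 + d03 + d13)
    (t2 : 0 ≤ -d01 + d04 + d14)
    (t3 : 0 ≤ d01 - d02 + d12)
    (t4 : 0 ≤ -d02 + d03 + d23)
    (t5 : 0 ≤ -d02 + d04 + d24)
    (t6 : 0 ≤ d01 - d03 + d13)
    (t7 : 0 ≤ d02 - d03 + d23)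
    (t8 : 0 ≤ -d03 + d04 + d34)
    (t9 : 0 ≤ d01 - d04 + d14)
    (t10 : 0 ≤ d02 - d04 + d24)
    (t11 : 0 ≤ d03 - d04 + d34)
    (t12 : 0 ≤ d01 + d02 - d12)
    (t13 : 0 ≤ -d12 + d13 + d23)
    (t14 : 0 ≤ -d12 + d14 + d24)
    (t15 : 0 ≤ d01 + d03 - d13)
    (t16 : 0 ≤ d12 - d13 + d23)
    (t17 : 0 ≤ -d13 + d14 + d34)
    (t18 : 0 ≤ d01 + d04 - d14)
    (t19 : 0 ≤ d12 - d14 + d24)
    (t20 : 0 ≤ d13 - d14 + d34)
    (t21 : 0 ≤ d02 + d03 - d23)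
    (t22 : 0 ≤ d12 + d13 - d23)
    (t23 : 0 ≤ -d23 + d24 + d34)
    (t24 : 0 ≤ d02 + d04 - d24)
    (t25 : 0 ≤ d12 + d14 - d24)
    (t26 : 0 ≤ d23 - d24 + d34)
    (t27 : 0 ≤ d03 + d04 - d34)
    (t28 : 0 ≤ d13 + d14 - d34)
    (t29 : 0 ≤ d23 + d24 - d34)
    (k0 : φ * 4 ≤ c01 + c02 + c03 + c04)
    (k1 : φ * 4 ≤ c01 + c12 + c13 + c14)
    (k2 : φ * 4 ≤ c02 + c12 + c23 + c24)
    (k3 : φ * 4 ≤ c03 + c13 + c23 + c34)
    (k4 : φ * 6 ≤ c02 + c03 + c04 + c12 + c13 + c14)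
    (k5 : φ * 6 ≤ c01 + c03 + c04 + c12 + c23 + c24)
    (k6 : φ * 6 ≤ c01 + c02 + c04 + c13 + c23 + c34)
    (k7 : φ * 6 ≤ c01 + c02 + c13 + c14 + c23 + c24)
    (k8 : φ * 6 ≤ c01 + c03 + c12 + c14 + c23 + c34)
    (k9 : φ * 6 ≤ c02 + c03 + c12 + c13 + c24 + c34)
    (k10 : φ * 6 ≤ c03 + c04 + c13 + c14 + c23 + c24)
    (k11 : φ * 6 ≤ c02 + c04 + c12 + c14 + c23 + c34)
    (k12 : φ * 6 ≤ c01 + c04 + c12 + c13 + c24 + c34)
    (k13 : φ * 6 ≤ c01 + c02 + c03 + c14 + c24 + c34)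
    (k14 : φ * 4 ≤ c04 + c14 + c24 + c34)
    (hneg : 0 ≤ -4 * d01 + 6 * d02 - 4 * d03 + 6 * d04 + 6 * d12 - 4 * d13 + 6 * d14 + 6 * d23 - 9 * d24 + 6 * d34)
    (hv : 0 < d01 - d02 + d03 - d04 - d12 + d13 - d14 - d23 + d24 - d34)
    : (9/10) * φ * (d01 + d02 + d03 + d04 + d12 + d13 + d14 + d23 + d24 + d34) ≤ c01 * d01 + c02 * d02 + c03 * d03 + c04 * d04 + c12 * d12 + c13 * d13 + c14 * d14 + c23 * d23 + c24 * d24 + c34 * d34 := by
  have H := key5 (d01) (d02) (d03) (d04) (d12) (d13) (d14) (d23) (-d01 + d02 - d03 + d04 + d12 - d13 + d14 + d23 + d34) (d34)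
    c01 c02 c03 c04 c12 c13 c14 c23 c24 c34 φ
    (by linear_combination t0)
    (by linear_combination t1)
    (by linear_combination t2)
    (by linear_combination t3)
    (by linear_combination t4)
    (by linear_combination t2 + t16 + t8)
    (by linear_combination t6)
    (by linear_combination t7)
    (by linear_combination t8)
    (by linear_combination t9)
    (by linear_combination t0 + t7 + t17)
    (by linear_combination t11)
    (by linear_combination t12)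
    (by linear_combination t13)
    (by linear_combination t2 + t7 + t17)
    (by linear_combination t15)
    (by linear_combination t16)
    (by linear_combination t17)
    (by linear_combination t18)
    (by linear_combination t0 + t8 + t16)
    (by linear_combination t20)
    (by linear_combination t21)
    (by linear_combination t22)
    (by linear_combination t0 + t8 + t17)
    (by linear_combination t24 + hv.le)
    (by linear_combination t25 + hv.le)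
    (by linear_combination t26 + hv.le)
    (by linear_combination t27)
    (by linear_combination t28)
    (by linear_combination t16 + t7 + t2)
    (by linear_combination t24 + t25 + t2 + t0 + 2 * hv.le)
    (by linear_combination 2 * t16 + t18 + t2)
    (by linear_combination t24 + t7 + t8 + t26 + 2 * hv.le)
    (by linear_combination t12 + 2 * t17 + t0)
    (by linear_combination 2 * t7 + t2 + t9)
    (by linear_combination t26 + t16 + t25 + t17 + 2 * hv.le)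
    (by linear_combination t0 + 2 * t8 + t3)
    (by linear_combination 2 * t0 + t8 + t11)
    (by linarith)
    (by linear_combination 2 * t2 + t4 + t7)
    k0 k1 k2 k3 k4 k5 k6 k7 k8 k9 k10 k11 k12 k13 k14
  have hv2 : 0 ≤ (1/10) * (d01 + d02 + d03 + d04 + d12 + d13 + d14 + d23 + d24 + d34) - (d01 - d02 + d03 - d04 - d12 + d13 - d14 - d23 + d24 - d34) := by linear_combination (1/4) * t0 + (1/4) * t7 + (1/4) * t2 + (1/10) * hneg + (1/4) * t17 + (1/4) * t16 + (1/4) * t8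
  linear_combination H + mul_nonneg hφ hv2 + mul_nonneg hcA hv.le

theorem pent_case9 (d01 d02 d03 d04 d12 d13 d14 d23 d24 d34 : ℝ)
    (c01 c02 c03 c04 c12 c13 c14 c23 c24 c34 φ : ℝ) (hφ : 0 ≤ φ) (hcA : 0 ≤ c34)
    (t0 : 0 ≤ -d01 + d02 + d12)
    (t1 : 0 ≤ -d01 + d03 + d13)
    (t2 : 0 ≤ -d01 + d04 + d14)
    (t3 : 0 ≤ d01 - d02 + d12)
    (t4 : 0 ≤ -d02 + d03 + d23)
    (t5 : 0 ≤ -d02 + d04 + d24)
    (t6 : 0 ≤ d01 - d03 + d13)
    (t7 : 0 ≤ d02 - d03 + d23)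
    (t8 : 0 ≤ -d03 + d04 + d34)
    (t9 : 0 ≤ d01 - d04 + d14)
    (t10 : 0 ≤ d02 - d04 + d24)
    (t11 : 0 ≤ d03 - d04 + d34)
    (t12 : 0 ≤ d01 + d02 - d12)
    (t13 : 0 ≤ -d12 + d13 + d23)
    (t14 : 0 ≤ -d12 + d14 + d24)
    (t15 : 0 ≤ d01 + d03 - d13)
    (t16 : 0 ≤ d12 - d13 + d23)
    (t17 : 0 ≤ -d13 + d14 + d34)
    (t18 : 0 ≤ d01 + d04 - d14)
    (t19 : 0 ≤ d12 - d14 + d24)
    (t20 : 0 ≤ d13 - d14 + d34)
    (t21 : 0 ≤ d02 + d03 - d23)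
    (t22 : 0 ≤ d12 + d13 - d23)
    (t23 : 0 ≤ -d23 + d24 + d34)
    (t24 : 0 ≤ d02 + d04 - d24)
    (t25 : 0 ≤ d12 + d14 - d24)
    (t26 : 0 ≤ d23 - d24 + d34)
    (t27 : 0 ≤ d03 + d04 - d34)
    (t28 : 0 ≤ d13 + d14 - d34)
    (t29 : 0 ≤ d23 + d24 - d34)
    (k0 : φ * 4 ≤ c01 + c02 + c03 + c04)
    (k1 : φ * 4 ≤ c01 + c12 + c13 + c14)
    (k2 : φ * 4 ≤ c02 + c12 + c23 + c24)
    (k3 : φ * 4 ≤ c03 + c13 + c23 + c34)
    (k4 : φ * 6 ≤ c02 + c03 + c04 + c12 + c13 + c14)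
    (k5 : φ * 6 ≤ c01 + c03 + c04 + c12 + c23 + c24)
    (k6 : φ * 6 ≤ c01 + c02 + c04 + c13 + c23 + c34)
    (k7 : φ * 6 ≤ c01 + c02 + c13 + c14 + c23 + c24)
    (k8 : φ * 6 ≤ c01 + c03 + c12 + c14 + c23 + c34)
    (k9 : φ * 6 ≤ c02 + c03 + c12 + c13 + c24 + c34)
    (k10 : φ * 6 ≤ c03 + c04 + c13 + c14 + c23 + c24)
    (k11 : φ * 6 ≤ c02 + c04 + c12 + c14 + c23 + c34)
    (k12 : φ * 6 ≤ c01 + c04 + c12 + c13 + c24 + c34)
    (k13 : φ * 6 ≤ c01 + c02 + c03 + c14 + c24 + c34)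
    (k14 : φ * 4 ≤ c04 + c14 + c24 + c34)
    (hneg : 0 ≤ -4 * d01 - 4 * d02 + 6 * d03 + 6 * d04 - 4 * d12 + 6 * d13 + 6 * d14 + 6 * d23 + 6 * d24 - 9 * d34)
    (hv : 0 < d01 + d02 - d03 - d04 + d12 - d13 - d14 - d23 - d24 + d34)
    : (9/10) * φ * (d01 + d02 + d03 + d04 + d12 + d13 + d14 + d23 + d24 + d34) ≤ c01 * d01 + c02 * d02 + c03 * d03 + c04 * d04 + c12 * d12 + c13 * d13 + c14 * d14 + c23 * d23 + c24 * d24 + c34 * d34 := by
  have H := key5 (d01) (d02) (d03) (d04) (d12) (d13) (d14) (d23) (d24) (-d01 - d02 + d03 + d04 - d12 + d13 + d14 + d23 + d24)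
    c01 c02 c03 c04 c12 c13 c14 c23 c24 c34 φ
    (by linear_combination t0)
    (by linear_combination t1)
    (by linear_combination t2)
    (by linear_combination t3)
    (by linear_combination t4)
    (by linear_combination t5)
    (by linear_combination t6)
    (by linear_combination t7)
    (by linear_combination t2 + t5 + t13)
    (by linear_combination t9)
    (by linear_combination t10)
    (by linear_combination t1 + t4 + t14)
    (by linear_combination t12)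
    (by linear_combination t13)
    (by linear_combination t14)
    (by linear_combination t15)
    (by linear_combination t16)
    (by linear_combination t2 + t4 + t14)
    (by linear_combination t18)
    (by linear_combination t19)
    (by linear_combination t1 + t5 + t13)
    (by linear_combination t21)
    (by linear_combination t22)
    (by linear_combination t1 + t5 + t14)
    (by linear_combination t24)
    (by linear_combination t25)
    (by linear_combination t4 + t2 + t13)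
    (by linear_combination t27 + hv.le)
    (by linear_combination t28 + hv.le)
    (by linear_combination t29 + hv.le)
    (by linear_combination t27 + t28 + t1 + t2 + 2 * hv.le)
    (by linear_combination t27 + t5 + t4 + t29 + 2 * hv.le)
    (by linear_combination 2 * t13 + t18 + t2)
    (by linear_combination t15 + 2 * t14 + t1)
    (by linear_combination t29 + t28 + t13 + t14 + 2 * hv.le)
    (by linear_combination 2 * t4 + t2 + t9)
    (by linear_combination 2 * t5 + t1 + t6)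
    (by linear_combination 2 * t1 + t5 + t10)
    (by linear_combination 2 * t2 + t4 + t7)
    (by linarith)
    k0 k1 k2 k3 k4 k5 k6 k7 k8 k9 k10 k11 k12 k13 k14
  have hv2 : 0 ≤ (1/10) * (d01 + d02 + d03 + d04 + d12 + d13 + d14 + d23 + d24 + d34) - (d01 + d02 - d03 - d04 + d12 - d13 - d14 - d23 - d24 + d34) := by linear_combination (1/4) * t1 + (1/4) * t2 + (1/4) * t4 + (1/4) * t13 + (1/4) * t14 + (1/4) * t5 + (1/10) * hneg
  linear_combination H + mul_nonneg hφ hv2 + mul_nonneg hcA hv.le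

theorem five_bound (d01 d02 d03 d04 d12 d13 d14 d23 d24 d34 : ℝ)
    (c01 c02 c03 c04 c12 c13 c14 c23 c24 c34 φ : ℝ) (hφ : 0 ≤ φ)
    (hc0 : 0 ≤ c01) (hd0 : 0 ≤ d01)
    (hc1 : 0 ≤ c02) (hd1 : 0 ≤ d02)
    (hc2 : 0 ≤ c03) (hd2 : 0 ≤ d03)
    (hc3 : 0 ≤ c04) (hd3 : 0 ≤ d04)
    (hc4 : 0 ≤ c12) (hd4 : 0 ≤ d12)
    (hc5 : 0 ≤ c13) (hd5 : 0 ≤ d13)
    (hc6 : 0 ≤ c14) (hd6 : 0 ≤ d14)
    (hc7 : 0 ≤ c23) (hd7 : 0 ≤ d23)
    (hc8 : 0 ≤ c24) (hd8 : 0 ≤ d24)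
    (hc9 : 0 ≤ c34) (hd9 : 0 ≤ d34)
    (t0 : 0 ≤ -d01 + d02 + d12)
    (t1 : 0 ≤ -d01 + d03 + d13)
    (t2 : 0 ≤ -d01 + d04 + d14)
    (t3 : 0 ≤ d01 - d02 + d12)
    (t4 : 0 ≤ -d02 + d03 + d23)
    (t5 : 0 ≤ -d02 + d04 + d24)
    (t6 : 0 ≤ d01 - d03 + d13)
    (t7 : 0 ≤ d02 - d03 + d23)
    (t8 : 0 ≤ -d03 + d04 + d34)
    (t9 : 0 ≤ d01 - d04 + d14)
    (t10 : 0 ≤ d02 - d04 + d24)
    (t11 : 0 ≤ d03 - d04 + d34)
    (t12 : 0 ≤ d01 + d02 - d12)
    (t13 : 0 ≤ -d12 + d13 + d23)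
    (t14 : 0 ≤ -d12 + d14 + d24)
    (t15 : 0 ≤ d01 + d03 - d13)
    (t16 : 0 ≤ d12 - d13 + d23)
    (t17 : 0 ≤ -d13 + d14 + d34)
    (t18 : 0 ≤ d01 + d04 - d14)
    (t19 : 0 ≤ d12 - d14 + d24)
    (t20 : 0 ≤ d13 - d14 + d34)
    (t21 : 0 ≤ d02 + d03 - d23)
    (t22 : 0 ≤ d12 + d13 - d23)
    (t23 : 0 ≤ -d23 + d24 + d34)
    (t24 : 0 ≤ d02 + d04 - d24)
    (t25 : 0 ≤ d12 + d14 - d24)
    (t26 : 0 ≤ d23 - d24 + d34)
    (t27 : 0 ≤ d03 + d04 - d34)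
    (t28 : 0 ≤ d13 + d14 - d34)
    (t29 : 0 ≤ d23 + d24 - d34)
    (k0 : φ * 4 ≤ c01 + c02 + c03 + c04)
    (k1 : φ * 4 ≤ c01 + c12 + c13 + c14)
    (k2 : φ * 4 ≤ c02 + c12 + c23 + c24)
    (k3 : φ * 4 ≤ c03 + c13 + c23 + c34)
    (k4 : φ * 6 ≤ c02 + c03 + c04 + c12 + c13 + c14)
    (k5 : φ * 6 ≤ c01 + c03 + c04 + c12 + c23 + c24)
    (k6 : φ * 6 ≤ c01 + c02 + c04 + c13 + c23 + c34)
    (k7 : φ * 6 ≤ c01 + c02 + c13 + c14 + c23 + c24)
    (k8 : φ * 6 ≤ c01 + c03 + c12 + c14 + c23 + c34)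
    (k9 : φ * 6 ≤ c02 + c03 + c12 + c13 + c24 + c34)
    (k10 : φ * 6 ≤ c03 + c04 + c13 + c14 + c23 + c24)
    (k11 : φ * 6 ≤ c02 + c04 + c12 + c14 + c23 + c34)
    (k12 : φ * 6 ≤ c01 + c04 + c12 + c13 + c24 + c34)
    (k13 : φ * 6 ≤ c01 + c02 + c03 + c14 + c24 + c34)
    (k14 : φ * 4 ≤ c04 + c14 + c24 + c34)
    (n0 : 0 ≤ -9 * d01 + 6 * d02 + 6 * d03 + 6 * d04 + 6 * d12 + 6 * d13 + 6 * d14 - 4 * d23 - 4 * d24 - 4 * d34)
    (n1 : 0 ≤ 6 * d01 - 9 * d02 + 6 * d03 + 6 * d04 + 6 * d12 - 4 * d13 - 4 * d14 + 6 * d23 + 6 * d24 - 4 * d34)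
    (n2 : 0 ≤ 6 * d01 + 6 * d02 - 9 * d03 + 6 * d04 - 4 * d12 + 6 * d13 - 4 * d14 + 6 * d23 - 4 * d24 + 6 * d34)
    (n3 : 0 ≤ 6 * d01 + 6 * d02 + 6 * d03 - 9 * d04 - 4 * d12 - 4 * d13 + 6 * d14 - 4 * d23 + 6 * d24 + 6 * d34)
    (n4 : 0 ≤ 6 * d01 + 6 * d02 - 4 * d03 - 4 * d04 - 9 * d12 + 6 * d13 + 6 * d14 + 6 * d23 + 6 * d24 - 4 * d34)
    (n5 : 0 ≤ 6 * d01 - 4 * d02 + 6 * d03 - 4 * d04 + 6 * d12 - 9 * d13 + 6 * d14 + 6 * d23 - 4 * d24 + 6 * d34)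
    (n6 : 0 ≤ 6 * d01 - 4 * d02 - 4 * d03 + 6 * d04 + 6 * d12 + 6 * d13 - 9 * d14 - 4 * d23 + 6 * d24 + 6 * d34)
    (n7 : 0 ≤ -4 * d01 + 6 * d02 + 6 * d03 - 4 * d04 + 6 * d12 + 6 * d13 - 4 * d14 - 9 * d23 + 6 * d24 + 6 * d34)
    (n8 : 0 ≤ -4 * d01 + 6 * d02 - 4 * d03 + 6 * d04 + 6 * d12 - 4 * d13 + 6 * d14 + 6 * d23 - 9 * d24 + 6 * d34)
    (n9 : 0 ≤ -4 * d01 - 4 * d02 + 6 * d03 + 6 * d04 - 4 * d12 + 6 * d13 + 6 * d14 + 6 * d23 + 6 * d24 - 9 * d34)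
    : (9/10) * φ * (d01 + d02 + d03 + d04 + d12 + d13 + d14 + d23 + d24 + d34) ≤ c01 * d01 + c02 * d02 + c03 * d03 + c04 * d04 + c12 * d12 + c13 * d13 + c14 * d14 + c23 * d23 + c24 * d24 + c34 * d34 := by
  rcases lt_or_ge (-d01 + d02 + d03 + d04 + d12 + d13 + d14 - d23 - d24 - d34) 0 with v0 | v0
  · exact pent_case0 d01 d02 d03 d04 d12 d13 d14 d23 d24 d34 c01 c02 c03 c04 c12 c13 c14 c23 c24 c34 φ hφ hc0 t0 t1 t2 t3 t4 t5 t6 t7 t8 t9 t10 t11 t12 t13 t14 t15 t16 t17 t18 t19 t20 t21 t22 t23 t24 t25 t26 t27 t28 t29 k0 k1 k2 k3 k4 k5 k6 k7 k8 k9 k10 k11 k12 k13 k14 n0 (by linarith)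
  rcases lt_or_ge (d01 - d02 + d03 + d04 + d12 - d13 - d14 + d23 + d24 - d34) 0 with v1 | v1
  · exact pent_case1 d01 d02 d03 d04 d12 d13 d14 d23 d24 d34 c01 c02 c03 c04 c12 c13 c14 c23 c24 c34 φ hφ hc1 t0 t1 t2 t3 t4 t5 t6 t7 t8 t9 t10 t11 t12 t13 t14 t15 t16 t17 t18 t19 t20 t21 t22 t23 t24 t25 t26 t27 t28 t29 k0 k1 k2 k3 k4 k5 k6 k7 k8 k9 k10 k11 k12 k13 k14 n1 (by linarith)
  rcases lt_or_ge (d01 + d02 - d03 + d04 - d12 + d13 - d14 + d23 - d24 + d34) 0 with v2 | v2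
  · exact pent_case2 d01 d02 d03 d04 d12 d13 d14 d23 d24 d34 c01 c02 c03 c04 c12 c13 c14 c23 c24 c34 φ hφ hc2 t0 t1 t2 t3 t4 t5 t6 t7 t8 t9 t10 t11 t12 t13 t14 t15 t16 t17 t18 t19 t20 t21 t22 t23 t24 t25 t26 t27 t28 t29 k0 k1 k2 k3 k4 k5 k6 k7 k8 k9 k10 k11 k12 k13 k14 n2 (by linarith)
  rcases lt_or_ge (d01 + d02 + d03 - d04 - d12 - d13 + d14 - d23 + d24 + d34) 0 with v3 | v3
  · exact pent_case3 d01 d02 d03 d04 d12 d13 d14 d23 d24 d34 c01 c02 c03 c04 c12 c13 c14 c23 c24 c34 φ hφ hc3 t0 t1 t2 t3 t4 t5 t6 t7 t8 t9 t10 t11 t12 t13 t14 t15 t16 t17 t18 t19 t20 t21 t22 t23 t24 t25 t26 t27 t28 t29 k0 k1 k2 k3 k4 k5 k6 k7 k8 k9 k10 k11 k12 k13 k14 n3 (by linarith)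
  rcases lt_or_ge (d01 + d02 - d03 - d04 - d12 + d13 + d14 + d23 + d24 - d34) 0 with v4 | v4
  · exact pent_case4 d01 d02 d03 d04 d12 d13 d14 d23 d24 d34 c01 c02 c03 c04 c12 c13 c14 c23 c24 c34 φ hφ hc4 t0 t1 t2 t3 t4 t5 t6 t7 t8 t9 t10 t11 t12 t13 t14 t15 t16 t17 t18 t19 t20 t21 t22 t23 t24 t25 t26 t27 t28 t29 k0 k1 k2 k3 k4 k5 k6 k7 k8 k9 k10 k11 k12 k13 k14 n4 (by linarith)
  rcases lt_or_ge (d01 - d02 + d03 - d04 + d12 - d13 + d14 + d23 - d24 + d34) 0 with v5 | v5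
  · exact pent_case5 d01 d02 d03 d04 d12 d13 d14 d23 d24 d34 c01 c02 c03 c04 c12 c13 c14 c23 c24 c34 φ hφ hc5 t0 t1 t2 t3 t4 t5 t6 t7 t8 t9 t10 t11 t12 t13 t14 t15 t16 t17 t18 t19 t20 t21 t22 t23 t24 t25 t26 t27 t28 t29 k0 k1 k2 k3 k4 k5 k6 k7 k8 k9 k10 k11 k12 k13 k14 n5 (by linarith)
  rcases lt_or_ge (d01 - d02 - d03 + d04 + d12 + d13 - d14 - d23 + d24 + d34) 0 with v6 | v6
  · exact pent_case6 d01 d02 d03 d04 d12 d13 d14 d23 d24 d34 c01 c02 c03 c04 c12 c13 c14 c23 c24 c34 φ hφ hc6 t0 t1 t2 t3 t4 t5 t6 t7 t8 t9 t10 t11 t12 t13 t14 t15 t16 t17 t18 t19 t20 t21 t22 t23 t24 t25 t26 t27 t28 t29 k0 k1 k2 k3 k4 k5 k6 k7 k8 k9 k10 k11 k12 k13 k14 n6 (by linarith)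
  rcases lt_or_ge (-d01 + d02 + d03 - d04 + d12 + d13 - d14 - d23 + d24 + d34) 0 with v7 | v7
  · exact pent_case7 d01 d02 d03 d04 d12 d13 d14 d23 d24 d34 c01 c02 c03 c04 c12 c13 c14 c23 c24 c34 φ hφ hc7 t0 t1 t2 t3 t4 t5 t6 t7 t8 t9 t10 t11 t12 t13 t14 t15 t16 t17 t18 t19 t20 t21 t22 t23 t24 t25 t26 t27 t28 t29 k0 k1 k2 k3 k4 k5 k6 k7 k8 k9 k10 k11 k12 k13 k14 n7 (by linarith)
  rcases lt_or_ge (-d01 + d02 - d03 + d04 + d12 - d13 + d14 + d23 - d24 + d34) 0 with v8 | v8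
  · exact pent_case8 d01 d02 d03 d04 d12 d13 d14 d23 d24 d34 c01 c02 c03 c04 c12 c13 c14 c23 c24 c34 φ hφ hc8 t0 t1 t2 t3 t4 t5 t6 t7 t8 t9 t10 t11 t12 t13 t14 t15 t16 t17 t18 t19 t20 t21 t22 t23 t24 t25 t26 t27 t28 t29 k0 k1 k2 k3 k4 k5 k6 k7 k8 k9 k10 k11 k12 k13 k14 n8 (by linarith)
  rcases lt_or_ge (-d01 - d02 + d03 + d04 - d12 + d13 + d14 + d23 + d24 - d34) 0 with v9 | v9
  · exact pent_case9 d01 d02 d03 d04 d12 d13 d14 d23 d24 d34 c01 c02 c03 c04 c12 c13 c14 c23 c24 c34 φ hφ hc9 t0 t1 t2 t3 t4 t5 t6 t7 t8 t9 t10 t11 t12 t13 t14 t15 t16 t17 t18 t19 t20 t21 t22 t23 t24 t25 t26 t27 t28 t29 k0 k1 k2 k3 k4 k5 k6 k7 k8 k9 k10 k11 k12 k13 k14 n9 (by linarith)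
  have H := key5 d01 d02 d03 d04 d12 d13 d14 d23 d24 d34 c01 c02 c03 c04 c12 c13 c14 c23 c24 c34 φ t0 t1 t2 t3 t4 t5 t6 t7 t8 t9 t10 t11 t12 t13 t14 t15 t16 t17 t18 t19 t20 t21 t22 t23 t24 t25 t26 t27 t28 t29 v0 v1 v2 v3 v4 v5 v6 v7 v8 v9 k0 k1 k2 k3 k4 k5 k6 k7 k8 k9 k10 k11 k12 k13 k14
  have hs : 0 ≤ φ * (d01 + d02 + d03 + d04 + d12 + d13 + d14 + d23 + d24 + d34) := mul_nonneg hφ (by linarith)
  linarith

end Vale.Agent.Lib.P318
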