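import Mathlib
import Vale.Agent.Lib.P318.Defs
import Vale.Agent.Lib.P318.Basic
import Vale.Agent.Lib.P318.FiveCore

namespace Vale.Agent.Lib.P318

theorem cut_hyp0 (c : Fin 5 → Fin 5 → ℝ) (hc : IsCapacity c) :
    sparsity c * 4 ≤ c 0 1 + c 0 2 + c 0 3 + c 0 4 := by
  have k := sparsity_mul_le hc ({0} : Finset (Fin 5)) (by decide) (by decide)
  rw [cutCap_eq_ite] at k
  simp [Fin.sum_univ_five] at k
  norm_num at k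
  linarith [k, hc.1 1 0, hc.1 2 0, hc.1 3 0, hc.1 4 0, hc.1 2 1, hc.1 3 1, hc.1 4 1, hc.1 3 2, hc.1 4 2, hc.1 4 3]

theorem cut_hyp1 (c : Fin 5 → Fin 5 → ℝ) (hc : IsCapacity c) :
    sparsity c * 4 ≤ c 0 1 + c 1 2 + c 1 3 + c 1 4 := by
  have k := sparsity_mul_le hc ({1} : Finset (Fin 5)) (by decide) (by decide)
  rw [cutCap_eq_ite] at k
  simp [Fin.sum_univ_five] at k
  norm_num at k
  linarith [k, hc.1 1 0, hc.1 2 0, hc.1 3 0, hc.1 4 0, hc.1 2 1, hc.1 3 1, hc.1 4 1, hc.1 3 2, hc.1 4 2, hc.1 4 3]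

theorem cut_hyp2 (c : Fin 5 → Fin 5 → ℝ) (hc : IsCapacity c) :
    sparsity c * 4 ≤ c 0 2 + c 1 2 + c 2 3 + c 2 4 := by
  have k := sparsity_mul_le hc ({2} : Finset (Fin 5)) (by decide) (by decide)
  rw [cutCap_eq_ite] at k
  simp [Fin.sum_univ_five] at k
  norm_num at k
  linarith [k, hc.1 1 0, hc.1 2 0, hc.1 3 0, hc.1 4 0, hc.1 2 1, hc.1 3 1, hc.1 4 1, hc.1 3 2, hc.1 4 2, hc.1 4 3]

theorem cut_hyp3 (c : Fin 5 → Fin 5 → ℝ) (hc : IsCapacity c) :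
    sparsity c * 4 ≤ c 0 3 + c 1 3 + c 2 3 + c 3 4 := by
  have k := sparsity_mul_le hc ({3} : Finset (Fin 5)) (by decide) (by decide)
  rw [cutCap_eq_ite] at k
  simp [Fin.sum_univ_five] at k
  norm_num at k
  linarith [k, hc.1 1 0, hc.1 2 0, hc.1 3 0, hc.1 4 0, hc.1 2 1, hc.1 3 1, hc.1 4 1, hc.1 3 2, hc.1 4 2, hc.1 4 3]

theorem cut_hyp4 (c : Fin 5 → Fin 5 → ℝ) (hc : IsCapacity c) :
    sparsity c * 6 ≤ c 0 2 + c 0 3 + c 0 4 + c 1 2 + c 1 3 + c 1 4 := by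
  have k := sparsity_mul_le hc ({0, 1} : Finset (Fin 5)) (by decide) (by decide)
  rw [cutCap_eq_ite] at k
  simp [Fin.sum_univ_five] at k
  norm_num at k
  linarith [k, hc.1 1 0, hc.1 2 0, hc.1 3 0, hc.1 4 0, hc.1 2 1, hc.1 3 1, hc.1 4 1, hc.1 3 2, hc.1 4 2, hc.1 4 3]

theorem cut_hyp5 (c : Fin 5 → Fin 5 → ℝ) (hc : IsCapacity c) :
    sparsity c * 6 ≤ c 0 1 + c 0 3 + c 0 4 + c 1 2 + c 2 3 + c 2 4 := by
  have k := sparsity_mul_le hc ({0, 2} : Finset (Fin 5)) (by decide) (by decide)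
  rw [cutCap_eq_ite] at k
  simp [Fin.sum_univ_five] at k
  norm_num at k
  linarith [k, hc.1 1 0, hc.1 2 0, hc.1 3 0, hc.1 4 0, hc.1 2 1, hc.1 3 1, hc.1 4 1, hc.1 3 2, hc.1 4 2, hc.1 4 3]

theorem cut_hyp6 (c : Fin 5 → Fin 5 → ℝ) (hc : IsCapacity c) :
    sparsity c * 6 ≤ c 0 1 + c 0 2 + c 0 4 + c 1 3 + c 2 3 + c 3 4 := by
  have k := sparsity_mul_le hc ({0, 3} : Finset (Fin 5)) (by decide) (by decide)
  rw [cutCap_eq_ite] at k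
  simp [Fin.sum_univ_five] at k
  norm_num at k
  linarith [k, hc.1 1 0, hc.1 2 0, hc.1 3 0, hc.1 4 0, hc.1 2 1, hc.1 3 1, hc.1 4 1, hc.1 3 2, hc.1 4 2, hc.1 4 3]

theorem cut_hyp7 (c : Fin 5 → Fin 5 → ℝ) (hc : IsCapacity c) :
    sparsity c * 6 ≤ c 0 1 + c 0 2 + c 1 3 + c 1 4 + c 2 3 + c 2 4 := by
  have k := sparsity_mul_le hc ({1, 2} : Finset (Fin 5)) (by decide) (by decide)
  rw [cutCap_eq_ite] at k
  simp [Fin.sum_univ_five] at k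
  norm_num at k
  linarith [k, hc.1 1 0, hc.1 2 0, hc.1 3 0, hc.1 4 0, hc.1 2 1, hc.1 3 1, hc.1 4 1, hc.1 3 2, hc.1 4 2, hc.1 4 3]

theorem cut_hyp8 (c : Fin 5 → Fin 5 → ℝ) (hc : IsCapacity c) :
    sparsity c * 6 ≤ c 0 1 + c 0 3 + c 1 2 + c 1 4 + c 2 3 + c 3 4 := by
  have k := sparsity_mul_le hc ({1, 3} : Finset (Fin 5)) (by decide) (by decide)
  rw [cutCap_eq_ite] at k
  simp [Fin.sum_univ_five] at k
  norm_num at k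
  linarith [k, hc.1 1 0, hc.1 2 0, hc.1 3 0, hc.1 4 0, hc.1 2 1, hc.1 3 1, hc.1 4 1, hc.1 3 2, hc.1 4 2, hc.1 4 3]

theorem cut_hyp9 (c : Fin 5 → Fin 5 → ℝ) (hc : IsCapacity c) :
    sparsity c * 6 ≤ c 0 2 + c 0 3 + c 1 2 + c 1 3 + c 2 4 + c 3 4 := by
  have k := sparsity_mul_le hc ({2, 3} : Finset (Fin 5)) (by decide) (by decide)
  rw [cutCap_eq_ite] at k
  simp [Fin.sum_univ_five] at k
  norm_num at k
  linarith [k, hc.1 1 0, hc.1 2 0, hc.1 3 0, hc.1 4 0, hc.1 2 1, hc.1 3 1, hc.1 4 1, hc.1 3 2, hc.1 4 2, hc.1 4 3]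

theorem cut_hyp10 (c : Fin 5 → Fin 5 → ℝ) (hc : IsCapacity c) :
    sparsity c * 6 ≤ c 0 3 + c 0 4 + c 1 3 + c 1 4 + c 2 3 + c 2 4 := by
  have k := sparsity_mul_le hc ({0, 1, 2} : Finset (Fin 5)) (by decide) (by decide)
  rw [cutCap_eq_ite] at k
  simp [Fin.sum_univ_five] at k
  norm_num at k
  linarith [k, hc.1 1 0, hc.1 2 0, hc.1 3 0, hc.1 4 0, hc.1 2 1, hc.1 3 1, hc.1 4 1, hc.1 3 2, hc.1 4 2, hc.1 4 3]

theorem cut_hyp11 (c : Fin 5 → Fin 5 → ℝ) (hc : IsCapacity c) :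
    sparsity c * 6 ≤ c 0 2 + c 0 4 + c 1 2 + c 1 4 + c 2 3 + c 3 4 := by
  have k := sparsity_mul_le hc ({0, 1, 3} : Finset (Fin 5)) (by decide) (by decide)
  rw [cutCap_eq_ite] at k
  simp [Fin.sum_univ_five] at k
  norm_num at k
  linarith [k, hc.1 1 0, hc.1 2 0, hc.1 3 0, hc.1 4 0, hc.1 2 1, hc.1 3 1, hc.1 4 1, hc.1 3 2, hc.1 4 2, hc.1 4 3]

theorem cut_hyp12 (c : Fin 5 → Fin 5 → ℝ) (hc : IsCapacity c) :
    sparsity c * 6 ≤ c 0 1 + c 0 4 + c 1 2 + c 1 3 + c 2 4 + c 3 4 := by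
  have k := sparsity_mul_le hc ({0, 2, 3} : Finset (Fin 5)) (by decide) (by decide)
  rw [cutCap_eq_ite] at k
  simp [Fin.sum_univ_five] at k
  norm_num at k
  linarith [k, hc.1 1 0, hc.1 2 0, hc.1 3 0, hc.1 4 0, hc.1 2 1, hc.1 3 1, hc.1 4 1, hc.1 3 2, hc.1 4 2, hc.1 4 3]

theorem cut_hyp13 (c : Fin 5 → Fin 5 → ℝ) (hc : IsCapacity c) :
    sparsity c * 6 ≤ c 0 1 + c 0 2 + c 0 3 + c 1 4 + c 2 4 + c 3 4 := by
  have k := sparsity_mul_le hc ({1, 2, 3} : Finset (Fin 5)) (by decide) (by decide)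
  rw [cutCap_eq_ite] at k
  simp [Fin.sum_univ_five] at k
  norm_num at k
  linarith [k, hc.1 1 0, hc.1 2 0, hc.1 3 0, hc.1 4 0, hc.1 2 1, hc.1 3 1, hc.1 4 1, hc.1 3 2, hc.1 4 2, hc.1 4 3]

theorem cut_hyp14 (c : Fin 5 → Fin 5 → ℝ) (hc : IsCapacity c) :
    sparsity c * 4 ≤ c 0 4 + c 1 4 + c 2 4 + c 3 4 := by
  have k := sparsity_mul_le hc ({0, 1, 2, 3} : Finset (Fin 5)) (by decide) (by decide)
  rw [cutCap_eq_ite] at k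
  simp [Fin.sum_univ_five] at k
  norm_num at k
  linarith [k, hc.1 1 0, hc.1 2 0, hc.1 3 0, hc.1 4 0, hc.1 2 1, hc.1 3 1, hc.1 4 1, hc.1 3 2, hc.1 4 2, hc.1 4 3]

theorem neg_hyp0 (d : Fin 5 → Fin 5 → ℝ) (hd : IsNegTypeSemimetric d) :
    0 ≤ -9 * d 0 1 + 6 * d 0 2 + 6 * d 0 3 + 6 * d 0 4 + 6 * d 1 2 + 6 * d 1 3 + 6 * d 1 4 - 4 * d 2 3 - 4 * d 2 4 - 4 * d 3 4 := by
  have n := hd.neg_ineq ![3, 3, -2, -2, -2] (by simp [Fin.sum_univ_five]; norm_num)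
  simp [Fin.sum_univ_five] at n
  linarith [n, hd.symm 1 0, hd.symm 2 0, hd.symm 3 0, hd.symm 4 0, hd.symm 2 1, hd.symm 3 1, hd.symm 4 1, hd.symm 3 2, hd.symm 4 2, hd.symm 4 3, hd.self 0, hd.self 1, hd.self 2, hd.self 3, hd.self 4]

theorem neg_hyp1 (d : Fin 5 → Fin 5 → ℝ) (hd : IsNegTypeSemimetric d) :
    0 ≤ 6 * d 0 1 - 9 * d 0 2 + 6 * d 0 3 + 6 * d 0 4 + 6 * d 1 2 - 4 * d 1 3 - 4 * d 1 4 + 6 * d 2 3 + 6 * d 2 4 - 4 * d 3 4 := by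
  have n := hd.neg_ineq ![3, -2, 3, -2, -2] (by simp [Fin.sum_univ_five]; norm_num)
  simp [Fin.sum_univ_five] at n
  linarith [n, hd.symm 1 0, hd.symm 2 0, hd.symm 3 0, hd.symm 4 0, hd.symm 2 1, hd.symm 3 1, hd.symm 4 1, hd.symm 3 2, hd.symm 4 2, hd.symm 4 3, hd.self 0, hd.self 1, hd.self 2, hd.self 3, hd.self 4]

theorem neg_hyp2 (d : Fin 5 → Fin 5 → ℝ) (hd : IsNegTypeSemimetric d) :
    0 ≤ 6 * d 0 1 + 6 * d 0 2 - 9 * d 0 3 + 6 * d 0 4 - 4 * d 1 2 + 6 * d 1 3 - 4 * d 1 4 + 6 * d 2 3 - 4 * d 2 4 + 6 * d 3 4 := by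
  have n := hd.neg_ineq ![3, -2, -2, 3, -2] (by simp [Fin.sum_univ_five]; norm_num)
  simp [Fin.sum_univ_five] at n
  linarith [n, hd.symm 1 0, hd.symm 2 0, hd.symm 3 0, hd.symm 4 0, hd.symm 2 1, hd.symm 3 1, hd.symm 4 1, hd.symm 3 2, hd.symm 4 2, hd.symm 4 3, hd.self 0, hd.self 1, hd.self 2, hd.self 3, hd.self 4]

theorem neg_hyp3 (d : Fin 5 → Fin 5 → ℝ) (hd : IsNegTypeSemimetric d) :
    0 ≤ 6 * d 0 1 + 6 * d 0 2 + 6 * d 0 3 - 9 * d 0 4 - 4 * d 1 2 - 4 * d 1 3 + 6 * d 1 4 - 4 * d 2 3 + 6 * d 2 4 + 6 * d 3 4 := by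
  have n := hd.neg_ineq ![3, -2, -2, -2, 3] (by simp [Fin.sum_univ_five]; norm_num)
  simp [Fin.sum_univ_five] at n
  linarith [n, hd.symm 1 0, hd.symm 2 0, hd.symm 3 0, hd.symm 4 0, hd.symm 2 1, hd.symm 3 1, hd.symm 4 1, hd.symm 3 2, hd.symm 4 2, hd.symm 4 3, hd.self 0, hd.self 1, hd.self 2, hd.self 3, hd.self 4]

theorem neg_hyp4 (d : Fin 5 → Fin 5 → ℝ) (hd : IsNegTypeSemimetric d) :
    0 ≤ 6 * d 0 1 + 6 * d 0 2 - 4 * d 0 3 - 4 * d 0 4 - 9 * d 1 2 + 6 * d 1 3 + 6 * d 1 4 + 6 * d 2 3 + 6 * d 2 4 - 4 * d 3 4 := by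
  have n := hd.neg_ineq ![-2, 3, 3, -2, -2] (by simp [Fin.sum_univ_five]; norm_num)
  simp [Fin.sum_univ_five] at n
  linarith [n, hd.symm 1 0, hd.symm 2 0, hd.symm 3 0, hd.symm 4 0, hd.symm 2 1, hd.symm 3 1, hd.symm 4 1, hd.symm 3 2, hd.symm 4 2, hd.symm 4 3, hd.self 0, hd.self 1, hd.self 2, hd.self 3, hd.self 4]

theorem neg_hyp5 (d : Fin 5 → Fin 5 → ℝ) (hd : IsNegTypeSemimetric d) :
    0 ≤ 6 * d 0 1 - 4 * d 0 2 + 6 * d 0 3 - 4 * d 0 4 + 6 * d 1 2 - 9 * d 1 3 + 6 * d 1 4 + 6 * d 2 3 - 4 * d 2 4 + 6 * d 3 4 := by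
  have n := hd.neg_ineq ![-2, 3, -2, 3, -2] (by simp [Fin.sum_univ_five]; norm_num)
  simp [Fin.sum_univ_five] at n
  linarith [n, hd.symm 1 0, hd.symm 2 0, hd.symm 3 0, hd.symm 4 0, hd.symm 2 1, hd.symm 3 1, hd.symm 4 1, hd.symm 3 2, hd.symm 4 2, hd.symm 4 3, hd.self 0, hd.self 1, hd.self 2, hd.self 3, hd.self 4]

theorem neg_hyp6 (d : Fin 5 → Fin 5 → ℝ) (hd : IsNegTypeSemimetric d) :
    0 ≤ 6 * d 0 1 - 4 * d 0 2 - 4 * d 0 3 + 6 * d 0 4 + 6 * d 1 2 + 6 * d 1 3 - 9 * d 1 4 - 4 * d 2 3 + 6 * d 2 4 + 6 * d 3 4 := by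
  have n := hd.neg_ineq ![-2, 3, -2, -2, 3] (by simp [Fin.sum_univ_five]; norm_num)
  simp [Fin.sum_univ_five] at n
  linarith [n, hd.symm 1 0, hd.symm 2 0, hd.symm 3 0, hd.symm 4 0, hd.symm 2 1, hd.symm 3 1, hd.symm 4 1, hd.symm 3 2, hd.symm 4 2, hd.symm 4 3, hd.self 0, hd.self 1, hd.self 2, hd.self 3, hd.self 4]

theorem neg_hyp7 (d : Fin 5 → Fin 5 → ℝ) (hd : IsNegTypeSemimetric d) :
    0 ≤ -4 * d 0 1 + 6 * d 0 2 + 6 * d 0 3 - 4 * d 0 4 + 6 * d 1 2 + 6 * d 1 3 - 4 * d 1 4 - 9 * d 2 3 + 6 * d 2 4 + 6 * d 3 4 := by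
  have n := hd.neg_ineq ![-2, -2, 3, 3, -2] (by simp [Fin.sum_univ_five]; norm_num)
  simp [Fin.sum_univ_five] at n
  linarith [n, hd.symm 1 0, hd.symm 2 0, hd.symm 3 0, hd.symm 4 0, hd.symm 2 1, hd.symm 3 1, hd.symm 4 1, hd.symm 3 2, hd.symm 4 2, hd.symm 4 3, hd.self 0, hd.self 1, hd.self 2, hd.self 3, hd.self 4]

theorem neg_hyp8 (d : Fin 5 → Fin 5 → ℝ) (hd : IsNegTypeSemimetric d) :
    0 ≤ -4 * d 0 1 + 6 * d 0 2 - 4 * d 0 3 + 6 * d 0 4 + 6 * d 1 2 - 4 * d 1 3 + 6 * d 1 4 + 6 * d 2 3 - 9 * d 2 4 + 6 * d 3 4 := by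
  have n := hd.neg_ineq ![-2, -2, 3, -2, 3] (by simp [Fin.sum_univ_five]; norm_num)
  simp [Fin.sum_univ_five] at n
  linarith [n, hd.symm 1 0, hd.symm 2 0, hd.symm 3 0, hd.symm 4 0, hd.symm 2 1, hd.symm 3 1, hd.symm 4 1, hd.symm 3 2, hd.symm 4 2, hd.symm 4 3, hd.self 0, hd.self 1, hd.self 2, hd.self 3, hd.self 4]

theorem neg_hyp9 (d : Fin 5 → Fin 5 → ℝ) (hd : IsNegTypeSemimetric d) :
    0 ≤ -4 * d 0 1 - 4 * d 0 2 + 6 * d 0 3 + 6 * d 0 4 - 4 * d 1 2 + 6 * d 1 3 + 6 * d 1 4 + 6 * d 2 3 + 6 * d 2 4 - 9 * d 3 4 := by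
  have n := hd.neg_ineq ![-2, -2, -2, 3, 3] (by simp [Fin.sum_univ_five]; norm_num)
  simp [Fin.sum_univ_five] at n
  linarith [n, hd.symm 1 0, hd.symm 2 0, hd.symm 3 0, hd.symm 4 0, hd.symm 2 1, hd.symm 3 1, hd.symm 4 1, hd.symm 3 2, hd.symm 4 2, hd.symm 4 3, hd.self 0, hd.self 1, hd.self 2, hd.self 3, hd.self 4]

theorem five_pair_bound (c : Fin 5 → Fin 5 → ℝ) (hc : IsCapacity c) (d : Fin 5 → Fin 5 → ℝ)
    (hd : IsNegTypeSemimetric d) :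
    (9/10) * sparsity c * pairSum d ≤ pairSum (fun i j => c i j * d i j) := by
  rw [pairSum_five, pairSum_five]
  have hφ : 0 ≤ sparsity c := sparsity_nonneg hc
  exact five_bound (d 0 1) (d 0 2) (d 0 3) (d 0 4) (d 1 2) (d 1 3) (d 1 4) (d 2 3) (d 2 4) (d 3 4)
    (c 0 1) (c 0 2) (c 0 3) (c 0 4) (c 1 2) (c 1 3) (c 1 4) (c 2 3) (c 2 4) (c 3 4) (sparsity c) hφ
    (hc.2.1 0 1) (hd.nonneg 0 1)
    (hc.2.1 0 2) (hd.nonneg 0 2)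
    (hc.2.1 0 3) (hd.nonneg 0 3)
    (hc.2.1 0 4) (hd.nonneg 0 4)
    (hc.2.1 1 2) (hd.nonneg 1 2)
    (hc.2.1 1 3) (hd.nonneg 1 3)
    (hc.2.1 1 4) (hd.nonneg 1 4)
    (hc.2.1 2 3) (hd.nonneg 2 3)
    (hc.2.1 2 4) (hd.nonneg 2 4)
    (hc.2.1 3 4) (hd.nonneg 3 4)
    (by linarith [hd.2 0 2 1, hd.symm 2 1])
    (by linarith [hd.2 0 3 1, hd.symm 3 1])
    (by linarith [hd.2 0 4 1, hd.symm 4 1])
    (by linarith [hd.2 0 1 2])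
    (by linarith [hd.2 0 3 2, hd.symm 3 2])
    (by linarith [hd.2 0 4 2, hd.symm 4 2])
    (by linarith [hd.2 0 1 3])
    (by linarith [hd.2 0 2 3])
    (by linarith [hd.2 0 4 3, hd.symm 4 3])
    (by linarith [hd.2 0 1 4])
    (by linarith [hd.2 0 2 4])
    (by linarith [hd.2 0 3 4])
    (by linarith [hd.2 1 0 2, hd.symm 1 0])
    (by linarith [hd.2 1 3 2, hd.symm 3 2])
    (by linarith [hd.2 1 4 2, hd.symm 4 2])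
    (by linarith [hd.2 1 0 3, hd.symm 1 0])
    (by linarith [hd.2 1 2 3])
    (by linarith [hd.2 1 4 3, hd.symm 4 3])
    (by linarith [hd.2 1 0 4, hd.symm 1 0])
    (by linarith [hd.2 1 2 4])
    (by linarith [hd.2 1 3 4])
    (by linarith [hd.2 2 0 3, hd.symm 2 0])
    (by linarith [hd.2 2 1 3, hd.symm 2 1])
    (by linarith [hd.2 2 4 3, hd.symm 4 3])
    (by linarith [hd.2 2 0 4, hd.symm 2 0])
    (by linarith [hd.2 2 1 4, hd.symm 2 1])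
    (by linarith [hd.2 2 3 4])
    (by linarith [hd.2 3 0 4, hd.symm 3 0])
    (by linarith [hd.2 3 1 4, hd.symm 3 1])
    (by linarith [hd.2 3 2 4, hd.symm 3 2])
    (cut_hyp0 c hc)
    (cut_hyp1 c hc)
    (cut_hyp2 c hc)
    (cut_hyp3 c hc)
    (cut_hyp4 c hc)
    (cut_hyp5 c hc)
    (cut_hyp6 c hc)
    (cut_hyp7 c hc)
    (cut_hyp8 c hc)
    (cut_hyp9 c hc)
    (cut_hyp10 c hc)
    (cut_hyp11 c hc)
    (cut_hyp12 c hc)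
    (cut_hyp13 c hc)
    (cut_hyp14 c hc)
    (neg_hyp0 d hd)
    (neg_hyp1 d hd)
    (neg_hyp2 d hd)
    (neg_hyp3 d hd)
    (neg_hyp4 d hd)
    (neg_hyp5 d hd)
    (neg_hyp6 d hd)
    (neg_hyp7 d hd)
    (neg_hyp8 d hd)
    (neg_hyp9 d hd)

end Vale.Agent.Lib.P318
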