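import Mathlib
import Vale.Agent.Lib.P318.Defs
import Vale.Agent.Lib.P318.Basic

namespace Vale.Agent.Lib.P318

open Finset

/-- For symmetric `f` vanishing on the diagonal, the full double sum is twice the pair sum. -/
theorem sum_sum_eq_two_pairSum {n : ℕ} (f : Fin n → Fin n → ℝ) (hs : ∀ i j, f i j = f j i)
    (h0 : ∀ i, f i i = 0) : ∑ i, ∑ j, f i j = 2 * pairSum f := by
  have key : ∀ i j, f i j = (if i < j then f i j else 0) + (if j < i then f j i else 0) := by
    intro i j
    rcases lt_trichotomy i j with h | h | h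
    · simp [h, not_lt_of_gt h]
    · subst h; simp [h0]
    · simp [h, not_lt_of_gt h, hs i j]
  have e1 : ∑ i, ∑ j, f i j
      = ∑ i, ∑ j, (if i < j then f i j else 0) + ∑ i, ∑ j, (if j < i then f j i else 0) := by
    rw [← Finset.sum_add_distrib]
    refine Finset.sum_congr rfl fun i _ => ?_
    rw [← Finset.sum_add_distrib]
    exact Finset.sum_congr rfl fun j _ => key i j
  have e2 : ∑ i, ∑ j, (if j < i then f j i else 0) = ∑ i, ∑ j, (if i < j then f i j else 0) := by
    rw [Finset.sum_comm]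
  rw [e1, e2]
  unfold pairSum
  ring

theorem pairSum_eq_half {n : ℕ} (f : Fin n → Fin n → ℝ) (hs : ∀ i j, f i j = f j i)
    (h0 : ∀ i, f i i = 0) : pairSum f = (1 / 2) * ∑ i, ∑ j, f i j := by
  rw [sum_sum_eq_two_pairSum f hs h0]; ring

theorem pairSum_nonneg {n : ℕ} (f : Fin n → Fin n → ℝ) (h : ∀ i j, 0 ≤ f i j) : 0 ≤ pairSum f := by
  unfold pairSum
  refine Finset.sum_nonneg fun i _ => Finset.sum_nonneg fun j _ => ?_
  split_ifs
  · exact h i j
  · exact le_refl 0

theorem pairSum_smul {n : ℕ} (f : Fin n → Fin n → ℝ) (t : ℝ) :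
    pairSum (fun i j => t * f i j) = t * pairSum f := by
  unfold pairSum
  rw [Finset.mul_sum]
  refine Finset.sum_congr rfl fun i _ => ?_
  rw [Finset.mul_sum]
  refine Finset.sum_congr rfl fun j _ => ?_
  split_ifs <;> simp

/-- The cut semimetric of `S`: `1` on pairs separated by `S`, `0` otherwise. -/
def cutMetric {n : ℕ} (S : Finset (Fin n)) (i j : Fin n) : ℝ :=
  if (i ∈ S ↔ j ∈ S) then 0 else 1

theorem cutMetric_eq {n : ℕ} (S : Finset (Fin n)) (i j : Fin n) :
    cutMetric S i j = (if i ∈ S ∧ j ∉ S then 1 else 0) + (if j ∈ S ∧ i ∉ S then 1 else 0) := by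
  unfold cutMetric
  by_cases hi : i ∈ S <;> by_cases hj : j ∈ S <;> simp [hi, hj]

theorem cutMetric_symm {n : ℕ} (S : Finset (Fin n)) (i j : Fin n) :
    cutMetric S i j = cutMetric S j i := by
  unfold cutMetric
  by_cases hi : i ∈ S <;> by_cases hj : j ∈ S <;> simp [hi, hj]

theorem cutMetric_self {n : ℕ} (S : Finset (Fin n)) (i : Fin n) : cutMetric S i i = 0 := by
  simp [cutMetric]

theorem cutMetric_nonneg {n : ℕ} (S : Finset (Fin n)) (i j : Fin n) : 0 ≤ cutMetric S i j := by
  unfold cutMetric; split_ifs <;> norm_num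

theorem cutMetric_triangle {n : ℕ} (S : Finset (Fin n)) (i j k : Fin n) :
    cutMetric S i k ≤ cutMetric S i j + cutMetric S j k := by
  unfold cutMetric
  by_cases hi : i ∈ S <;> by_cases hj : j ∈ S <;> by_cases hk : k ∈ S <;> simp [hi, hj, hk]

/-- The sum of `c i j * cutMetric S i j` over all ordered pairs is twice the cut capacity. -/
theorem sum_mul_cutMetric {n : ℕ} (c : Fin n → Fin n → ℝ) (hs : ∀ i j, c i j = c j i)
    (S : Finset (Fin n)) : ∑ i, ∑ j, c i j * cutMetric S i j = 2 * cutCap c S := by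
  have e1 : ∑ i, ∑ j, c i j * cutMetric S i j
      = ∑ i, ∑ j, (if i ∈ S ∧ j ∉ S then c i j else 0)
        + ∑ i, ∑ j, (if j ∈ S ∧ i ∉ S then c i j else 0) := by
    rw [← Finset.sum_add_distrib]
    refine Finset.sum_congr rfl fun i _ => ?_
    rw [← Finset.sum_add_distrib]
    refine Finset.sum_congr rfl fun j _ => ?_
    rw [cutMetric_eq]
    by_cases hi : i ∈ S <;> by_cases hj : j ∈ S <;> simp [hi, hj]
  have e2 : ∑ i, ∑ j, (if j ∈ S ∧ i ∉ S then c i j else 0)
      = ∑ i, ∑ j, (if i ∈ S ∧ j ∉ S then c i j else 0) := by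
    rw [Finset.sum_comm]
    refine Finset.sum_congr rfl fun i _ => Finset.sum_congr rfl fun j _ => ?_
    rw [hs j i]
  rw [e1, e2, ← cutCap_eq_ite]
  ring

theorem cutCap_one {n : ℕ} (S : Finset (Fin n)) :
    cutCap (fun _ _ => (1 : ℝ)) S = (S.card : ℝ) * ((n : ℝ) - (S.card : ℝ)) := by
  unfold cutCap
  rw [← Finset.compl_eq_univ_sdiff]
  simp only [Finset.sum_const, nsmul_eq_mul, mul_one]
  rw [Finset.card_compl, Fintype.card_fin]
  have h : S.card ≤ n := by
    have := Finset.card_le_univ S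
    simpa using this
  rw [Nat.cast_sub h]

/-- Scaled cut semimetrics are negative-type semimetrics. -/
theorem cutMetric_negType {n : ℕ} (S : Finset (Fin n)) (i0 : Fin n) (t : ℝ) (ht : 0 ≤ t) :
    IsNegTypeSemimetric (fun i j => t * cutMetric S i j) := by
  refine ⟨⟨fun i => EuclideanSpace.single i0 (if i ∈ S then Real.sqrt t else 0), ?_⟩, ?_⟩
  · intro i j
    rw [EuclideanSpace.real_norm_sq_eq]
    have hsum : ∀ a b : ℝ, ∑ k : Fin n,
        ((EuclideanSpace.single i0 a - EuclideanSpace.single i0 b : EuclideanSpace ℝ (Fin n)) k) ^ 2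
        = (a - b) ^ 2 := by
      intro a b
      rw [Finset.sum_eq_single i0]
      · simp
      · intro k _ hk
        simp [hk]
      · intro h; exact absurd (Finset.mem_univ i0) h
    rw [hsum]
    have hsq : Real.sqrt t ^ 2 = t := Real.sq_sqrt ht
    unfold cutMetric
    by_cases hi : i ∈ S <;> by_cases hj : j ∈ S <;> simp [hi, hj, hsq]
  · intro i j k
    have := cutMetric_triangle S i j k
    have h2 := mul_le_mul_of_nonneg_left this ht
    linarith

/-- The normalized cut semimetric of a nonempty proper `S` is feasible for the relaxation and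
its objective value is the ratio of the cut. -/
theorem cut_feasible {n : ℕ} (c : Fin n → Fin n → ℝ) (hc : IsCapacity c) (S : Finset (Fin n))
    (h1 : S.Nonempty) (h2 : S ≠ Finset.univ) :
    ∃ d : Fin n → Fin n → ℝ, IsNegTypeSemimetric d ∧ pairSum d = 1 ∧
      cutRatio c S = pairSum (fun i j => c i j * d i j) := by
  obtain ⟨i0, hi0⟩ := h1
  have h1 : S.Nonempty := ⟨i0, hi0⟩
  set K : ℝ := (S.card : ℝ) * ((n : ℝ) - (S.card : ℝ)) with hK
  have hKpos : 0 < K := card_factor_pos S h1 h2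
  refine ⟨fun i j => (1 / K) * cutMetric S i j, cutMetric_negType S i0 (1 / K) (by positivity),
    ?_, ?_⟩
  · rw [pairSum_smul, pairSum_eq_half _ (cutMetric_symm S) (cutMetric_self S)]
    have h := sum_mul_cutMetric (fun _ _ => (1 : ℝ)) (fun _ _ => rfl) S
    simp only [one_mul] at h
    rw [h, cutCap_one, ← hK]
    field_simp
  · have e : (fun i j => c i j * ((1 / K) * cutMetric S i j))
        = fun i j => (1 / K) * (c i j * cutMetric S i j) := by
      funext i j; ring
    rw [e, pairSum_smul, pairSum_eq_half]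
    · rw [sum_mul_cutMetric c hc.1 S]
      unfold cutRatio
      rw [← hK]
      field_simp
    · intro i j; rw [hc.1 i j, cutMetric_symm S i j]
    · intro i; rw [cutMetric_self]; ring

theorem gl_set_bddBelow {n : ℕ} (c : Fin n → Fin n → ℝ) (hc : IsCapacity c) :
    BddBelow {v : ℝ | ∃ d : Fin n → Fin n → ℝ, IsNegTypeSemimetric d ∧ pairSum d = 1 ∧
      v = pairSum (fun i j => c i j * d i j)} := by
  refine ⟨0, ?_⟩
  rintro v ⟨d, hd, -, rfl⟩
  exact pairSum_nonneg _ fun i j => mul_nonneg (hc.2.1 i j) (hd.nonneg i j)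

theorem glValue_nonneg {n : ℕ} (c : Fin n → Fin n → ℝ) (hc : IsCapacity c) : 0 ≤ glValue c := by
  apply Real.sInf_nonneg
  rintro v ⟨d, hd, -, rfl⟩
  exact pairSum_nonneg _ fun i j => mul_nonneg (hc.2.1 i j) (hd.nonneg i j)

theorem exists_proper {n : ℕ} (hn : 2 ≤ n) :
    ∃ S : Finset (Fin n), S.Nonempty ∧ S ≠ Finset.univ := by
  refine ⟨{⟨0, by omega⟩}, Finset.singleton_nonempty _, ?_⟩
  intro h
  have h3 := congrArg Finset.card h
  rw [Finset.card_singleton, Finset.card_univ, Fintype.card_fin] at h3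
  omega

/-- Normalized cut semimetrics are feasible, so `GL(c) ≤ Φ(c)` whenever `n ≥ 2`. -/
theorem glValue_le_sparsity {n : ℕ} (hn : 2 ≤ n) (c : Fin n → Fin n → ℝ) (hc : IsCapacity c) :
    glValue c ≤ sparsity c := by
  apply le_csInf
  · obtain ⟨S, h1, h2⟩ := exists_proper hn
    exact ⟨cutRatio c S, S, h1, h2, rfl⟩
  · rintro r ⟨S, h1, h2, rfl⟩
    obtain ⟨d, hd, hd1, hv⟩ := cut_feasible c hc S h1 h2
    exact csInf_le (gl_set_bddBelow c hc) ⟨d, hd, hd1, hv⟩

theorem gl_set_nonempty {n : ℕ} (hn : 2 ≤ n) (c : Fin n → Fin n → ℝ) (hc : IsCapacity c) :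
    {v : ℝ | ∃ d : Fin n → Fin n → ℝ, IsNegTypeSemimetric d ∧ pairSum d = 1 ∧
      v = pairSum (fun i j => c i j * d i j)}.Nonempty := by
  obtain ⟨S, h1, h2⟩ := exists_proper hn
  obtain ⟨d, hd, hd1, hv⟩ := cut_feasible c hc S h1 h2
  exact ⟨_, d, hd, hd1, hv⟩

/-- Scaling a negative-type semimetric by a nonnegative factor. -/
theorem IsNegTypeSemimetric.smul {n : ℕ} {d : Fin n → Fin n → ℝ} (hd : IsNegTypeSemimetric d)
    (t : ℝ) (ht : 0 ≤ t) : IsNegTypeSemimetric (fun i j => t * d i j) := by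
  obtain ⟨⟨x, hx⟩, htri⟩ := hd
  refine ⟨⟨fun i => Real.sqrt t • x i, ?_⟩, ?_⟩
  · intro i j
    show t * d i j = _
    rw [← smul_sub, norm_smul, mul_pow, Real.norm_eq_abs, sq_abs, Real.sq_sqrt ht, hx]
  · intro i j k
    have h2 := mul_le_mul_of_nonneg_left (htri i j k) ht
    linarith

/-- Any negative-type semimetric with positive total gives an upper bound for `GL(c)`. -/
theorem glValue_le_of_negType {n : ℕ} (c : Fin n → Fin n → ℝ) (hc : IsCapacity c)
    (d : Fin n → Fin n → ℝ) (hd : IsNegTypeSemimetric d) (hpos : 0 < pairSum d) :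
    glValue c ≤ pairSum (fun i j => c i j * d i j) / pairSum d := by
  apply csInf_le (gl_set_bddBelow c hc)
  refine ⟨fun i j => (1 / pairSum d) * d i j, hd.smul _ (by positivity), ?_, ?_⟩
  · rw [pairSum_smul]; field_simp
  · have e : (fun i j => c i j * ((1 / pairSum d) * d i j))
        = fun i j => (1 / pairSum d) * (c i j * d i j) := by
      funext i j; ring
    rw [e, pairSum_smul]; field_simp

end Vale.Agent.Lib.P318
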