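import Mathlib
import Vale.Agent.Lib.P318.Defs
import Vale.Agent.Lib.P318.Basic
import Vale.Agent.Lib.P318.General
import Vale.Agent.Lib.P318.Five

namespace Vale.Agent.Lib.P318

/-- The complete bipartite graph with parts `{0, 1}` and the remaining vertices, unit capacities. -/
def kTwo (n : ℕ) : Fin n → Fin n → ℝ :=
  fun i j => if (i.val < 2 ∧ 2 ≤ j.val) ∨ (2 ≤ i.val ∧ j.val < 2) then 1 else 0

theorem kTwo_isCapacity (n : ℕ) : IsCapacity (kTwo n) := by
  refine ⟨?_, ?_, ?_⟩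
  · intro i j
    unfold kTwo
    congr 1
    apply propext
    constructor <;> rintro (h | h) <;> [right; left; right; left] <;> exact ⟨h.2, h.1⟩
  · intro i j
    unfold kTwo
    split_ifs <;> norm_num
  · intro i
    unfold kTwo
    rw [if_neg]
    rintro (h | h) <;> omega

theorem kTwo_five_cut_nat : ∀ S : Finset (Fin 5), S.Nonempty → S ≠ Finset.univ →
    S.card * (5 - S.card) ≤ 2 * ∑ i ∈ S, ∑ j ∈ Finset.univ \ S,
      (if (i.val < 2 ∧ 2 ≤ j.val) ∨ (2 ≤ i.val ∧ j.val < 2) then 1 else 0) := by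
  decide

theorem kTwo_five_sparsity : 1 / 2 ≤ sparsity (kTwo 5) := by
  apply le_csInf
  · obtain ⟨S, h1, h2⟩ := exists_proper (n := 5) (by norm_num)
    exact ⟨_, S, h1, h2, rfl⟩
  · rintro r ⟨S, h1, h2, rfl⟩
    have hnat := kTwo_five_cut_nat S h1 h2
    have hcard : S.card ≤ 5 := by
      have := Finset.card_le_univ S
      simpa using this
    have hcast : (2 : ℝ) * cutCap (kTwo 5) S = ((2 * ∑ i ∈ S, ∑ j ∈ Finset.univ \ S,
        (if (i.val < 2 ∧ 2 ≤ j.val) ∨ (2 ≤ i.val ∧ j.val < 2) then 1 else 0) : ℕ) : ℝ) := by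
      unfold cutCap kTwo
      push_cast
      rfl
    have h3 : ((S.card * (5 - S.card) : ℕ) : ℝ) ≤ 2 * cutCap (kTwo 5) S := by
      rw [hcast]
      exact_mod_cast hnat
    rw [Nat.cast_mul, Nat.cast_sub hcard] at h3
    have hpos := card_factor_pos S h1 h2
    unfold cutRatio
    rw [le_div_iff₀ hpos]
    push_cast at h3 ⊢
    linarith

/-- A point configuration in `ℝ^5`. -/
noncomputable def pts5 : Fin 5 → EuclideanSpace ℝ (Fin 5) :=
  ![!₂[0, 0, 0, 0, 0], !₂[2/3, 2/3, 2/3, 0, 0], !₂[1, 0, 0, 0, 0], !₂[0, 1, 0, 0, 0],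
    !₂[0, 0, 1, 0, 0]]

/-- Its table of squared distances. -/
noncomputable def tab5 : Fin 5 → Fin 5 → ℝ :=
  ![![0, 4/3, 1, 1, 1], ![4/3, 0, 1, 1, 1], ![1, 1, 0, 2, 2], ![1, 1, 2, 0, 2], ![1, 1, 2, 2, 0]]

theorem tab5_eq (i j : Fin 5) : tab5 i j = ‖pts5 i - pts5 j‖ ^ 2 := by
  rw [EuclideanSpace.real_norm_sq_eq, Fin.sum_univ_five]
  fin_cases i <;> fin_cases j <;> simp [tab5, pts5] <;> norm_num

theorem tab5_triangle (i j k : Fin 5) : tab5 i k ≤ tab5 i j + tab5 j k := by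
  fin_cases i <;> fin_cases j <;> fin_cases k <;> simp [tab5] <;> norm_num

theorem tab5_negType : IsNegTypeSemimetric tab5 :=
  ⟨⟨pts5, tab5_eq⟩, tab5_triangle⟩

theorem kTwo_five_gl : glValue (kTwo 5) ≤ 9 / 20 := by
  have h1 : pairSum tab5 = 40 / 3 := by
    rw [pairSum_five]; simp [tab5]; norm_num
  have h2 : pairSum (fun i j => kTwo 5 i j * tab5 i j) = 6 := by
    rw [pairSum_five]; simp [tab5, kTwo]; norm_num
  have h := glValue_le_of_negType (kTwo 5) (kTwo_isCapacity 5) tab5 tab5_negType (by rw [h1]; norm_num)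
  rw [h1, h2] at h
  norm_num at h
  exact h

/-- For five vertices, `(9/10) * Φ(c) ≤ GL(c)`. -/
theorem gl_ge_five (c : Fin 5 → Fin 5 → ℝ) (hc : IsCapacity c) :
    (9 / 10) * sparsity c ≤ glValue c := by
  apply le_csInf (gl_set_nonempty (by norm_num) c hc)
  rintro v ⟨d, hd, hd1, rfl⟩
  have h := five_pair_bound c hc d hd
  rw [hd1, mul_one] at h
  exact h

theorem gap_five : IsGreatest {ρ : ℝ | ∃ c : Fin 5 → Fin 5 → ℝ, IsCapacity c ∧ 0 < glValue c ∧
    ρ = sparsity c / glValue c} (10 / 9) := by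
  constructor
  · have hc := kTwo_isCapacity 5
    have a1 := kTwo_five_sparsity
    have a2 := kTwo_five_gl
    have a3 := gl_ge_five (kTwo 5) hc
    have e1 : sparsity (kTwo 5) = 1 / 2 := by linarith
    have e2 : glValue (kTwo 5) = 9 / 20 := by linarith
    refine ⟨kTwo 5, hc, ?_, ?_⟩
    · rw [e2]; norm_num
    · rw [e1, e2]; norm_num
  · rintro ρ ⟨c, hc, hpos, rfl⟩
    have a3 := gl_ge_five c hc
    rw [div_le_iff₀ hpos]
    linarith

end Vale.Agent.Lib.P318
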