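import Mathlib
import Vale.Agent.Lib.P318.Defs
import Vale.Agent.Lib.P318.Basic
import Vale.Agent.Lib.P318.General
import Vale.Agent.Lib.P318.FiveMain

namespace Vale.Agent.Lib.P318

open Finset

/-- Indicator of the part `{0, 1}`. -/
noncomputable def al {n : ℕ} (i : Fin n) : ℝ := if i.val < 2 then 1 else 0

theorem al_of_lt {n : ℕ} {i : Fin n} (h : i.val < 2) : al i = 1 := by simp [al, h]

theorem al_of_ge {n : ℕ} {i : Fin n} (h : 2 ≤ i.val) : al i = 0 := by
  simp [al, not_lt.mpr h]

theorem sum_al {n : ℕ} (hn : 2 ≤ n) : ∑ i : Fin n, al i = 2 := by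
  unfold al
  rw [Fin.sum_univ_eq_sum_range (fun k => if k < 2 then (1 : ℝ) else 0) n]
  rw [Finset.sum_ite, Finset.sum_const_zero, add_zero, Finset.sum_const, nsmul_eq_mul, mul_one]
  have : (Finset.range n).filter (fun k => k < 2) = Finset.range 2 := by
    ext k
    simp only [Finset.mem_filter, Finset.mem_range]
    omega
  rw [this, Finset.card_range]
  norm_num

theorem kTwo_eq {n : ℕ} (i j : Fin n) :
    kTwo n i j = al i * (1 - al j) + (1 - al i) * al j := by
  unfold kTwo
  by_cases hi : i.val < 2 <;> by_cases hj : j.val < 2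
  · rw [al_of_lt hi, al_of_lt hj, if_neg (by omega)]; ring
  · rw [al_of_lt hi, al_of_ge (by omega), if_pos (by omega)]; ring
  · rw [al_of_ge (by omega), al_of_lt hj, if_pos (by omega)]; ring
  · rw [al_of_ge (by omega), al_of_ge (by omega), if_neg (by omega)]; ring

/-- Crossing capacity of a cut in the graph `kTwo n`, in terms of the number `a` of vertices of
`S` among `{0, 1}`. -/
theorem kTwo_cutCap {n : ℕ} (hn : 2 ≤ n) (S : Finset (Fin n)) :
    cutCap (kTwo n) S = (∑ i ∈ S, al i) * (((n : ℝ) - S.card) - (2 - ∑ i ∈ S, al i))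
      + ((S.card : ℝ) - ∑ i ∈ S, al i) * (2 - ∑ i ∈ S, al i) := by
  have hT : ∑ j ∈ Finset.univ \ S, al j = 2 - ∑ i ∈ S, al i := by
    have := Finset.sum_sdiff (Finset.subset_univ S) (f := fun i : Fin n => al i)
    rw [sum_al hn] at this
    linarith
  have hcardT : ((Finset.univ \ S).card : ℝ) = (n : ℝ) - S.card := by
    rw [← Finset.compl_eq_univ_sdiff, Finset.card_compl, Fintype.card_fin]
    have h : S.card ≤ n := by
      have := Finset.card_le_univ S
      simpa using this
    rw [Nat.cast_sub h]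
  unfold cutCap
  have e : ∀ i ∈ S, ∑ j ∈ Finset.univ \ S, kTwo n i j
      = al i * (((n : ℝ) - S.card) - (2 - ∑ i ∈ S, al i))
        + (1 - al i) * (2 - ∑ i ∈ S, al i) := by
    intro i _
    simp only [kTwo_eq]
    rw [Finset.sum_add_distrib, ← Finset.mul_sum, ← Finset.mul_sum, Finset.sum_sub_distrib, hT]
    simp only [Finset.sum_const, nsmul_eq_mul, mul_one]
    rw [hcardT]
  rw [Finset.sum_congr rfl e, Finset.sum_add_distrib, ← Finset.sum_mul, ← Finset.sum_mul,
    Finset.sum_sub_distrib]
  simp only [Finset.sum_const, nsmul_eq_mul, mul_one]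

theorem sum_al_eq_card {n : ℕ} (S : Finset (Fin n)) :
    ∑ i ∈ S, al i = ((S.filter (fun i => i.val < 2)).card : ℝ) := by
  unfold al
  rw [Finset.sum_ite, Finset.sum_const_zero, add_zero, Finset.sum_const, nsmul_eq_mul, mul_one]

theorem filter_card_le_two {n : ℕ} (S : Finset (Fin n)) :
    (S.filter (fun i => i.val < 2)).card ≤ 2 := by
  have h1 : (S.filter (fun i => i.val < 2)).card
      ≤ ((Finset.univ : Finset (Fin n)).filter (fun i => i.val < 2)).card :=
    Finset.card_le_card (Finset.filter_subset_filter _ (Finset.subset_univ S))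
  have h2 : ((Finset.univ : Finset (Fin n)).filter (fun i => i.val < 2)).card ≤ 2 := by
    have : ((Finset.univ : Finset (Fin n)).filter (fun i => i.val < 2)).card
        ≤ (Finset.range 2).card := by
      apply Finset.card_le_card_of_injOn (fun i => i.val)
      · intro i hi
        simp only [Finset.coe_filter, Finset.mem_univ, true_and, Set.mem_setOf_eq] at hi
        simp [hi]
      · intro i _ j _ h
        exact Fin.ext h
    simpa using this
  exact le_trans h1 h2

/-- Every cut of `kTwo n` has ratio at least `2 / (n - 1)` when `n ≥ 6`. -/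
theorem kTwo_cutRatio_ge {n : ℕ} (hn : 6 ≤ n) (S : Finset (Fin n)) (h1 : S.Nonempty)
    (h2 : S ≠ Finset.univ) : 2 / ((n : ℝ) - 1) ≤ cutRatio (kTwo n) S := by
  have hpos := card_factor_pos S h1 h2
  have hs1 : 0 < S.card := Finset.card_pos.mpr h1
  have hs2 : S.card < n := by
    have := Finset.card_lt_card (Finset.ssubset_univ_iff.mpr h2)
    simpa using this
  have hs1' : (1 : ℝ) ≤ (S.card : ℝ) := by exact_mod_cast hs1
  have hs2' : (S.card : ℝ) ≤ (n : ℝ) - 1 := by
    have : S.card + 1 ≤ n := hs2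
    have h3 : ((S.card + 1 : ℕ) : ℝ) ≤ (n : ℝ) := by exact_mod_cast this
    push_cast at h3
    linarith
  have hn' : (6 : ℝ) ≤ (n : ℝ) := by exact_mod_cast hn
  unfold cutRatio
  rw [le_div_iff₀ hpos, div_mul_eq_mul_div, div_le_iff₀ (by linarith)]
  rw [kTwo_cutCap (by omega) S, sum_al_eq_card]
  have hk := filter_card_le_two S
  set k := (S.filter (fun i => i.val < 2)).card with hkdef
  set s : ℝ := (S.card : ℝ) with hsdef
  interval_cases k
  · norm_num
    nlinarith
  · norm_num
    nlinarith [sq_nonneg (2 * s - (n : ℝ))]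
  · norm_num
    nlinarith

theorem kTwo_sparsity_ge {n : ℕ} (hn : 5 ≤ n) : 2 / ((n : ℝ) - 1) ≤ sparsity (kTwo n) := by
  rcases Nat.lt_or_ge n 6 with h | h
  · have h5 : n = 5 := by omega
    subst h5
    have := kTwo_five_sparsity
    norm_num at this ⊢
    linarith
  · apply le_csInf
    · obtain ⟨S, h1, h2⟩ := exists_proper (n := n) (by omega)
      exact ⟨_, S, h1, h2, rfl⟩
    · rintro r ⟨S, h1, h2, rfl⟩
      exact kTwo_cutRatio_ge h S h1 h2

end Vale.Agent.Lib.P318
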