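import Mathlib
import Vale.Agent.Lib.P318.Defs
import Vale.Agent.Lib.P318.Basic
import Vale.Agent.Lib.P318.General
import Vale.Agent.Lib.P318.Family

namespace Vale.Agent.Lib.P318

open Finset

/-- The vector with entries `2 / (n - 2)` at the coordinates `k ≥ 2` and `0` at `k < 2`. -/
noncomputable def wVec (n : ℕ) : EuclideanSpace ℝ (Fin n) :=
  WithLp.toLp 2 (fun k : Fin n => if 2 ≤ k.val then 2 / ((n : ℝ) - 2) else 0)

/-- The point configuration: `0`, `wVec`, and the standard basis vectors `e_k` for `k ≥ 2`. -/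
noncomputable def ptsK (n : ℕ) (i : Fin n) : EuclideanSpace ℝ (Fin n) :=
  if i.val = 0 then 0 else if i.val = 1 then wVec n else EuclideanSpace.single i 1

/-- The table of squared distances of `ptsK`. -/
noncomputable def dK (n : ℕ) (i j : Fin n) : ℝ :=
  if i = j then 0 else if i.val < 2 ∧ j.val < 2 then 4 / ((n : ℝ) - 2)
  else if 2 ≤ i.val ∧ 2 ≤ j.val then 2 else 1

theorem wVec_apply (n : ℕ) (k : Fin n) :
    wVec n k = if 2 ≤ k.val then 2 / ((n : ℝ) - 2) else 0 := rfl

theorem wVec_norm_sq {n : ℕ} (hn : 3 ≤ n) : ‖wVec n‖ ^ 2 = 4 / ((n : ℝ) - 2) := by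
  have hn' : (3 : ℝ) ≤ (n : ℝ) := by exact_mod_cast hn
  have hm : (n : ℝ) - 2 ≠ 0 := by linarith
  rw [EuclideanSpace.real_norm_sq_eq]
  have e : ∀ k : Fin n, (wVec n k) ^ 2 = (1 - al k) * (2 / ((n : ℝ) - 2)) ^ 2 := by
    intro k
    rw [wVec_apply]
    by_cases hk : k.val < 2
    · rw [al_of_lt hk, if_neg (by omega)]; ring
    · rw [al_of_ge (by omega), if_pos (by omega)]; ring
  rw [Finset.sum_congr rfl (fun k _ => e k), ← Finset.sum_mul, Finset.sum_sub_distrib,
    sum_al (by omega)]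
  simp only [Finset.sum_const, Finset.card_univ, Fintype.card_fin, nsmul_eq_mul, mul_one]
  field_simp
  ring

theorem inner_wVec_single {n : ℕ} (j : Fin n) (hj : 2 ≤ j.val) :
    inner ℝ (wVec n) (EuclideanSpace.single j (1 : ℝ)) = 2 / ((n : ℝ) - 2) := by
  rw [EuclideanSpace.inner_single_right]
  simp [wVec_apply, hj]

theorem inner_single_single {n : ℕ} (i j : Fin n) (h : i ≠ j) :
    inner ℝ (EuclideanSpace.single i (1 : ℝ)) (EuclideanSpace.single j (1 : ℝ)) = 0 := by
  rw [EuclideanSpace.inner_single_right]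
  simp [EuclideanSpace.single_apply, h.symm]

theorem single_norm_sq {n : ℕ} (i : Fin n) :
    ‖(EuclideanSpace.single i (1 : ℝ) : EuclideanSpace ℝ (Fin n))‖ ^ 2 = 1 := by
  rw [EuclideanSpace.norm_single]; simp

theorem dK_eq {n : ℕ} (hn : 3 ≤ n) (i j : Fin n) : dK n i j = ‖ptsK n i - ptsK n j‖ ^ 2 := by
  have hn' : (3 : ℝ) ≤ (n : ℝ) := by exact_mod_cast hn
  have hm : (n : ℝ) - 2 ≠ 0 := by linarith
  by_cases hij : i = j
  · subst hij; simp [dK]
  · have hv : i.val ≠ j.val := fun h => hij (Fin.ext h)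
    unfold dK
    rw [if_neg hij, norm_sub_sq_real]
    unfold ptsK
    rcases Nat.lt_or_ge i.val 2 with hi | hi <;> rcases Nat.lt_or_ge j.val 2 with hj | hj
    · rw [if_pos ⟨hi, hj⟩]
      have h01 : (i.val = 0 ∧ j.val = 1) ∨ (i.val = 1 ∧ j.val = 0) := by omega
      rcases h01 with ⟨a, b⟩ | ⟨a, b⟩
      · rw [if_pos a, if_neg (by omega), if_pos b, wVec_norm_sq hn]
        simp
      · rw [if_neg (by omega), if_pos a, if_pos b, wVec_norm_sq hn]
        simp
    · rw [if_neg (by omega), if_neg (by omega), if_neg (by omega : ¬ j.val = 0),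
        if_neg (by omega : ¬ j.val = 1), single_norm_sq]
      have h01 : i.val = 0 ∨ i.val = 1 := by omega
      rcases h01 with a | a
      · rw [if_pos a]; simp
      · rw [if_neg (by omega), if_pos a, wVec_norm_sq hn, inner_wVec_single j hj]
        field_simp
        ring
    · rw [if_neg (by omega), if_neg (by omega), if_neg (by omega : ¬ i.val = 0),
        if_neg (by omega : ¬ i.val = 1), single_norm_sq]
      have h01 : j.val = 0 ∨ j.val = 1 := by omega
      rcases h01 with a | a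
      · rw [if_pos a]; simp
      · rw [if_neg (by omega), if_pos a, wVec_norm_sq hn, real_inner_comm,
          inner_wVec_single i hi]
        field_simp
        ring
    · rw [if_neg (by omega), if_pos ⟨hi, hj⟩, if_neg (by omega : ¬ i.val = 0),
        if_neg (by omega : ¬ i.val = 1), if_neg (by omega : ¬ j.val = 0),
        if_neg (by omega : ¬ j.val = 1), single_norm_sq, single_norm_sq,
        inner_single_single i j hij]
      norm_num

theorem dK_ne {n : ℕ} {i j : Fin n} (h : i ≠ j) :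
    dK n i j = if i.val < 2 ∧ j.val < 2 then 4 / ((n : ℝ) - 2)
      else if 2 ≤ i.val ∧ 2 ≤ j.val then 2 else 1 := by
  unfold dK; rw [if_neg h]

theorem dK_self {n : ℕ} (i : Fin n) : dK n i i = 0 := by simp [dK]

theorem dK_nonneg {n : ℕ} (hn : 3 ≤ n) (i j : Fin n) : 0 ≤ dK n i j := by
  rw [dK_eq hn]; positivity

theorem dK_triangle {n : ℕ} (hn : 4 ≤ n) (i j k : Fin n) : dK n i k ≤ dK n i j + dK n j k := by
  have hn' : (4 : ℝ) ≤ (n : ℝ) := by exact_mod_cast hn
  have hm : 0 < (n : ℝ) - 2 := by linarith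
  have hq : 4 / ((n : ℝ) - 2) ≤ 2 := by
    rw [div_le_iff₀ hm]; linarith
  have hq0 : 0 < 4 / ((n : ℝ) - 2) := by positivity
  by_cases hij : i = j
  · subst hij; rw [dK_self]; linarith
  by_cases hjk : j = k
  · subst hjk; rw [dK_self]; linarith
  by_cases hik : i = k
  · subst hik; rw [dK_self]
    have := dK_nonneg (by omega : 3 ≤ n) i j
    have := dK_nonneg (by omega : 3 ≤ n) j i
    linarith
  rw [dK_ne hij, dK_ne hjk, dK_ne hik]
  rcases Nat.lt_or_ge i.val 2 with hi | hi <;> rcases Nat.lt_or_ge j.val 2 with hj | hj <;>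
    rcases Nat.lt_or_ge k.val 2 with hk | hk
  · rw [if_pos ⟨hi, hk⟩, if_pos ⟨hi, hj⟩, if_pos ⟨hj, hk⟩]; linarith
  · rw [if_neg (by omega), if_neg (by omega), if_pos ⟨hi, hj⟩, if_neg (by omega),
      if_neg (by omega)]; linarith
  · rw [if_pos ⟨hi, hk⟩, if_neg (by omega), if_neg (by omega), if_neg (by omega),
      if_neg (by omega)]; linarith
  · rw [if_neg (by omega), if_neg (by omega), if_neg (by omega), if_neg (by omega),
      if_neg (by omega), if_pos ⟨hj, hk⟩]; linarith
  · rw [if_neg (by omega), if_neg (by omega), if_neg (by omega), if_neg (by omega),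
      if_pos ⟨hj, hk⟩]; linarith
  · rw [if_neg (by omega), if_pos ⟨hi, hk⟩, if_neg (by omega), if_neg (by omega),
      if_neg (by omega), if_neg (by omega)]; linarith
  · rw [if_neg (by omega), if_neg (by omega), if_neg (by omega), if_pos ⟨hi, hj⟩,
      if_neg (by omega), if_neg (by omega)]; linarith
  · rw [if_neg (by omega), if_pos ⟨hi, hk⟩, if_neg (by omega), if_pos ⟨hi, hj⟩,
      if_neg (by omega), if_pos ⟨hj, hk⟩]; linarith

theorem dK_negType {n : ℕ} (hn : 4 ≤ n) : IsNegTypeSemimetric (dK n) :=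
  ⟨⟨ptsK n, dK_eq (by omega)⟩, dK_triangle hn⟩

theorem dK_symm {n : ℕ} (hn : 4 ≤ n) (i j : Fin n) : dK n i j = dK n j i :=
  (dK_negType hn).symm i j

end Vale.Agent.Lib.P318
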