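import Mathlib
import Vale.Agent.Lib.P318.Defs
import Vale.Agent.Lib.P318.Basic
import Vale.Agent.Lib.P318.General
import Vale.Agent.Lib.P318.Family
import Vale.Agent.Lib.P318.Family2

namespace Vale.Agent.Lib.P318

open Finset

theorem dK_alg {n : ℕ} (i j : Fin n) :
    dK n i j = (4 / ((n : ℝ) - 2)) * (al i * al j - (if i = j then al i else 0))
      + 2 * ((1 - al i) * (1 - al j) - (if i = j then 1 - al i else 0))
      + (al i * (1 - al j) + (1 - al i) * al j) := by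
  by_cases hij : i = j
  · subst hij
    rw [dK_self, if_pos rfl, if_pos rfl]
    by_cases hi : i.val < 2
    · rw [al_of_lt hi]; ring
    · rw [al_of_ge (by omega)]; ring
  · rw [dK_ne hij, if_neg hij, if_neg hij]
    by_cases hi : i.val < 2 <;> by_cases hj : j.val < 2
    · rw [al_of_lt hi, al_of_lt hj, if_pos ⟨hi, hj⟩]; ring
    · rw [al_of_lt hi, al_of_ge (by omega), if_neg (by omega), if_neg (by omega)]; ring
    · rw [al_of_ge (by omega), al_of_lt hj, if_neg (by omega), if_neg (by omega)]; ring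
    · rw [al_of_ge (by omega), al_of_ge (by omega), if_neg (by omega), if_pos (by omega)]; ring

theorem sum_sum_al_mul {n : ℕ} (hn : 2 ≤ n) : ∑ i : Fin n, ∑ j : Fin n, al i * al j = 4 := by
  rw [← Finset.sum_mul_sum, sum_al hn]; norm_num

theorem sum_sum_cross {n : ℕ} (hn : 2 ≤ n) :
    ∑ i : Fin n, ∑ j : Fin n, (al i * (1 - al j) + (1 - al i) * al j) = 4 * ((n : ℝ) - 2) := by
  have e : ∀ i : Fin n, ∑ j : Fin n, (al i * (1 - al j) + (1 - al i) * al j)
      = al i * ((n : ℝ) - 2) + (1 - al i) * 2 := by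
    intro i
    rw [Finset.sum_add_distrib, ← Finset.mul_sum, ← Finset.mul_sum, Finset.sum_sub_distrib,
      sum_al hn]
    simp only [Finset.sum_const, Finset.card_univ, Fintype.card_fin, nsmul_eq_mul, mul_one]
  rw [Finset.sum_congr rfl (fun i _ => e i), Finset.sum_add_distrib, ← Finset.sum_mul,
    ← Finset.sum_mul, Finset.sum_sub_distrib, sum_al hn]
  simp only [Finset.sum_const, Finset.card_univ, Fintype.card_fin, nsmul_eq_mul, mul_one]
  ring

theorem sum_sum_dK {n : ℕ} (hn : 3 ≤ n) :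
    ∑ i : Fin n, ∑ j : Fin n, dK n i j
      = 8 / ((n : ℝ) - 2) + 2 * (((n : ℝ) - 2) ^ 2 - ((n : ℝ) - 2)) + 4 * ((n : ℝ) - 2) := by
  have h2 : 2 ≤ n := by omega
  have e : ∀ i : Fin n, ∑ j : Fin n, dK n i j
      = (4 / ((n : ℝ) - 2)) * (al i * 2 - al i)
        + 2 * ((1 - al i) * ((n : ℝ) - 2) - (1 - al i))
        + (al i * ((n : ℝ) - 2) + (1 - al i) * 2) := by
    intro i
    simp only [dK_alg]
    rw [Finset.sum_add_distrib, Finset.sum_add_distrib, ← Finset.mul_sum, ← Finset.mul_sum,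
      Finset.sum_sub_distrib, Finset.sum_sub_distrib, ← Finset.mul_sum, ← Finset.mul_sum,
      Finset.sum_add_distrib, ← Finset.mul_sum, ← Finset.mul_sum, Finset.sum_sub_distrib,
      sum_al h2, Finset.sum_ite_eq, Finset.sum_ite_eq]
    simp only [Finset.sum_const, Finset.card_univ, Fintype.card_fin, nsmul_eq_mul, mul_one,
      Finset.mem_univ, if_true]
  rw [Finset.sum_congr rfl (fun i _ => e i)]
  have hn' : (3 : ℝ) ≤ (n : ℝ) := by exact_mod_cast hn
  have hm : (n : ℝ) - 2 ≠ 0 := by linarith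
  have e2 : ∀ i : Fin n, (4 / ((n : ℝ) - 2)) * (al i * 2 - al i)
        + 2 * ((1 - al i) * ((n : ℝ) - 2) - (1 - al i))
        + (al i * ((n : ℝ) - 2) + (1 - al i) * 2)
      = al i * (4 / ((n : ℝ) - 2) - 2 * ((n : ℝ) - 2) + 2 + ((n : ℝ) - 2) - 2)
        + (2 * ((n : ℝ) - 2) - 2 + 2) := by
    intro i; ring
  rw [Finset.sum_congr rfl (fun i _ => e2 i), Finset.sum_add_distrib, ← Finset.sum_mul,
    sum_al h2]
  simp only [Finset.sum_const, Finset.card_univ, Fintype.card_fin, nsmul_eq_mul]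
  field_simp
  ring

theorem pairSum_dK {n : ℕ} (hn : 4 ≤ n) :
    pairSum (dK n) = 4 / ((n : ℝ) - 2) + ((n : ℝ) - 2) ^ 2 + ((n : ℝ) - 2) := by
  rw [pairSum_eq_half _ (dK_symm hn) dK_self, sum_sum_dK (by omega)]
  ring

theorem kTwo_mul_dK {n : ℕ} (i j : Fin n) : kTwo n i j * dK n i j = kTwo n i j := by
  by_cases hij : i = j
  · subst hij
    rw [dK_self, (kTwo_isCapacity n).2.2 i]; ring
  · rw [dK_ne hij]
    unfold kTwo
    by_cases hi : i.val < 2 <;> by_cases hj : j.val < 2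
    · rw [if_neg (by omega)]; ring
    · rw [if_pos (by omega), if_neg (by omega), if_neg (by omega)]; ring
    · rw [if_pos (by omega), if_neg (by omega), if_neg (by omega)]; ring
    · rw [if_neg (by omega)]; ring

theorem pairSum_kTwo_dK {n : ℕ} (hn : 2 ≤ n) :
    pairSum (fun i j => kTwo n i j * dK n i j) = 2 * ((n : ℝ) - 2) := by
  have e : (fun i j => kTwo n i j * dK n i j) = kTwo n := by
    funext i j; exact kTwo_mul_dK i j
  rw [e, pairSum_eq_half _ (kTwo_isCapacity n).1 (kTwo_isCapacity n).2.2]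
  simp only [kTwo_eq]
  rw [sum_sum_cross hn]
  ring

/-- Upper bound for the relaxation value of `kTwo n`. -/
theorem kTwo_gl_le {n : ℕ} (hn : 4 ≤ n) :
    glValue (kTwo n) ≤ 2 * ((n : ℝ) - 2)
      / (4 / ((n : ℝ) - 2) + ((n : ℝ) - 2) ^ 2 + ((n : ℝ) - 2)) := by
  have hn' : (4 : ℝ) ≤ (n : ℝ) := by exact_mod_cast hn
  have hm : 0 < (n : ℝ) - 2 := by linarith
  have hpos : 0 < pairSum (dK n) := by
    rw [pairSum_dK hn]; positivity
  have h := glValue_le_of_negType (kTwo n) (kTwo_isCapacity n) (dK n) (dK_negType hn) hpos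
  rw [pairSum_kTwo_dK (by omega), pairSum_dK hn] at h
  exact h

/-- A cross pair of `kTwo n` is dominated by the full objective double sum. -/
theorem cross_le_total {n : ℕ} (d : Fin n → Fin n → ℝ) (hd : ∀ i j, 0 ≤ d i j) (i j : Fin n)
    (hc : kTwo n i j = 1) : d i j ≤ ∑ a, ∑ b, kTwo n a b * d a b := by
  have hnn : ∀ a b, 0 ≤ kTwo n a b * d a b :=
    fun a b => mul_nonneg ((kTwo_isCapacity n).2.1 a b) (hd a b)
  have h1 : kTwo n i j * d i j ≤ ∑ b, kTwo n i b * d i b :=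
    Finset.single_le_sum (f := fun b => kTwo n i b * d i b) (fun b _ => hnn i b)
      (Finset.mem_univ j)
  have h2 : ∑ b, kTwo n i b * d i b ≤ ∑ a, ∑ b, kTwo n a b * d a b :=
    Finset.single_le_sum (f := fun a => ∑ b, kTwo n a b * d a b)
      (fun a _ => Finset.sum_nonneg fun b _ => hnn a b) (Finset.mem_univ i)
  rw [hc, one_mul] at h1
  linarith

theorem kTwo_cross {n : ℕ} {i j : Fin n} (h : (i.val < 2 ∧ 2 ≤ j.val) ∨ (2 ≤ i.val ∧ j.val < 2)) :
    kTwo n i j = 1 := by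
  unfold kTwo; rw [if_pos h]

/-- Every distance is at most twice the objective double sum of `kTwo n`. -/
theorem dist_le_two_total {n : ℕ} (hn : 3 ≤ n) (d : Fin n → Fin n → ℝ)
    (hd : IsNegTypeSemimetric d) (i j : Fin n) :
    d i j ≤ 2 * ∑ a, ∑ b, kTwo n a b * d a b := by
  have hnn : ∀ a b, 0 ≤ d a b := hd.nonneg
  have hT : 0 ≤ ∑ a, ∑ b, kTwo n a b * d a b :=
    Finset.sum_nonneg fun a _ => Finset.sum_nonneg fun b _ =>
      mul_nonneg ((kTwo_isCapacity n).2.1 a b) (hnn a b)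
  by_cases hi : i.val < 2 <;> by_cases hj : j.val < 2
  · have h1 := cross_le_total d hnn i ⟨2, by omega⟩ (kTwo_cross (Or.inl ⟨hi, le_refl 2⟩))
    have h2 := cross_le_total d hnn ⟨2, by omega⟩ j (kTwo_cross (Or.inr ⟨le_refl 2, hj⟩))
    have h3 := hd.2 i ⟨2, by omega⟩ j
    linarith
  · have h1 := cross_le_total d hnn i j (kTwo_cross (Or.inl ⟨hi, by omega⟩))
    linarith
  · have h1 := cross_le_total d hnn i j (kTwo_cross (Or.inr ⟨by omega, hj⟩))
    linarith
  · have h1 := cross_le_total d hnn i ⟨0, by omega⟩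
      (kTwo_cross (Or.inr ⟨by omega, by norm_num⟩))
    have h2 := cross_le_total d hnn ⟨0, by omega⟩ j
      (kTwo_cross (Or.inl ⟨by norm_num, by omega⟩))
    have h3 := hd.2 i ⟨0, by omega⟩ j
    linarith

/-- The relaxation value of `kTwo n` is positive. -/
theorem kTwo_gl_pos {n : ℕ} (hn : 3 ≤ n) : 0 < glValue (kTwo n) := by
  have hn' : (3 : ℝ) ≤ (n : ℝ) := by exact_mod_cast hn
  have hc := kTwo_isCapacity n
  have key : 1 / (2 * (n : ℝ) ^ 2) ≤ glValue (kTwo n) := by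
    apply le_csInf (gl_set_nonempty (by omega) (kTwo n) hc)
    rintro v ⟨d, hd, hd1, rfl⟩
    have hsym : ∀ i j, kTwo n i j * d i j = kTwo n j i * d j i := by
      intro i j; rw [hc.1 i j, hd.symm i j]
    have hdiag : ∀ i, kTwo n i i * d i i = 0 := by
      intro i; rw [hc.2.2 i]; ring
    have e1 := sum_sum_eq_two_pairSum (fun i j => kTwo n i j * d i j) hsym hdiag
    have e2 := sum_sum_eq_two_pairSum d hd.symm hd.self
    rw [hd1] at e2
    have hle : ∑ i : Fin n, ∑ j : Fin n, d i j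
        ≤ ∑ i : Fin n, ∑ j : Fin n, 2 * ∑ a, ∑ b, kTwo n a b * d a b :=
      Finset.sum_le_sum fun i _ => Finset.sum_le_sum fun j _ => dist_le_two_total hn d hd i j
    simp only [Finset.sum_const, Finset.card_univ, Fintype.card_fin, nsmul_eq_mul] at hle
    rw [e2, e1] at hle
    rw [div_le_iff₀ (by positivity)]
    nlinarith
  have : 0 < 1 / (2 * (n : ℝ) ^ 2) := by positivity
  linarith

/-- For every `n ≥ 5` the instance `kTwo n` has `GL > 0` and ratio `Φ / GL` at least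
`1 + 4 / ((n - 2)^2 (n - 1))`. -/
theorem kTwo_gap {n : ℕ} (hn : 5 ≤ n) :
    0 < glValue (kTwo n) ∧
      (1 + 4 / (((n : ℝ) - 2) ^ 2 * ((n : ℝ) - 1))) * glValue (kTwo n) ≤ sparsity (kTwo n) := by
  have hn' : (5 : ℝ) ≤ (n : ℝ) := by exact_mod_cast hn
  have hm : 0 < (n : ℝ) - 2 := by linarith
  have hm1 : 0 < (n : ℝ) - 1 := by linarith
  refine ⟨kTwo_gl_pos (by omega), ?_⟩
  have h1 := kTwo_gl_le (n := n) (by omega)
  have h2 := kTwo_sparsity_ge hn
  have hfac : 0 < 1 + 4 / (((n : ℝ) - 2) ^ 2 * ((n : ℝ) - 1)) := by positivity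
  have h3 := mul_le_mul_of_nonneg_left h1 hfac.le
  have e : (1 + 4 / (((n : ℝ) - 2) ^ 2 * ((n : ℝ) - 1))) *
      (2 * ((n : ℝ) - 2) / (4 / ((n : ℝ) - 2) + ((n : ℝ) - 2) ^ 2 + ((n : ℝ) - 2)))
      = 2 / ((n : ℝ) - 1) := by
    have hden : 4 / ((n : ℝ) - 2) + ((n : ℝ) - 2) ^ 2 + ((n : ℝ) - 2) ≠ 0 := by positivity
    field_simp
    ring
  rw [e] at h3
  linarith

end Vale.Agent.Lib.P318
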