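import Mathlib
import Vale.Agent.Lib.P318.Defs
import Vale.Agent.Lib.P318.Basic
import Vale.Agent.Lib.P318.General
import Vale.Agent.Lib.P318.Cut5

namespace Vale.Agent.Lib.P318

theorem met4_cut (d01 d02 d03 d12 d13 d23 : ℝ)
    (h1_0 : 0 ≤ -d01 + d02 + d12)
    (h1_1 : 0 ≤ -d01 + d03 + d13)
    (h1_2 : 0 ≤ d01 - d02 + d12)
    (h1_3 : 0 ≤ -d02 + d03 + d23)
    (h1_4 : 0 ≤ d01 - d03 + d13)
    (h1_5 : 0 ≤ d02 - d03 + d23)
    (h1_6 : 0 ≤ d01 + d02 - d12)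
    (h1_7 : 0 ≤ -d12 + d13 + d23)
    (h1_8 : 0 ≤ d01 + d03 - d13)
    (h1_9 : 0 ≤ d12 - d13 + d23)
    (h1_10 : 0 ≤ d02 + d03 - d23)
    (h1_11 : 0 ≤ d12 + d13 - d23)
    : ∃ l0 l1 l2 l01 l02 l12 l012 : ℝ,
      0 ≤ l0 ∧
      0 ≤ l1 ∧
      0 ≤ l2 ∧
      0 ≤ l01 ∧
      0 ≤ l02 ∧
      0 ≤ l12 ∧
      0 ≤ l012 ∧
      d01 = l0 + l1 + l02 + l12 ∧
      d02 = l0 + l2 + l01 + l12 ∧
      d03 = l0 + l01 + l02 + l012 ∧
      d12 = l1 + l2 + l01 + l02 ∧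
      d13 = l1 + l01 + l12 + l012 ∧
      d23 = l2 + l02 + l12 + l012 := by
  obtain ⟨t, hl_t, hu_t⟩ := exists_mid [-(1/2) * d01 - (1/2) * d02 + (1/2) * d13 + (1/2) * d23, -(1/2) * d01 + (1/2) * d03 - (1/2) * d12 + (1/2) * d23, -(1/2) * d02 + (1/2) * d03 - (1/2) * d12 + (1/2) * d13, 0] [-(1/2) * d01 + (1/2) * d03 + (1/2) * d13, -(1/2) * d02 + (1/2) * d03 + (1/2) * d23, -(1/2) * d12 + (1/2) * d13 + (1/2) * d23] (by simp) (by
    intro l hl u hu
    simp only [List.mem_cons, List.not_mem_nil, or_false] at hl hu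
    rcases hl with rfl | rfl | rfl | rfl
    · rcases hu with rfl | rfl | rfl
      · linear_combination (1/2) * h1_10
      · linear_combination (1/2) * h1_8
      · linear_combination (1/2) * h1_6
    · rcases hu with rfl | rfl | rfl
      · linear_combination (1/2) * h1_11
      · linear_combination (1/2) * h1_2
      · linear_combination (1/2) * h1_4
    · rcases hu with rfl | rfl | rfl
      · linear_combination (1/2) * h1_0
      · linear_combination (1/2) * h1_9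
      · linear_combination (1/2) * h1_5
    · rcases hu with rfl | rfl | rfl
      · linear_combination (1/2) * h1_1
      · linear_combination (1/2) * h1_3
      · linear_combination (1/2) * h1_7
    )
  have h0_0 : 0 ≤ d01 + d02 - d13 - d23 + 2 * t := by linear_combination 2 * (hl_t _ (List.mem_cons_self))
  have h0_1 : 0 ≤ d01 - d03 + d12 - d23 + 2 * t := by linear_combination 2 * (hl_t _ (List.mem_cons_of_mem _ (List.mem_cons_self)))
  have h0_2 : 0 ≤ d02 - d03 + d12 - d13 + 2 * t := by linear_combination 2 * (hl_t _ (List.mem_cons_of_mem _ (List.mem_cons_of_mem _ (List.mem_cons_self))))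
  have h0_6 : 0 ≤ t := by linear_combination 1 * (hl_t _ (List.mem_cons_of_mem _ (List.mem_cons_of_mem _ (List.mem_cons_of_mem _ (List.mem_cons_self)))))
  have h0_3 : 0 ≤ -d01 + d03 + d13 - 2 * t := by linear_combination 2 * (hu_t _ (List.mem_cons_self))
  have h0_4 : 0 ≤ -d02 + d03 + d23 - 2 * t := by linear_combination 2 * (hu_t _ (List.mem_cons_of_mem _ (List.mem_cons_self)))
  have h0_5 : 0 ≤ -d12 + d13 + d23 - 2 * t := by linear_combination 2 * (hu_t _ (List.mem_cons_of_mem _ (List.mem_cons_of_mem _ (List.mem_cons_self))))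
  refine ⟨((1/2) * d01 + (1/2) * d02 - (1/2) * d13 - (1/2) * d23 + t), ((1/2) * d01 - (1/2) * d03 + (1/2) * d12 - (1/2) * d23 + t), ((1/2) * d02 - (1/2) * d03 + (1/2) * d12 - (1/2) * d13 + t), (-(1/2) * d01 + (1/2) * d03 + (1/2) * d13 - t), (-(1/2) * d02 + (1/2) * d03 + (1/2) * d23 - t), (-(1/2) * d12 + (1/2) * d13 + (1/2) * d23 - t), (t), ?_, ?_, ?_, ?_, ?_, ?_, ?_, ?_, ?_, ?_, ?_, ?_, ?_⟩
  · linear_combination (1/2) * h0_0
  · linear_combination (1/2) * h0_1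
  · linear_combination (1/2) * h0_2
  · linear_combination (1/2) * h0_3
  · linear_combination (1/2) * h0_4
  · linear_combination (1/2) * h0_5
  · linear_combination 1 * h0_6
  · ring
  · ring
  · ring
  · ring
  · ring
  · ring

theorem key4 (d01 d02 d03 d12 d13 d23 : ℝ)
    (c01 c02 c03 c12 c13 c23 φ : ℝ)
    (f0 : 0 ≤ -d01 + d02 + d12)
    (f1 : 0 ≤ -d01 + d03 + d13)
    (f2 : 0 ≤ d01 - d02 + d12)
    (f3 : 0 ≤ -d02 + d03 + d23)
    (f4 : 0 ≤ d01 - d03 + d13)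
    (f5 : 0 ≤ d02 - d03 + d23)
    (f6 : 0 ≤ d01 + d02 - d12)
    (f7 : 0 ≤ -d12 + d13 + d23)
    (f8 : 0 ≤ d01 + d03 - d13)
    (f9 : 0 ≤ d12 - d13 + d23)
    (f10 : 0 ≤ d02 + d03 - d23)
    (f11 : 0 ≤ d12 + d13 - d23)
    (k0 : φ * 3 ≤ c01 + c02 + c03)
    (k1 : φ * 3 ≤ c01 + c12 + c13)
    (k2 : φ * 3 ≤ c02 + c12 + c23)
    (k3 : φ * 4 ≤ c02 + c03 + c12 + c13)
    (k4 : φ * 4 ≤ c01 + c03 + c12 + c23)
    (k5 : φ * 4 ≤ c01 + c02 + c13 + c23)
    (k6 : φ * 3 ≤ c03 + c13 + c23)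
    : φ * (d01 + d02 + d03 + d12 + d13 + d23) ≤ c01 * d01 + c02 * d02 + c03 * d03 + c12 * d12 + c13 * d13 + c23 * d23 := by
  obtain ⟨l0, l1, l2, l01, l02, l12, l012, p0, p1, p2, p3, p4, p5, p6, e0, e1, e2, e3, e4, e5⟩ :=
    met4_cut d01 d02 d03 d12 d13 d23 f0 f1 f2 f3 f4 f5 f6 f7 f8 f9 f10 f11
  subst e0 e1 e2 e3 e4 e5
  linear_combination mul_nonneg p0 (sub_nonneg.mpr k0) + mul_nonneg p1 (sub_nonneg.mpr k1) + mul_nonneg p2 (sub_nonneg.mpr k2) + mul_nonneg p3 (sub_nonneg.mpr k3) + mul_nonneg p4 (sub_nonneg.mpr k4) + mul_nonneg p5 (sub_nonneg.mpr k5) + mul_nonneg p6 (sub_nonneg.mpr k6)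

theorem pairSum_four (f : Fin 4 → Fin 4 → ℝ) :
    pairSum f = f 0 1 + f 0 2 + f 0 3 + f 1 2 + f 1 3 + f 2 3 := by
  simp [pairSum, Fin.sum_univ_four]
  ring

theorem cut4_hyp0 (c : Fin 4 → Fin 4 → ℝ) (hc : IsCapacity c) :
    sparsity c * 3 ≤ c 0 1 + c 0 2 + c 0 3 := by
  have k := sparsity_mul_le hc ({0} : Finset (Fin 4)) (by decide) (by decide)
  rw [cutCap_eq_ite] at k
  simp [Fin.sum_univ_four] at k
  norm_num at k
  linarith [k, hc.1 1 0, hc.1 2 0, hc.1 3 0, hc.1 2 1, hc.1 3 1, hc.1 3 2]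

theorem cut4_hyp1 (c : Fin 4 → Fin 4 → ℝ) (hc : IsCapacity c) :
    sparsity c * 3 ≤ c 0 1 + c 1 2 + c 1 3 := by
  have k := sparsity_mul_le hc ({1} : Finset (Fin 4)) (by decide) (by decide)
  rw [cutCap_eq_ite] at k
  simp [Fin.sum_univ_four] at k
  norm_num at k
  linarith [k, hc.1 1 0, hc.1 2 0, hc.1 3 0, hc.1 2 1, hc.1 3 1, hc.1 3 2]

theorem cut4_hyp2 (c : Fin 4 → Fin 4 → ℝ) (hc : IsCapacity c) :
    sparsity c * 3 ≤ c 0 2 + c 1 2 + c 2 3 := by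
  have k := sparsity_mul_le hc ({2} : Finset (Fin 4)) (by decide) (by decide)
  rw [cutCap_eq_ite] at k
  simp [Fin.sum_univ_four] at k
  norm_num at k
  linarith [k, hc.1 1 0, hc.1 2 0, hc.1 3 0, hc.1 2 1, hc.1 3 1, hc.1 3 2]

theorem cut4_hyp3 (c : Fin 4 → Fin 4 → ℝ) (hc : IsCapacity c) :
    sparsity c * 4 ≤ c 0 2 + c 0 3 + c 1 2 + c 1 3 := by
  have k := sparsity_mul_le hc ({0, 1} : Finset (Fin 4)) (by decide) (by decide)
  rw [cutCap_eq_ite] at k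
  simp [Fin.sum_univ_four] at k
  norm_num at k
  linarith [k, hc.1 1 0, hc.1 2 0, hc.1 3 0, hc.1 2 1, hc.1 3 1, hc.1 3 2]

theorem cut4_hyp4 (c : Fin 4 → Fin 4 → ℝ) (hc : IsCapacity c) :
    sparsity c * 4 ≤ c 0 1 + c 0 3 + c 1 2 + c 2 3 := by
  have k := sparsity_mul_le hc ({0, 2} : Finset (Fin 4)) (by decide) (by decide)
  rw [cutCap_eq_ite] at k
  simp [Fin.sum_univ_four] at k
  norm_num at k
  linarith [k, hc.1 1 0, hc.1 2 0, hc.1 3 0, hc.1 2 1, hc.1 3 1, hc.1 3 2]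

theorem cut4_hyp5 (c : Fin 4 → Fin 4 → ℝ) (hc : IsCapacity c) :
    sparsity c * 4 ≤ c 0 1 + c 0 2 + c 1 3 + c 2 3 := by
  have k := sparsity_mul_le hc ({1, 2} : Finset (Fin 4)) (by decide) (by decide)
  rw [cutCap_eq_ite] at k
  simp [Fin.sum_univ_four] at k
  norm_num at k
  linarith [k, hc.1 1 0, hc.1 2 0, hc.1 3 0, hc.1 2 1, hc.1 3 1, hc.1 3 2]

theorem cut4_hyp6 (c : Fin 4 → Fin 4 → ℝ) (hc : IsCapacity c) :
    sparsity c * 3 ≤ c 0 3 + c 1 3 + c 2 3 := by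
  have k := sparsity_mul_le hc ({0, 1, 2} : Finset (Fin 4)) (by decide) (by decide)
  rw [cutCap_eq_ite] at k
  simp [Fin.sum_univ_four] at k
  norm_num at k
  linarith [k, hc.1 1 0, hc.1 2 0, hc.1 3 0, hc.1 2 1, hc.1 3 1, hc.1 3 2]

theorem four_pair_bound (c : Fin 4 → Fin 4 → ℝ) (hc : IsCapacity c) (d : Fin 4 → Fin 4 → ℝ)
    (hd : IsNegTypeSemimetric d) :
    sparsity c * pairSum d ≤ pairSum (fun i j => c i j * d i j) := by
  rw [pairSum_four, pairSum_four]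
  exact key4 (d 0 1) (d 0 2) (d 0 3) (d 1 2) (d 1 3) (d 2 3)
    (c 0 1) (c 0 2) (c 0 3) (c 1 2) (c 1 3) (c 2 3) (sparsity c)
    (by linarith [hd.2 0 2 1, hd.symm 2 1])
    (by linarith [hd.2 0 3 1, hd.symm 3 1])
    (by linarith [hd.2 0 1 2])
    (by linarith [hd.2 0 3 2, hd.symm 3 2])
    (by linarith [hd.2 0 1 3])
    (by linarith [hd.2 0 2 3])
    (by linarith [hd.2 1 0 2, hd.symm 1 0])
    (by linarith [hd.2 1 3 2, hd.symm 3 2])
    (by linarith [hd.2 1 0 3, hd.symm 1 0])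
    (by linarith [hd.2 1 2 3])
    (by linarith [hd.2 2 0 3, hd.symm 2 0])
    (by linarith [hd.2 2 1 3, hd.symm 2 1])
    (cut4_hyp0 c hc)
    (cut4_hyp1 c hc)
    (cut4_hyp2 c hc)
    (cut4_hyp3 c hc)
    (cut4_hyp4 c hc)
    (cut4_hyp5 c hc)
    (cut4_hyp6 c hc)

theorem gl_eq_sparsity_four (c : Fin 4 → Fin 4 → ℝ) (hc : IsCapacity c) :
    glValue c = sparsity c := by
  apply le_antisymm (glValue_le_sparsity (by norm_num) c hc)
  apply le_csInf (gl_set_nonempty (by norm_num) c hc)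
  rintro v ⟨d, hd, hd1, rfl⟩
  have h := four_pair_bound c hc d hd
  rw [hd1, mul_one] at h
  exact h

theorem pairSum_three (f : Fin 3 → Fin 3 → ℝ) : pairSum f = f 0 1 + f 0 2 + f 1 2 := by
  simp [pairSum, Fin.sum_univ_three]

theorem cut3_hyp0 (c : Fin 3 → Fin 3 → ℝ) (hc : IsCapacity c) :
    sparsity c * 2 ≤ c 0 1 + c 0 2 := by
  have k := sparsity_mul_le hc ({0} : Finset (Fin 3)) (by decide) (by decide)
  rw [cutCap_eq_ite] at k
  simp [Fin.sum_univ_three] at k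
  norm_num at k
  linarith [k, hc.1 1 0, hc.1 2 0, hc.1 2 1]

theorem cut3_hyp1 (c : Fin 3 → Fin 3 → ℝ) (hc : IsCapacity c) :
    sparsity c * 2 ≤ c 0 1 + c 1 2 := by
  have k := sparsity_mul_le hc ({1} : Finset (Fin 3)) (by decide) (by decide)
  rw [cutCap_eq_ite] at k
  simp [Fin.sum_univ_three] at k
  norm_num at k
  linarith [k, hc.1 1 0, hc.1 2 0, hc.1 2 1]

theorem cut3_hyp2 (c : Fin 3 → Fin 3 → ℝ) (hc : IsCapacity c) :
    sparsity c * 2 ≤ c 0 2 + c 1 2 := by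
  have k := sparsity_mul_le hc ({2} : Finset (Fin 3)) (by decide) (by decide)
  rw [cutCap_eq_ite] at k
  simp [Fin.sum_univ_three] at k
  norm_num at k
  linarith [k, hc.1 1 0, hc.1 2 0, hc.1 2 1]

theorem three_pair_bound (c : Fin 3 → Fin 3 → ℝ) (hc : IsCapacity c) (d : Fin 3 → Fin 3 → ℝ)
    (hd : IsNegTypeSemimetric d) :
    sparsity c * pairSum d ≤ pairSum (fun i j => c i j * d i j) := by
  rw [pairSum_three, pairSum_three]
  have k0 := cut3_hyp0 c hc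
  have k1 := cut3_hyp1 c hc
  have k2 := cut3_hyp2 c hc
  have t0 : 0 ≤ (d 0 1 + d 0 2 - d 1 2) / 2 := by linarith [hd.2 1 0 2, hd.symm 1 0]
  have t1 : 0 ≤ (d 0 1 + d 1 2 - d 0 2) / 2 := by linarith [hd.2 0 1 2]
  have t2 : 0 ≤ (d 0 2 + d 1 2 - d 0 1) / 2 := by linarith [hd.2 0 2 1, hd.symm 2 1]
  linear_combination mul_nonneg t0 (sub_nonneg.mpr k0) + mul_nonneg t1 (sub_nonneg.mpr k1)
    + mul_nonneg t2 (sub_nonneg.mpr k2)

theorem gl_eq_sparsity_three (c : Fin 3 → Fin 3 → ℝ) (hc : IsCapacity c) :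
    glValue c = sparsity c := by
  apply le_antisymm (glValue_le_sparsity (by norm_num) c hc)
  apply le_csInf (gl_set_nonempty (by norm_num) c hc)
  rintro v ⟨d, hd, hd1, rfl⟩
  have h := three_pair_bound c hc d hd
  rw [hd1, mul_one] at h
  exact h

theorem pairSum_two (f : Fin 2 → Fin 2 → ℝ) : pairSum f = f 0 1 := by
  simp [pairSum, Fin.sum_univ_two]

theorem cut2_hyp0 (c : Fin 2 → Fin 2 → ℝ) (hc : IsCapacity c) :
    sparsity c * 1 ≤ c 0 1 := by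
  have k := sparsity_mul_le hc ({0} : Finset (Fin 2)) (by decide) (by decide)
  rw [cutCap_eq_ite] at k
  simp [Fin.sum_univ_two] at k
  norm_num at k
  linarith [k]

theorem two_pair_bound (c : Fin 2 → Fin 2 → ℝ) (hc : IsCapacity c) (d : Fin 2 → Fin 2 → ℝ)
    (hd : IsNegTypeSemimetric d) :
    sparsity c * pairSum d ≤ pairSum (fun i j => c i j * d i j) := by
  rw [pairSum_two, pairSum_two]
  have k0 := cut2_hyp0 c hc
  have t0 : 0 ≤ d 0 1 := hd.nonneg 0 1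
  linear_combination mul_nonneg t0 (sub_nonneg.mpr k0)

theorem gl_eq_sparsity_two (c : Fin 2 → Fin 2 → ℝ) (hc : IsCapacity c) :
    glValue c = sparsity c := by
  apply le_antisymm (glValue_le_sparsity (by norm_num) c hc)
  apply le_csInf (gl_set_nonempty (by norm_num) c hc)
  rintro v ⟨d, hd, hd1, rfl⟩
  have h := two_pair_bound c hc d hd
  rw [hd1, mul_one] at h
  exact h

/-- For at most four vertices the Goemans-Linial relaxation is exact. -/
theorem gl_eq_sparsity_small (n : ℕ) (h2 : 2 ≤ n) (h4 : n ≤ 4) (c : Fin n → Fin n → ℝ)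
    (hc : IsCapacity c) : glValue c = sparsity c := by
  interval_cases n
  · exact gl_eq_sparsity_two c hc
  · exact gl_eq_sparsity_three c hc
  · exact gl_eq_sparsity_four c hc

end Vale.Agent.Lib.P318
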