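import Mathlib
import Vale.Agent.Lib.P318.Defs
import Vale.Agent.Lib.P318.Basic
import Vale.Agent.Lib.P318.General
import Vale.Agent.Lib.P318.Small

namespace Vale.Agent.Lib.P318

/-- Unit capacities on all pairs of distinct vertices. -/
def kComplete (n : ℕ) : Fin n → Fin n → ℝ := fun i j => if i = j then 0 else 1

theorem kComplete_isCapacity (n : ℕ) : IsCapacity (kComplete n) := by
  refine ⟨?_, ?_, ?_⟩
  · intro i j
    unfold kComplete
    by_cases h : i = j
    · subst h; rfl
    · rw [if_neg h, if_neg (Ne.symm h)]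
  · intro i j
    unfold kComplete
    split_ifs <;> norm_num
  · intro i
    simp [kComplete]

theorem kComplete_cutCap {n : ℕ} (S : Finset (Fin n)) :
    cutCap (kComplete n) S = (S.card : ℝ) * ((n : ℝ) - (S.card : ℝ)) := by
  rw [← cutCap_one S]
  unfold cutCap
  refine Finset.sum_congr rfl fun i hi => Finset.sum_congr rfl fun j hj => ?_
  unfold kComplete
  rw [if_neg]
  rintro rfl
  exact (Finset.mem_sdiff.mp hj).2 hi

theorem kComplete_sparsity {n : ℕ} (hn : 2 ≤ n) : sparsity (kComplete n) = 1 := by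
  have hset : {r : ℝ | ∃ S : Finset (Fin n), S.Nonempty ∧ S ≠ Finset.univ ∧
      r = cutRatio (kComplete n) S} = {1} := by
    ext r
    constructor
    · rintro ⟨S, h1, h2, rfl⟩
      unfold cutRatio
      rw [kComplete_cutCap]
      exact div_self (card_factor_pos S h1 h2).ne'
    · rintro rfl
      obtain ⟨S, h1, h2⟩ := exists_proper hn
      refine ⟨S, h1, h2, ?_⟩
      unfold cutRatio
      rw [kComplete_cutCap]
      exact (div_self (card_factor_pos S h1 h2).ne').symm
  unfold sparsity
  rw [hset]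
  exact csInf_singleton 1

/-- For `2 ≤ n ≤ 4` the relaxation is exact for every capacity function, and the largest
ratio `Φ(c) / GL(c)` is `1`. -/
theorem small_exact (n : ℕ) (h2 : 2 ≤ n) (h4 : n ≤ 4) :
    (∀ c : Fin n → Fin n → ℝ, IsCapacity c → glValue c = sparsity c) ∧
    IsGreatest {ρ : ℝ | ∃ c : Fin n → Fin n → ℝ, IsCapacity c ∧ 0 < glValue c ∧
      ρ = sparsity c / glValue c} 1 := by
  have hex : ∀ c : Fin n → Fin n → ℝ, IsCapacity c → glValue c = sparsity c :=
    fun c hc => gl_eq_sparsity_small n h2 h4 c hc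
  refine ⟨hex, ?_, ?_⟩
  · have hc := kComplete_isCapacity n
    have e1 := kComplete_sparsity h2
    have e2 := hex (kComplete n) hc
    refine ⟨kComplete n, hc, ?_, ?_⟩
    · rw [e2, e1]; norm_num
    · rw [e2, e1]; norm_num
  · rintro ρ ⟨c, hc, hpos, rfl⟩
    rw [hex c hc] at hpos ⊢
    rw [div_self hpos.ne']

end Vale.Agent.Lib.P318
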