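import Mathlib
import Vale.Agent.Lib.P318.Defs
import Vale.Agent.Lib.P318.FiveMain
import Vale.Agent.Lib.P318.SmallMain
import Vale.Agent.Lib.P318.Family3

namespace Vale.Agent.Lib.P318

/-- For every `n ≥ 5` some capacity function has `GL > 0` and ratio `Φ / GL` at least
`1 + 4 / ((n - 2)^2 (n - 1))`. -/
theorem gap_ge_five (n : ℕ) (hn : 5 ≤ n) :
    ∃ c : Fin n → Fin n → ℝ, IsCapacity c ∧ 0 < glValue c ∧
      1 + 4 / (((n : ℝ) - 2) ^ 2 * ((n : ℝ) - 1)) ≤ sparsity c / glValue c := by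
  obtain ⟨hpos, h⟩ := kTwo_gap hn
  exact ⟨kTwo n, kTwo_isCapacity n, hpos, by rw [le_div_iff₀ hpos]; exact h⟩

theorem threshold :
    (∀ n : ℕ, 2 ≤ n → n ≤ 4 →
      (∀ c : Fin n → Fin n → ℝ, IsCapacity c → glValue c = sparsity c) ∧
      IsGreatest {ρ : ℝ | ∃ c : Fin n → Fin n → ℝ, IsCapacity c ∧ 0 < glValue c ∧
        ρ = sparsity c / glValue c} 1) ∧
    (∀ n : ℕ, 5 ≤ n → ∃ c : Fin n → Fin n → ℝ, IsCapacity c ∧ 0 < glValue c ∧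
      1 + 4 / (((n : ℝ) - 2) ^ 2 * ((n : ℝ) - 1)) ≤ sparsity c / glValue c) ∧
    IsGreatest {ρ : ℝ | ∃ c : Fin 5 → Fin 5 → ℝ, IsCapacity c ∧ 0 < glValue c ∧
      ρ = sparsity c / glValue c} (10 / 9) :=
  ⟨small_exact, gap_ge_five, gap_five⟩

end Vale.Agent.Lib.P318
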